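import Mathlib

/-!
# Averaging out coordinates of a coordinatewise Lipschitz function of Gaussians
-/

namespace Vale.Agent.P161

open MeasureTheory ProbabilityTheory
open scoped NNReal Classical

variable {ι : Type*} [Fintype ι]

/-- The product of centred Gaussians of variance `v`. -/
noncomputable def gaussPi (ι : Type*) [Fintype ι] (v : ℝ≥0) : Measure (ι → ℝ) :=
  Measure.pi fun _ => gaussianReal 0 v

instance (v : ℝ≥0) : IsProbabilityMeasure (gaussPi ι v) := by unfold gaussPi; infer_instance

/-- `F` is Lipschitz in each coordinate with constants `L`. -/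
def IsCoordLip (L : ι → ℝ) (F : (ι → ℝ) → ℝ) : Prop :=
  ∀ x x', |F x - F x'| ≤ ∑ i, L i * |x i - x' i|

theorem IsCoordLip.continuous {L : ι → ℝ} {F : (ι → ℝ) → ℝ} (h : IsCoordLip L F) :
    Continuous F := by
  refine continuous_iff_continuousAt.mpr fun x => tendsto_iff_norm_sub_tendsto_zero.mpr ?_
  refine squeeze_zero (fun _ => norm_nonneg _) (fun y => (Real.norm_eq_abs _).le.trans (h y x)) ?_
  have hc : Continuous fun y : ι → ℝ => ∑ i, L i * |y i - x i| := by fun_prop
  simpa using hc.tendsto x

theorem memLp_coord (v : ℝ≥0) (i : ι) : MemLp (fun x : ι → ℝ => x i) 2 (gaussPi ι v) := by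
  have h := (memLp_id_gaussianReal (μ := 0) (v := v) 2)
  exact h.comp_measurePreserving (measurePreserving_eval (fun _ => gaussianReal 0 v) i)

theorem IsCoordLip.memLp {L : ι → ℝ} {F : (ι → ℝ) → ℝ} (h : IsCoordLip L F) (v : ℝ≥0) :
    MemLp F 2 (gaussPi ι v) := by
  have hg : MemLp (fun x : ι → ℝ => |F 0| + ∑ i, |L i| * ‖x i‖) 2 (gaussPi ι v) :=
    (memLp_const |F 0|).add
      (memLp_finsetSum _ fun i _ => ((memLp_coord v i).norm).const_mul |L i|)
  refine hg.mono' h.continuous.aestronglyMeasurable (ae_of_all _ fun x => ?_)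
  have h1 := h x 0
  have h2 : |F x| ≤ |F 0| + |F x - F 0| := by
    have := abs_sub_abs_le_abs_sub (F x) (F 0); linarith
  refine (Real.norm_eq_abs _).le.trans (h2.trans (add_le_add le_rfl (h1.trans ?_)))
  refine Finset.sum_le_sum fun i _ => ?_
  simp only [Pi.zero_apply, sub_zero, Real.norm_eq_abs]
  exact mul_le_mul_of_nonneg_right (le_abs_self _) (abs_nonneg _)

theorem map_update_prod (v : ℝ≥0) (i : ι) :
    ((gaussPi ι v).prod (gaussianReal 0 v)).map (fun p : (ι → ℝ) × ℝ => Function.update p.1 i p.2) =
      gaussPi ι v := by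
  refine (Measure.pi_eq fun s hs => ?_).symm
  rw [Measure.map_apply (by fun_prop) (.univ_pi hs)]
  have e : (fun p : (ι → ℝ) × ℝ => Function.update p.1 i p.2) ⁻¹' Set.univ.pi s =
      (Set.univ.pi (Function.update s i Set.univ)) ×ˢ s i := by
    ext ⟨x, y⟩
    simp only [Set.mem_preimage, Set.mem_pi, Set.mem_univ, true_implies, Set.mem_prod]
    constructor
    · intro h
      refine ⟨fun k => ?_, by simpa using h i⟩
      by_cases hk : k = i
      · subst hk; simp
      · simpa [Function.update_of_ne hk] using h k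
    · rintro ⟨h1, h2⟩ k
      by_cases hk : k = i
      · subst hk; simpa using h2
      · simpa [Function.update_of_ne hk] using h1 k
  rw [e, Measure.prod_prod, gaussPi, Measure.pi_pi,
    ← Finset.mul_prod_erase _ _ (Finset.mem_univ i),
    ← Finset.mul_prod_erase Finset.univ (fun k => gaussianReal 0 v (s k)) (Finset.mem_univ i)]
  simp only [Function.update_self, measure_univ, one_mul]
  rw [mul_comm]
  congr 1
  exact Finset.prod_congr rfl fun k hk => by
    rw [Function.update_of_ne (Finset.mem_erase.mp hk).1]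

/-- The average of `F` over coordinate `i`. -/
noncomputable def avgCoord (v : ℝ≥0) (i : ι) (F : (ι → ℝ) → ℝ) (x : ι → ℝ) : ℝ :=
  ∫ y, F (Function.update x i y) ∂gaussianReal 0 v

theorem IsCoordLip.integrable_slice {L : ι → ℝ} {F : (ι → ℝ) → ℝ} (h : IsCoordLip L F)
    (v : ℝ≥0) (i : ι) (x : ι → ℝ) :
    Integrable (fun y => F (Function.update x i y)) (gaussianReal 0 v) := by
  have hI : Integrable (fun y : ℝ => |F x| + |L i| * |y - x i|) (gaussianReal 0 v) :=
    (integrable_const _).add
      ((((memLp_id_gaussianReal (μ := 0) (v := v) 1).integrable le_rfl).sub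
        (integrable_const _)).abs.const_mul _)
  refine hI.mono' (h.continuous.comp (by fun_prop)).aestronglyMeasurable (ae_of_all _ fun y => ?_)
  have h1 := h (Function.update x i y) x
  rw [Finset.sum_eq_single i (fun k _ hk => by simp [Function.update_of_ne hk]) (by simp),
    Function.update_self] at h1
  have h2 : |F (Function.update x i y)| ≤ |F x| + |F (Function.update x i y) - F x| := by
    have := abs_sub_abs_le_abs_sub (F (Function.update x i y)) (F x); linarith
  refine (Real.norm_eq_abs _).le.trans (h2.trans (add_le_add le_rfl (h1.trans ?_)))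
  exact mul_le_mul_of_nonneg_right (le_abs_self _) (abs_nonneg _)

theorem IsCoordLip.avgCoord {L : ι → ℝ} {F : (ι → ℝ) → ℝ} (h : IsCoordLip L F)
    (hL : ∀ i, 0 ≤ L i) (v : ℝ≥0) (i : ι) : IsCoordLip L (avgCoord v i F) := by
  intro x x'
  simp only [Vale.Agent.P161.avgCoord]
  rw [← integral_sub (h.integrable_slice v i x) (h.integrable_slice v i x')]
  rw [← Real.norm_eq_abs]
  refine le_trans (norm_integral_le_of_norm_le_const
    (C := ∑ k, L k * |x k - x' k|) (ae_of_all _ fun y => ?_)) (le_of_eq ?_)
  swap
  · rw [probReal_univ, mul_one]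
  refine (Real.norm_eq_abs _).le.trans ((h _ _).trans (Finset.sum_le_sum fun k _ => ?_))
  by_cases hk : k = i
  · subst hk; simp [mul_nonneg, hL k]
  · simp [Function.update_of_ne hk]

theorem avgCoord_update (v : ℝ≥0) (i : ι) (F : (ι → ℝ) → ℝ) (x : ι → ℝ) (y : ℝ) :
    avgCoord v i F (Function.update x i y) = avgCoord v i F x := by
  simp [avgCoord]

theorem avgCoord_indep (v : ℝ≥0) (i k : ι) (F : (ι → ℝ) → ℝ)
    (hF : ∀ x y, F (Function.update x k y) = F x) (x : ι → ℝ) (y : ℝ) :
    avgCoord v i F (Function.update x k y) = avgCoord v i F x := by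
  by_cases hk : k = i
  · subst hk; exact avgCoord_update v k F x y
  · simp only [avgCoord]
    refine integral_congr_ae (ae_of_all _ fun z => ?_)
    show F (Function.update (Function.update x k y) i z) = F (Function.update x i z)
    rw [Function.update_comm hk, hF]

theorem avgCoord_cross {L : ι → ℝ} {F : (ι → ℝ) → ℝ} (h : IsCoordLip L F) (hL : ∀ i, 0 ≤ L i)
    (v : ℝ≥0) (i : ι) {Φ : (ι → ℝ) → ℝ} (hΦ : MemLp Φ 2 (gaussPi ι v))
    (hind : ∀ x y, Φ (Function.update x i y) = Φ x) :
    ∫ x, (F x - avgCoord v i F x) * Φ x ∂gaussPi ι v = 0 := by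
  have hI : Integrable (fun x => (F x - avgCoord v i F x) * Φ x) (gaussPi ι v) :=
    MemLp.integrable_mul ((h.memLp v).sub ((h.avgCoord hL v i).memLp v)) hΦ
  have hI2 : Integrable (fun p : (ι → ℝ) × ℝ =>
      (F (Function.update p.1 i p.2) - avgCoord v i F (Function.update p.1 i p.2)) *
        Φ (Function.update p.1 i p.2)) ((gaussPi ι v).prod (gaussianReal 0 v)) := by
    rw [← map_update_prod v i] at hI
    exact hI.comp_measurable (by fun_prop)
  conv_lhs => rw [← map_update_prod v i]
  rw [integral_map (by fun_prop) (by rw [map_update_prod]; exact hI.aestronglyMeasurable),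
    integral_prod _ hI2]
  refine integral_eq_zero_of_ae (ae_of_all _ fun x => ?_)
  simp only [avgCoord_update, hind, Pi.zero_apply]
  rw [integral_mul_const, integral_sub (h.integrable_slice v i x) (integrable_const _)]
  simp [Vale.Agent.P161.avgCoord]

theorem avgCoord_sq_le {L : ι → ℝ} {F : (ι → ℝ) → ℝ} (h : IsCoordLip L F) (hL : ∀ i, 0 ≤ L i)
    (v : ℝ≥0) (i : ι) :
    ∫ x, (F x - avgCoord v i F x) ^ 2 ∂gaussPi ι v ≤ 2 * v * L i ^ 2 := by
  have hz2 : ∫ z, z ^ 2 ∂gaussianReal 0 v = (v : ℝ) := by
    have hh := variance_fun_id_gaussianReal (μ := 0) (v := v)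
    rw [variance_eq_integral measurable_id'.aemeasurable] at hh
    simpa using hh
  have hz1 : Integrable (fun z : ℝ => z ^ 2) (gaussianReal 0 v) :=
    (memLp_id_gaussianReal (μ := 0) (v := v) 2).integrable_sq
  have hz : Integrable (fun z : ℝ => z) (gaussianReal 0 v) :=
    (memLp_id_gaussianReal (μ := 0) (v := v) 1).integrable le_rfl
  have hpt : ∀ x, (F x - avgCoord v i F x) ^ 2 ≤ L i ^ 2 * (x i ^ 2 + v) := by
    intro x
    have hI : Integrable (fun y => F x - F (Function.update x i y)) (gaussianReal 0 v) :=
      (integrable_const _).sub (h.integrable_slice v i x)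
    have e : F x - avgCoord v i F x = ∫ y, (F x - F (Function.update x i y)) ∂gaussianReal 0 v := by
      rw [integral_sub (integrable_const _) (h.integrable_slice v i x)]
      simp [Vale.Agent.P161.avgCoord]
    set c := ∫ y, (F x - F (Function.update x i y)) ∂gaussianReal 0 v with hc
    have hd : Integrable (fun y => L i ^ 2 * (x i ^ 2 + y ^ 2 - 2 * x i * y))
        (gaussianReal 0 v) :=
      (((integrable_const _).add hz1).sub (hz.const_mul _)).const_mul _
    have hle : ∫ y, (2 * c * (F x - F (Function.update x i y)) - c ^ 2) ∂gaussianReal 0 v ≤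
        ∫ y, L i ^ 2 * (x i ^ 2 + y ^ 2 - 2 * x i * y) ∂gaussianReal 0 v := by
      refine integral_mono ((hI.const_mul _).sub (integrable_const _)) hd fun y => ?_
      have h1 := h x (Function.update x i y)
      rw [Finset.sum_eq_single i (fun k _ hk => by simp [Function.update_of_ne hk]) (by simp),
        Function.update_self] at h1
      have h2 := pow_le_pow_left₀ (abs_nonneg _) h1 2
      rw [sq_abs, mul_pow, sq_abs] at h2
      nlinarith [sq_nonneg (F x - F (Function.update x i y) - c)]
    have iA : Integrable (fun y => x i ^ 2 + y ^ 2) (gaussianReal 0 v) :=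
      (integrable_const _).add hz1
    have iB : Integrable (fun y => 2 * x i * y) (gaussianReal 0 v) := hz.const_mul _
    have iC : Integrable (fun y => 2 * c * (F x - F (Function.update x i y))) (gaussianReal 0 v) :=
      hI.const_mul _
    rw [integral_sub iC (integrable_const _), integral_const_mul, integral_const, probReal_univ,
      one_smul, ← hc, integral_const_mul, integral_sub iA iB,
      integral_add (integrable_const _) hz1, integral_const, probReal_univ, one_smul, hz2,
      integral_const_mul, integral_id_gaussianReal] at hle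
    rw [e]
    linarith
  have hx2 : ∫ x : ι → ℝ, x i ^ 2 ∂gaussPi ι v = (v : ℝ) := by
    rw [← hz2, ← (measurePreserving_eval (fun _ : ι => gaussianReal 0 v) i).map_eq,
      integral_map (measurable_pi_apply i).aemeasurable (by fun_prop)]
    rfl
  have hI2 : Integrable (fun x : ι → ℝ => x i ^ 2) (gaussPi ι v) := (memLp_coord v i).integrable_sq
  calc _ ≤ ∫ x, L i ^ 2 * (x i ^ 2 + v) ∂gaussPi ι v :=
        integral_mono ((h.memLp v).sub ((h.avgCoord hL v i).memLp v)).integrable_sq
          ((hI2.add (integrable_const _)).const_mul _) hpt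
    _ = 2 * v * L i ^ 2 := by
        rw [integral_const_mul, integral_add hI2 (integrable_const _), hx2, integral_const,
          probReal_univ, one_smul]
        ring

/-- A Lipschitz function is close to one not depending on a set of coordinates with small
Lipschitz constants. -/
theorem exists_indep_approx {L : ι → ℝ} (hL : ∀ i, 0 ≤ L i) (v : ℝ≥0) :
    ∀ (t : Finset ι) {F : (ι → ℝ) → ℝ}, IsCoordLip L F →
      ∃ Gf : (ι → ℝ) → ℝ, IsCoordLip L Gf ∧ (∀ i ∈ t, ∀ x y, Gf (Function.update x i y) = Gf x) ∧
        (∀ k, (∀ x y, F (Function.update x k y) = F x) →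
          ∀ x y, Gf (Function.update x k y) = Gf x) ∧
        ∫ x, (F x - Gf x) ^ 2 ∂gaussPi ι v ≤ 2 * v * ∑ i ∈ t, L i ^ 2 := by
  intro t
  induction t using Finset.induction_on with
  | empty => intro F hF; exact ⟨F, hF, by simp, fun k h => h, by simp⟩
  | @insert i t hi ih =>
    intro F hF
    obtain ⟨Gf, hG1, hG2, hG3, hG4⟩ := ih (hF.avgCoord hL v i)
    have hGi : ∀ x y, Gf (Function.update x i y) = Gf x := hG3 i (avgCoord_update v i F)
    refine ⟨Gf, hG1, fun k hk => ?_, fun k hk => hG3 k (avgCoord_indep v i k F hk), ?_⟩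
    · rcases Finset.mem_insert.mp hk with rfl | hk'
      · exact hGi
      · exact hG2 k hk'
    · have m1 := (hF.memLp v).sub ((hF.avgCoord hL v i).memLp v)
      have m2 := ((hF.avgCoord hL v i).memLp v).sub (hG1.memLp v)
      have hcross := avgCoord_cross hF hL v i (Φ := fun x => avgCoord v i F x - Gf x) m2
        (fun x y => by rw [avgCoord_update, hGi])
      have i1 : Integrable (fun x => (F x - avgCoord v i F x) ^ 2) (gaussPi ι v) := m1.integrable_sq
      have i2 : Integrable (fun x => (avgCoord v i F x - Gf x) ^ 2) (gaussPi ι v) :=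
        m2.integrable_sq
      have i3 : Integrable (fun x => 2 * ((F x - avgCoord v i F x) * (avgCoord v i F x - Gf x)))
          (gaussPi ι v) := (MemLp.integrable_mul m1 m2).const_mul 2
      have e : ∀ x, (F x - Gf x) ^ 2 = ((F x - avgCoord v i F x) ^ 2 +
          (avgCoord v i F x - Gf x) ^ 2) +
            2 * ((F x - avgCoord v i F x) * (avgCoord v i F x - Gf x)) := fun x => by ring
      have i12 : Integrable (fun x => (F x - avgCoord v i F x) ^ 2 +
          (avgCoord v i F x - Gf x) ^ 2) (gaussPi ι v) := i1.add i2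
      simp only [e]
      rw [integral_add i12 i3, integral_add i1 i2, integral_const_mul, hcross, mul_zero, add_zero,
        Finset.sum_insert hi, mul_add]
      exact add_le_add (avgCoord_sq_le hF hL v i) hG4

/-- A coordinatewise Lipschitz function with zero mean has small second moment. -/
theorem sq_le_of_mean_zero {L : ι → ℝ} (hL : ∀ i, 0 ≤ L i) (v : ℝ≥0) {F : (ι → ℝ) → ℝ}
    (hF : IsCoordLip L F) (h0 : ∫ x, F x ∂gaussPi ι v = 0) :
    ∫ x, F x ^ 2 ∂gaussPi ι v ≤ 2 * v * ∑ i, L i ^ 2 := by
  obtain ⟨Gf, hG1, hG2, -, hG4⟩ := exists_indep_approx hL v Finset.univ hF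
  have hconst : ∀ x, Gf x = Gf 0 := by
    intro x
    suffices H : ∀ s : Finset ι, Gf (fun k => if k ∈ s then x k else 0) = Gf 0 by
      simpa using H Finset.univ
    intro s
    induction s using Finset.induction_on with
    | empty => simp; rfl
    | @insert k s hk ih =>
      rw [← ih, show (fun l => if l ∈ insert k s then x l else 0) =
        Function.update (fun l => if l ∈ s then x l else 0) k (x k) from ?_,
        hG2 k (Finset.mem_univ k)]
      funext l
      by_cases hl : l = k
      · subst hl; simp
      · simp [Function.update_of_ne hl, hl]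
  refine le_trans ?_ hG4
  have i1 : Integrable (fun x => F x ^ 2) (gaussPi ι v) := (hF.memLp v).integrable_sq
  have i2 : Integrable (fun x => 2 * Gf 0 * F x) (gaussPi ι v) :=
    ((hF.memLp v).integrable one_le_two).const_mul _
  have e : ∀ x, (F x - Gf x) ^ 2 = (F x ^ 2 - 2 * Gf 0 * F x) + Gf 0 ^ 2 := fun x => by
    rw [hconst x]; ring
  have i12 : Integrable (fun x => F x ^ 2 - 2 * Gf 0 * F x) (gaussPi ι v) := i1.sub i2
  simp only [e]
  rw [integral_add i12 (integrable_const _), integral_sub i1 i2, integral_const_mul, h0]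
  simp only [mul_zero, sub_zero, integral_const, probReal_univ, one_smul]
  nlinarith [sq_nonneg (Gf 0)]

end Vale.Agent.P161
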