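import Mathlib

/-!
# Dyadic Brownian increments and Gaussian identities
-/

namespace Vale.Agent.P161

open MeasureTheory ProbabilityTheory
open scoped NNReal Real

/-- The length `2^{-j}` of a step at level `j`. -/
noncomputable def stepLen (j : ℕ) : ℝ≥0 := (2⁻¹ : ℝ≥0) ^ j

theorem stepLen_coe (j : ℕ) : ((stepLen j : ℝ≥0) : ℝ) = (1 / 2 : ℝ) ^ j := by
  simp [stepLen]

theorem stepLen_pos (j : ℕ) : 0 < ((stepLen j : ℝ≥0) : ℝ) := by
  rw [stepLen_coe]; positivity

theorem stepLen_ne_zero (j : ℕ) : stepLen j ≠ 0 := pow_ne_zero _ (by norm_num)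

theorem stepLen_succ (j : ℕ) : ((stepLen (j + 1) : ℝ≥0) : ℝ) = (stepLen j : ℝ) / 2 := by
  rw [stepLen_coe, stepLen_coe, pow_succ]; ring

/-- The index set of the standard normal coordinates of one path. -/
abbrev NIdx := ℕ × ℕ

/-- Dyadic increments of a Brownian path built from standard normal coordinates by the midpoint
construction: `dyadInc j k` is the increment over `[k 2^{-j}, (k+1) 2^{-j}]`. -/
noncomputable def dyadInc : ℕ → ℕ → (NIdx → ℝ) → ℝ
  | 0, k, x => x (0, k)
  | j + 1, m, x => dyadInc j (m / 2) x / 2 +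
      (if m % 2 = 0 then 1 else -1) * (Real.sqrt (stepLen j) / 2 * x (j + 1, m / 2))

theorem dyadInc_split (j k : ℕ) (x : NIdx → ℝ) :
    dyadInc (j + 1) (2 * k) x + dyadInc (j + 1) (2 * k + 1) x = dyadInc j k x := by
  have h1 : (2 * k) / 2 = k := by omega
  have h2 : (2 * k + 1) / 2 = k := by omega
  have h3 : (2 * k) % 2 = 0 := by omega
  have h4 : (2 * k + 1) % 2 = 1 := by omega
  simp [dyadInc, h1, h2, h3, h4]
  ring

theorem measurable_dyadInc : ∀ j k, Measurable (dyadInc j k)
  | 0, k => measurable_pi_apply _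
  | j + 1, m => by
    have := measurable_dyadInc j (m / 2)
    simp only [dyadInc]
    fun_prop

/-- The law of the standard normal coordinates of one path. -/
noncomputable def stdNoise : Measure (NIdx → ℝ) := Measure.infinitePi fun _ => gaussianReal 0 1

instance : IsProbabilityMeasure stdNoise := by unfold stdNoise; infer_instance

theorem sum_pairs (f : ℕ → ℝ) : ∀ K : ℕ,
    ∑ m ∈ Finset.range (2 * K), f m = ∑ k ∈ Finset.range K, (f (2 * k) + f (2 * k + 1))
  | 0 => by simp
  | K + 1 => by
    rw [show 2 * (K + 1) = 2 * K + 1 + 1 by ring, Finset.sum_range_succ, Finset.sum_range_succ,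
      sum_pairs f K, Finset.sum_range_succ]
    ring

theorem linear_form_repr : ∀ (j K : ℕ) (lam : ℕ → ℝ), ∃ (F : Finset NIdx) (a : NIdx → ℝ),
    (∀ i ∈ F, i.1 ≤ j) ∧
    (∀ x, ∑ k ∈ Finset.range K, lam k * dyadInc j k x = ∑ i ∈ F, a i * x i) ∧
    ∑ i ∈ F, a i ^ 2 = (stepLen j : ℝ) * ∑ k ∈ Finset.range K, lam k ^ 2 := by
  intro j
  induction j with
  | zero =>
    intro K lam
    refine ⟨(Finset.range K).image (fun k => (0, k)), fun i => lam i.2, ?_, ?_, ?_⟩
    · intro i hi
      obtain ⟨k, -, rfl⟩ := Finset.mem_image.mp hi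
      rfl
    · intro x
      rw [Finset.sum_image (fun a _ b _ h => congrArg Prod.snd h)]
      simp [dyadInc]
    · rw [Finset.sum_image (fun a _ b _ h => congrArg Prod.snd h)]
      simp [stepLen]
  | succ j ih =>
    intro K lam
    set lam' : ℕ → ℝ := fun m => if m < K then lam m else 0 with hl'
    obtain ⟨F, a, hF, hx, hs⟩ := ih K (fun k => (lam' (2 * k) + lam' (2 * k + 1)) / 2)
    classical
    set N := (Finset.range K).image (fun k : ℕ => (j + 1, k)) with hN
    have hd : Disjoint F N := by
      rw [Finset.disjoint_left]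
      intro i hi hi'
      obtain ⟨k, -, rfl⟩ := Finset.mem_image.mp hi'
      have := hF _ hi
      simp at this
    set b : NIdx → ℝ := fun i => if i ∈ F then a i else
      (lam' (2 * i.2) - lam' (2 * i.2 + 1)) * (Real.sqrt (stepLen j) / 2) with hb
    refine ⟨F ∪ N, b, ?_, ?_, ?_⟩
    · intro i hi
      rcases Finset.mem_union.mp hi with h | h
      · exact (hF i h).trans (Nat.le_succ j)
      · obtain ⟨k, -, rfl⟩ := Finset.mem_image.mp h; exact le_rfl
    all_goals
      have hext : ∀ g : ℕ → ℝ → ℝ, (∀ m, g m 0 = 0) →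
          ∑ k ∈ Finset.range K, g k (lam k) =
            ∑ k ∈ Finset.range K, (g (2 * k) (lam' (2 * k)) + g (2 * k + 1) (lam' (2 * k + 1))) := by
        intro g hg
        rw [← sum_pairs (fun m => g m (lam' m))]
        rw [← Finset.sum_subset (Finset.range_mono (show K ≤ 2 * K by omega))]
        · exact Finset.sum_congr rfl fun m hm => by simp [hl', Finset.mem_range.mp hm]
        · intro m _ hm
          have : ¬ m < K := fun h => hm (Finset.mem_range.mpr h)
          simp [hl', this, hg]
      have hbN : ∀ k, b (j + 1, k) =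
          (lam' (2 * k) - lam' (2 * k + 1)) * (Real.sqrt (stepLen j) / 2) := by
        intro k
        have : (j + 1, k) ∉ F := fun h => by have := hF _ h; simp at this
        simp [hb, this]
    · intro x
      have hFx : ∑ i ∈ F, b i * x i = ∑ i ∈ F, a i * x i :=
        Finset.sum_congr rfl fun i hi => by simp [hb, hi]
      rw [Finset.sum_union hd, hFx, ← hx,
        hN, Finset.sum_image (fun p _ q _ h => congrArg Prod.snd h),
        hext (fun m c => c * dyadInc (j + 1) m x) (by simp), ← Finset.sum_add_distrib]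
      refine Finset.sum_congr rfl fun k _ => ?_
      have h1 : (2 * k) / 2 = k := by omega
      have h2 : (2 * k + 1) / 2 = k := by omega
      have h3 : (2 * k) % 2 = 0 := by omega
      have h4 : (2 * k + 1) % 2 = 1 := by omega
      simp only [dyadInc, h1, h2, h3, h4, hbN]
      norm_num
      ring
    · have hFs : ∑ i ∈ F, b i ^ 2 = ∑ i ∈ F, a i ^ 2 :=
        Finset.sum_congr rfl fun i hi => by simp [hb, hi]
      rw [Finset.sum_union hd, hFs, hs,
        hN, Finset.sum_image (fun p _ q _ h => congrArg Prod.snd h),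
        hext (fun _ c => c ^ 2) (by simp), Finset.mul_sum, Finset.mul_sum, ← Finset.sum_add_distrib]
      refine Finset.sum_congr rfl fun k _ => ?_
      have hsq := Real.sq_sqrt (le_of_lt (stepLen_pos j))
      rw [hbN, stepLen_succ]
      linear_combination ((lam' (2 * k) - lam' (2 * k + 1)) ^ 2 / 4) * hsq

/-- The law of the increments of one level is a product of centred Gaussians. -/
theorem stdNoise_map_inc (j K : ℕ) :
    stdNoise.map (fun x => fun k : Fin K => dyadInc j k x) =
      Measure.pi fun _ : Fin K => gaussianReal 0 (stepLen j) := by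
  have hm : Measurable (fun x : NIdx → ℝ => fun k : Fin K => dyadInc j k x) :=
    measurable_pi_lambda _ fun k => measurable_dyadInc j k
  haveI := Measure.isProbabilityMeasure_map (μ := stdNoise) hm.aemeasurable
  refine Measure.ext_of_charFunDual (funext fun L => ?_)
  set lam : ℕ → ℝ := fun k => if h : k < K then L (Pi.single ⟨k, h⟩ 1) else 0 with hlam
  have hL : ∀ v : Fin K → ℝ, L v = ∑ k : Fin K, lam k * v k := by
    intro v
    conv_lhs => rw [← Finset.univ_sum_single v]
    rw [map_sum]
    refine Finset.sum_congr rfl fun k _ => ?_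
    have : (Pi.single k (v k) : Fin K → ℝ) = v k • Pi.single k 1 := by
      funext i
      by_cases h : i = k
      · subst h; simp
      · simp [h]
    rw [this, map_smul, smul_eq_mul, mul_comm]
    simp [hlam]
  obtain ⟨F, a, -, hx, hs⟩ := linear_form_repr j K lam
  rw [charFunDual_pi, charFunDual_apply, integral_map hm.aemeasurable (by fun_prop)]
  have e1 : ∀ x, L (fun k : Fin K => dyadInc j k x) = ∑ i ∈ F, a i * x i := by
    intro x
    rw [hL, ← hx, Finset.sum_range (fun k => lam k * dyadInc j k x)]
  simp only [e1]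
  have e2 : (fun x : NIdx → ℝ => Complex.exp (((∑ i ∈ F, a i * x i : ℝ) : ℂ) * Complex.I)) =
      (fun z : F → ℝ => ∏ i : F, Complex.exp (((a i * z i : ℝ) : ℂ) * Complex.I)) ∘ F.restrict := by
    funext x
    simp only [Function.comp_apply, Finset.restrict, ← Complex.exp_sum, ← Finset.sum_mul,
      ← Complex.ofReal_sum]
    rw [Finset.sum_coe_sort F (fun i => a i * x i)]
  rw [e2]
  have e3 := integral_map (μ := stdNoise) (φ := F.restrict)
    (f := fun z : F → ℝ => ∏ i : F, Complex.exp (((a i * z i : ℝ) : ℂ) * Complex.I))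
    (by fun_prop) (Continuous.aestronglyMeasurable (by fun_prop))
  simp only [Function.comp_def]
  rw [← e3, stdNoise, Measure.infinitePi_map_restrict]
  rw [integral_fintype_prod_eq_prod
    (fun (i : F) (z : ℝ) => Complex.exp (((a i * z : ℝ) : ℂ) * Complex.I))]
  have e4 : ∀ (c : ℝ) (v : ℝ≥0), ∫ z, Complex.exp (((c * z : ℝ) : ℂ) * Complex.I) ∂gaussianReal 0 v
      = ((Real.exp (-(v * c ^ 2 / 2)) : ℝ) : ℂ) := by
    intro c v
    have := charFun_gaussianReal (μ := 0) (v := v) c
    rw [charFun_apply_real] at this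
    push_cast
    rw [this]
    simp
  simp only [e4]
  have e5 : ∀ k : Fin K, charFunDual (gaussianReal 0 (stepLen j))
      (L.comp (.single ℝ (fun _ => ℝ) k)) =
      ((Real.exp (-((stepLen j : ℝ) * lam k ^ 2 / 2)) : ℝ) : ℂ) := by
    intro k
    rw [charFunDual_apply, ← e4]
    congr 1
    funext z
    congr 3
    simp only [ContinuousLinearMap.comp_apply]
    rw [hL]
    rw [Finset.sum_eq_single k]
    · simp
    · intro b _ hb; simp [hb]
    · simp
  simp only [e5, ← Complex.ofReal_prod, ← Real.exp_sum]
  congr 2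
  rw [Finset.sum_neg_distrib, Finset.sum_neg_distrib, neg_inj, ← Finset.sum_div, ← Finset.sum_div,
    Finset.sum_coe_sort F (fun i => ((1 : ℝ≥0) : ℝ) * a i ^ 2), ← Finset.mul_sum,
    ← Finset.mul_sum, ← Finset.sum_range (fun k => lam k ^ 2), hs]
  simp

theorem gaussianReal_eq_withDensity_shift (c : ℝ) {v : ℝ≥0} (hv : v ≠ 0) :
    gaussianReal c v = (gaussianReal 0 v).withDensity
      (fun x => ENNReal.ofReal (Real.exp ((c * x - c ^ 2 / 2) / v))) := by
  rw [gaussianReal_of_var_ne_zero _ hv, gaussianReal_of_var_ne_zero _ hv,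
    ← withDensity_mul _ (measurable_gaussianPDF _ _) (by fun_prop)]
  congr 1
  funext x
  simp only [Pi.mul_apply, gaussianPDF]
  rw [← ENNReal.ofReal_mul (gaussianPDFReal_nonneg _ _ _)]
  congr 1
  simp only [gaussianPDFReal]
  rw [mul_assoc, mul_assoc]
  congr 1
  rw [← Real.exp_add]
  have hv' : (v : ℝ) ≠ 0 := by exact_mod_cast hv
  congr 1
  field_simp
  ring

/-- The Cameron-Martin formula for a finite product of Gaussians. -/
theorem pi_gaussian_shift {ι : Type*} [Fintype ι] (c : ι → ℝ) {v : ℝ≥0} (hv : v ≠ 0)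
    (F : (ι → ℝ) → ℂ) (hF : Measurable F) :
    ∫ x, F (fun i => c i + x i) ∂(Measure.pi fun _ : ι => gaussianReal 0 v) =
      ∫ x, (Real.exp (∑ i, (c i * x i - c i ^ 2 / 2) / v) : ℂ) * F x
        ∂(Measure.pi fun _ : ι => gaussianReal 0 v) := by
  classical
  set γ := Measure.pi fun _ : ι => gaussianReal 0 v with hγ
  set w : (ι → ℝ) → ℝ≥0 := fun x => (Real.exp (∑ i, (c i * x i - c i ^ 2 / 2) / v)).toNNReal
    with hw
  have hwm : Measurable w := by fun_prop
  have h1 : γ.map (fun x i => c i + x i) = Measure.pi fun i => gaussianReal (c i) v := by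
    rw [hγ, Measure.pi_map_pi (fun i => by fun_prop)]
    congr 1
    funext i
    rw [gaussianReal_map_const_add, zero_add]
  have h2 : γ.withDensity (fun x => (w x : ENNReal)) = Measure.pi fun i => gaussianReal (c i) v := by
    refine (Measure.pi_eq fun s hs => ?_).symm
    rw [withDensity_apply _ (.univ_pi hs), ← lintegral_indicator (.univ_pi hs)]
    have hi : ∀ i, gaussianReal (c i) v (s i) = ENNReal.ofReal
        (∫ x, (s i).indicator (fun x => Real.exp ((c i * x - c i ^ 2 / 2) / v)) x
          ∂gaussianReal 0 v) := by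
      intro i
      rw [gaussianReal_eq_withDensity_shift _ hv, withDensity_apply _ (hs i),
        integral_indicator (hs i), ofReal_integral_eq_lintegral_ofReal]
      · refine Integrable.integrableOn ?_
        have h := (integrable_exp_mul_gaussianReal (μ := 0) (v := v) (c i / v)).const_mul
          (Real.exp (-(c i ^ 2 / 2) / v))
        refine h.congr (ae_of_all _ fun x => ?_)
        simp only [← Real.exp_add]; ring_nf
      · exact ae_of_all _ fun x => (Real.exp_pos _).le
    simp only [hi]
    rw [← ENNReal.ofReal_prod_of_nonneg (fun i _ => integral_nonneg fun x =>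
        Set.indicator_nonneg (fun y _ => (Real.exp_pos _).le) x),
      ← integral_fintype_prod_eq_prod, ofReal_integral_eq_lintegral_ofReal]
    · refine lintegral_congr fun x => ?_
      by_cases hx : x ∈ Set.univ.pi s
      · rw [Set.indicator_of_mem hx]
        have : ∀ i, (s i).indicator (fun x => Real.exp ((c i * x - c i ^ 2 / 2) / v)) (x i) =
            Real.exp ((c i * x i - c i ^ 2 / 2) / v) :=
          fun i => Set.indicator_of_mem (hx i (Set.mem_univ i)) _
        simp only [this, hw, ← Real.exp_sum]
        rfl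
      · rw [Set.indicator_of_notMem hx]
        simp only [Set.mem_pi, Set.mem_univ, true_implies, not_forall] at hx
        obtain ⟨i, hi⟩ := hx
        rw [Finset.prod_eq_zero (Finset.mem_univ i) (Set.indicator_of_notMem hi _),
          ENNReal.ofReal_zero]
    · refine Integrable.fintype_prod fun i => ?_
      refine (Integrable.indicator ?_ (hs i))
      have h := (integrable_exp_mul_gaussianReal (μ := 0) (v := v) (c i / v)).const_mul
        (Real.exp (-(c i ^ 2 / 2) / v))
      refine h.congr (ae_of_all _ fun x => ?_)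
      simp only [← Real.exp_add]; ring_nf
    · exact ae_of_all _ fun x => Finset.prod_nonneg fun i _ =>
        Set.indicator_nonneg (fun y _ => (Real.exp_pos _).le) _
  have e1 : ∫ x, F (fun i => c i + x i) ∂γ = ∫ x, F x ∂(γ.map fun x i => c i + x i) :=
    (integral_map (Measurable.aemeasurable (by fun_prop)) hF.aestronglyMeasurable).symm
  rw [e1, h1, ← h2, integral_withDensity_eq_integral_smul hwm]
  refine integral_congr_ae (ae_of_all _ fun x => ?_)
  simp only [NNReal.smul_def, hw, Real.coe_toNNReal _ (Real.exp_pos _).le, Complex.real_smul]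

end Vale.Agent.P161
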