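import Vale.Agent.P161.CharFun

/-!
# The law of the innovation paths
-/

namespace Vale.Agent.P161

open SimpleGraph MeasureTheory ProbabilityTheory Filter
open scoped Classical Topology

/-- The space of increment paths of one vertex: level and step to increment. -/
abbrev IncPath := ℕ × ℕ → ℝ

/-- All dyadic increments of a path. -/
noncomputable def incPath (x : NIdx → ℝ) : IncPath := fun p => dyadInc p.1 p.2 x

theorem measurable_incPath : Measurable incPath :=
  measurable_pi_lambda _ fun p => measurable_dyadInc p.1 p.2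

/-- The law of the increment path of one vertex. -/
noncomputable def incLaw : Measure IncPath := stdNoise.map incPath

instance : IsProbabilityMeasure incLaw :=
  Measure.isProbabilityMeasure_map measurable_incPath.aemeasurable

variable {V : Type*}

theorem block_sum_ae {P : Measure (V → IncPath)}
    (h : ∀ v j k, ∀ᵐ z ∂P, z v (j, k) = z v (j + 1, 2 * k) + z v (j + 1, 2 * k + 1))
    (v : V) (j k : ℕ) : ∀ r : ℕ,
    ∀ᵐ z ∂P, z v (j, k) = ∑ i ∈ Finset.range (2 ^ r), z v (j + r, k * 2 ^ r + i)
  | 0 => ae_of_all _ fun z => by simp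
  | r + 1 => by
    have hall : ∀ᵐ z ∂P, ∀ i : ℕ, z v (j + r, k * 2 ^ r + i) =
        z v (j + r + 1, 2 * (k * 2 ^ r + i)) + z v (j + r + 1, 2 * (k * 2 ^ r + i) + 1) :=
      ae_all_iff.mpr fun i => h v (j + r) (k * 2 ^ r + i)
    filter_upwards [block_sum_ae h v j k r, hall] with z h1 h2
    rw [h1, pow_succ, mul_comm (2 ^ r) 2, sum_pairs]
    refine Finset.sum_congr rfl fun i _ => ?_
    rw [h2 i, show 2 * (k * 2 ^ r + i) = k * (2 * 2 ^ r) + 2 * i by ring]
    simp only [← add_assoc]

/-- Path laws are determined by the characteristic functions of their single-level marginals. -/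
theorem path_law_unique {P Q : Measure (V → IncPath)} [IsProbabilityMeasure P]
    [IsProbabilityMeasure Q]
    (hP : ∀ v j k, ∀ᵐ z ∂P, z v (j, k) = z v (j + 1, 2 * k) + z v (j + 1, 2 * k + 1))
    (hQ : ∀ v j k, ∀ᵐ z ∂Q, z v (j, k) = z v (j + 1, 2 * k) + z v (j + 1, 2 * k + 1))
    (hc : ∀ (S : Finset V) (J N : ℕ) (c : V → ℕ → ℝ),
      ∫ z, Complex.exp (((∑ i ∈ Finset.range N, ∑ v ∈ S, c v i * z v (J, i) : ℝ) : ℂ) *
          Complex.I) ∂P =
        ∫ z, Complex.exp (((∑ i ∈ Finset.range N, ∑ v ∈ S, c v i * z v (J, i) : ℝ) : ℂ) *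
          Complex.I) ∂Q) :
    P = Q := by
  have hgrid : ∀ (S : Finset V) (J N : ℕ),
      P.map (fun z => fun q : S × Fin N => z q.1 (J, (q.2 : ℕ))) =
        Q.map (fun z => fun q : S × Fin N => z q.1 (J, (q.2 : ℕ))) := by
    intro S J N
    have hm : Measurable (fun z : V → IncPath => fun q : S × Fin N => z q.1 (J, (q.2 : ℕ))) := by
      fun_prop
    haveI := Measure.isProbabilityMeasure_map (μ := P) hm.aemeasurable
    haveI := Measure.isProbabilityMeasure_map (μ := Q) hm.aemeasurable
    refine Measure.ext_of_charFunDual (funext fun L => ?_)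
    set c : V → ℕ → ℝ := fun v i =>
      if h : v ∈ S ∧ i < N then L (Pi.single (⟨v, h.1⟩, ⟨i, h.2⟩) 1) else 0 with hcdef
    have hL : ∀ z : V → IncPath, L (fun q : S × Fin N => z q.1 (J, (q.2 : ℕ))) =
        ∑ i ∈ Finset.range N, ∑ v ∈ S, c v i * z v (J, i) := by
      intro z
      conv_lhs => rw [← Finset.univ_sum_single (fun q : S × Fin N => z q.1 (J, (q.2 : ℕ)))]
      rw [map_sum, Fintype.sum_prod_type, Finset.sum_comm, Finset.sum_range]
      refine Finset.sum_congr rfl fun i _ => ?_
      rw [← Finset.sum_coe_sort S (fun v => c v i * z v (J, (i : ℕ)))]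
      refine Finset.sum_congr rfl fun v _ => ?_
      have : (Pi.single (v, i) (z v (J, (i : ℕ))) : S × Fin N → ℝ) =
          z v (J, (i : ℕ)) • Pi.single (v, i) 1 := by
        funext q
        by_cases h : q = (v, i)
        · subst h; simp
        · simp [h]
      rw [this, map_smul, smul_eq_mul, mul_comm]
      simp [hcdef]
    rw [charFunDual_apply, charFunDual_apply, integral_map hm.aemeasurable (by fun_prop),
      integral_map hm.aemeasurable (by fun_prop)]
    simp only [hL]
    exact hc S J N c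
  have hcurry : ∀ R : Measure (V → IncPath), (R.map fun z => fun p : V × (ℕ × ℕ) => z p.1 p.2).map
      (fun w => fun v q => w (v, q)) = R := by
    intro R
    rw [Measure.map_map (by fun_prop) (by fun_prop)]
    exact Measure.map_id
  rw [← hcurry P, ← hcurry Q]
  congr 1
  set P' := P.map fun z => fun p : V × (ℕ × ℕ) => z p.1 p.2 with hP'
  set Q' := Q.map fun z => fun p : V × (ℕ × ℕ) => z p.1 p.2 with hQ'
  have hmu : Measurable (fun z : V → IncPath => fun p : V × (ℕ × ℕ) => z p.1 p.2) := by fun_prop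
  haveI : IsProbabilityMeasure P' := Measure.isProbabilityMeasure_map hmu.aemeasurable
  haveI : IsProbabilityMeasure Q' := Measure.isProbabilityMeasure_map hmu.aemeasurable
  have key : ∀ I : Finset (V × (ℕ × ℕ)), Q'.map I.restrict = P'.map I.restrict := by
    intro I
    set S := I.image Prod.fst
    set J := I.sup (fun p => p.2.1)
    set N := I.sup (fun p => (p.2.2 + 1) * 2 ^ (J - p.2.1))
    let Lz : (S × Fin N → ℝ) → (I → ℝ) := fun y p =>
      ∑ i ∈ Finset.range (2 ^ (J - (p : V × (ℕ × ℕ)).2.1)),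
        (if h : (p : V × (ℕ × ℕ)).2.2 * 2 ^ (J - (p : V × (ℕ × ℕ)).2.1) + i < N then
          y (⟨(p : V × (ℕ × ℕ)).1, Finset.mem_image_of_mem _ p.2⟩,
            ⟨(p : V × (ℕ × ℕ)).2.2 * 2 ^ (J - (p : V × (ℕ × ℕ)).2.1) + i, h⟩) else 0)
    have hLm : Measurable Lz := by
      refine measurable_pi_lambda _ fun p => Finset.measurable_sum _ fun i _ => ?_
      split_ifs with h
      · exact measurable_pi_apply _
      · exact measurable_const
    have step : ∀ (Mz : Measure (V → IncPath)),
        (∀ v j k, ∀ᵐ z ∂Mz, z v (j, k) = z v (j + 1, 2 * k) + z v (j + 1, 2 * k + 1)) →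
        (Mz.map fun z => fun p : V × (ℕ × ℕ) => z p.1 p.2).map I.restrict =
          (Mz.map (fun z => fun q : S × Fin N => z q.1 (J, (q.2 : ℕ)))).map Lz := by
      intro Mz hR
      rw [Measure.map_map (by fun_prop) hmu, Measure.map_map hLm (by fun_prop)]
      refine Measure.map_congr ?_
      have : ∀ᵐ z ∂Mz, ∀ p : I, z (p : V × (ℕ × ℕ)).1 (p : V × (ℕ × ℕ)).2 =
          Lz (fun q : S × Fin N => z q.1 (J, (q.2 : ℕ))) p := by
        refine ae_all_iff.mpr fun p => ?_
        obtain ⟨⟨v, j, k⟩, hp⟩ := p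
        have hj : j ≤ J := Finset.le_sup (f := fun p : V × (ℕ × ℕ) => p.2.1) hp
        have hN : (k + 1) * 2 ^ (J - j) ≤ N :=
          Finset.le_sup (f := fun p : V × (ℕ × ℕ) => (p.2.2 + 1) * 2 ^ (J - p.2.1)) hp
        filter_upwards [block_sum_ae hR v j k (J - j)] with z hz
        rw [hz]
        refine Finset.sum_congr rfl fun i hi => ?_
        have hlt : k * 2 ^ (J - j) + i < N := by
          have : i < 2 ^ (J - j) := Finset.mem_range.mp hi
          have : (k + 1) * 2 ^ (J - j) = k * 2 ^ (J - j) + 2 ^ (J - j) := by ring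
          omega
        rw [dif_pos hlt, Nat.add_sub_cancel' hj]
      filter_upwards [this] with z hz
      funext p
      exact hz p
    rw [hP', hQ', step P hP, step Q hQ, hgrid]
  refine IsProjectiveLimit.unique (P := fun I => P'.map I.restrict) (fun I => rfl) (fun I => ?_)
  exact key I

variable [Countable V] {G : SimpleGraph V} {θ : ℝ} {μ : Measure (V → Bool)}

theorem tendsto_l1_add {Ω : Type*} [MeasurableSpace Ω] {P : Measure Ω} {X Y : ℕ → Ω → ℝ}
    {x y : Ω → ℝ} (hX : ∀ n, Integrable (X n) P) (hY : ∀ n, Integrable (Y n) P)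
    (hx : Integrable x P) (hy : Integrable y P)
    (h1 : Tendsto (fun n => ∫ ω, |X n ω - x ω| ∂P) atTop (𝓝 0))
    (h2 : Tendsto (fun n => ∫ ω, |Y n ω - y ω| ∂P) atTop (𝓝 0)) :
    Tendsto (fun n => ∫ ω, |(X n ω + Y n ω) - (x ω + y ω)| ∂P) atTop (𝓝 0) := by
  refine squeeze_zero (fun _ => integral_nonneg fun _ => abs_nonneg _) (fun n => ?_)
    (by simpa using h1.add h2)
  have i1 : Integrable (fun ω => |X n ω - x ω|) P := ((hX n).sub hx).abs
  have i2 : Integrable (fun ω => |Y n ω - y ω|) P := ((hY n).sub hy).abs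
  rw [← integral_add i1 i2]
  refine integral_mono (((hX n).add (hY n)).sub (hx.add hy)).abs (i1.add i2) fun ω => ?_
  simp only [Pi.add_apply]
  rw [show X n ω + Y n ω - (x ω + y ω) = (X n ω - x ω) + (Y n ω - y ω) by ring]
  exact abs_add_le _ _

theorem ae_eq_of_l1_limits {Ω : Type*} [MeasurableSpace Ω] {P : Measure Ω} {X : ℕ → Ω → ℝ}
    {x y : Ω → ℝ} (hX : ∀ n, Integrable (X n) P) (hx : Integrable x P) (hy : Integrable y P)
    (h1 : Tendsto (fun n => ∫ ω, |X n ω - x ω| ∂P) atTop (𝓝 0))
    (h2 : Tendsto (fun n => ∫ ω, |X n ω - y ω| ∂P) atTop (𝓝 0)) :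
    x =ᵐ[P] y := by
  have h0 : ∫ ω, |x ω - y ω| ∂P ≤ 0 := by
    have hsum := h1.add h2
    rw [add_zero] at hsum
    refine ge_of_tendsto' hsum fun n => ?_
    have t := integral_abs_triangle hx (hX n) hy
    rw [show (fun ω => |X n ω - x ω|) = fun ω => |x ω - X n ω| from
      funext fun ω => abs_sub_comm _ _]
    exact t
  have h00 := le_antisymm h0 (integral_nonneg fun _ => abs_nonneg _)
  have := (integral_eq_zero_iff_of_nonneg (fun _ => abs_nonneg _) (hx.sub hy).abs).mp h00
  filter_upwards [this] with ω hω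
  have : x ω - y ω = 0 := abs_eq_zero.mp hω
  linarith

theorem innovD_split (h0 : 0 ≤ θ) (h1 : θ < 1) (hμ : IsFreeIsing G θ μ) {D : Finset V}
    (hD : (G.induce (D : Set V)).Connected) {v : V} (hv : v ∈ D) (j k : ℕ) :
    innovD G θ μ D v j k =ᵐ[sampleLaw μ]
      fun ω => innovD G θ μ D v (j + 1) (2 * k) ω + innovD G θ μ D v (j + 1) (2 * k + 1) ω := by
  refine ae_eq_of_l1_limits (X := fun r => innov G θ D v j k (r + 1))
    (fun r => integrable_innov h0 h1 hμ D v j k (r + 1)) (integrable_innovD D v j k)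
    ((integrable_innovD D v _ _).add (integrable_innovD D v _ _))
    ((innovD_tendsto h0 h1 hμ hD hv j k).comp (tendsto_add_atTop_nat 1)) ?_
  simp only [← innov_split]
  exact tendsto_l1_add (fun r => integrable_innov h0 h1 hμ D v _ _ r)
    (fun r => integrable_innov h0 h1 hμ D v _ _ r) (integrable_innovD D v _ _)
    (integrable_innovD D v _ _) (innovD_tendsto h0 h1 hμ hD hv _ _)
    (innovD_tendsto h0 h1 hμ hD hv _ _)

section Tree

variable {d : ℕ} (hG : G.IsTree) (hd : 3 ≤ d) (hreg : ∀ v, (G.neighborSet v).ncard = d)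

theorem integrable_innovLim (o v : V) (j k : ℕ) :
    Integrable (innovLim G θ μ hG hd hreg o v j k) (sampleLaw μ) := integrable_l1Lim _ _

variable (G θ μ) in
/-- The innovation paths. -/
noncomputable def innovPath (o : V) (ω : Sample V) : V → IncPath :=
  fun v p => innovLim G θ μ hG hd hreg o v p.1 p.2 ω

theorem measurable_innovPath (o : V) : Measurable (innovPath G θ μ hG hd hreg o) :=
  measurable_pi_lambda _ fun _ => measurable_pi_lambda _ fun _ => measurable_l1Lim _ _

theorem char_innovLim (h0 : 0 ≤ θ) (h1 : θ < 1) (hμ : IsFreeIsing G θ μ) (o : V) (S : Finset V)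
    (j K : ℕ) (c : V → ℕ → ℝ) :
    ∫ ω, Complex.exp (((∑ k ∈ Finset.range K, ∑ v ∈ S,
        c v k * innovLim G θ μ hG hd hreg o v j k ω : ℝ) : ℂ) * Complex.I) ∂sampleLaw μ =
      ((Real.exp (-((stepLen j : ℝ) *
        (∑ k ∈ Finset.range K, ∑ v ∈ S, c v k ^ 2) / 2)) : ℝ) : ℂ) := by
  haveI := isProb_sampleLaw hμ
  set n0 := S.sup (fun v => G.dist o v) with hn0
  have hS : ∀ n, S ⊆ ballSet hG hd hreg o (n0 + n) := fun n v hv => by
    rw [mem_ballSet]
    exact (Finset.le_sup (f := fun v => G.dist o v) hv).trans (Nat.le_add_right _ _)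
  have ht := tendsto_atTop_mono (f := fun r : ℕ => r) (g := fun r => n0 + r)
    (fun r => Nat.le_add_left r n0) tendsto_id
  have hlim := char_l1_limit (P := sampleLaw μ)
    (X := fun n ω => ∑ k ∈ Finset.range K, ∑ v ∈ S,
      c v k * innovD G θ μ (ballSet hG hd hreg o (n0 + n)) v j k ω)
    (Y := fun ω => ∑ k ∈ Finset.range K, ∑ v ∈ S, c v k * innovLim G θ μ hG hd hreg o v j k ω)
    (fun n => integrable_finsetSum _ fun k _ => integrable_finsetSum _ fun v _ =>
      (integrable_innovD _ v j k).const_mul _)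
    (integrable_finsetSum _ fun k _ => integrable_finsetSum _ fun v _ =>
      (integrable_innovLim hG hd hreg o v j k).const_mul _) ?_
  · simp only [char_innovD h0 h1 hμ (ballSet_connected hG hd hreg o _) (hS _)] at hlim
    exact tendsto_nhds_unique hlim tendsto_const_nhds
  · have hb : Tendsto (fun n => ∑ k ∈ Finset.range K, ∑ v ∈ S, |c v k| *
        ∫ ω, |innovD G θ μ (ballSet hG hd hreg o (n0 + n)) v j k ω -
          innovLim G θ μ hG hd hreg o v j k ω| ∂sampleLaw μ) atTop (𝓝 0) := by
      simpa using tendsto_finsetSum (Finset.range K) fun k _ => tendsto_finsetSum S fun v _ =>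
        ((innovLim_tendsto_center (μ := μ) hG hd hreg h0 h1 hμ o v j k).comp ht).const_mul |c v k|
    refine squeeze_zero (fun r => integral_nonneg fun _ => abs_nonneg _) (fun r => ?_) hb
    have hI : ∀ k v, Integrable (fun ω => |c v k| *
        |innovD G θ μ (ballSet hG hd hreg o (n0 + r)) v j k ω -
          innovLim G θ μ hG hd hreg o v j k ω|) (sampleLaw μ) := fun k v =>
      (((integrable_innovD _ v j k).sub (integrable_innovLim hG hd hreg o v j k)).abs).const_mul _
    simp only [← integral_const_mul]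
    rw [show (∑ k ∈ Finset.range K, ∑ v ∈ S, ∫ ω, |c v k| *
        |innovD G θ μ (ballSet hG hd hreg o (n0 + r)) v j k ω -
          innovLim G θ μ hG hd hreg o v j k ω| ∂sampleLaw μ) =
      ∫ ω, ∑ k ∈ Finset.range K, ∑ v ∈ S, |c v k| *
        |innovD G θ μ (ballSet hG hd hreg o (n0 + r)) v j k ω -
          innovLim G θ μ hG hd hreg o v j k ω| ∂sampleLaw μ by
      rw [integral_finsetSum _ fun k _ => integrable_finsetSum _ fun v _ => hI k v]
      exact Finset.sum_congr rfl fun k _ => (integral_finsetSum _ fun v _ => hI k v).symm]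
    refine integral_mono_of_nonneg (ae_of_all _ fun _ => abs_nonneg _)
      (integrable_finsetSum _ fun k _ => integrable_finsetSum _ fun v _ => hI k v)
      (ae_of_all _ fun ω => ?_)
    beta_reduce
    rw [← Finset.sum_sub_distrib]
    refine (Finset.abs_sum_le_sum_abs _ _).trans (Finset.sum_le_sum fun k _ => ?_)
    rw [← Finset.sum_sub_distrib]
    refine (Finset.abs_sum_le_sum_abs _ _).trans (Finset.sum_le_sum fun v _ => ?_)
    rw [← mul_sub, abs_mul]

theorem innovLim_split (h0 : 0 ≤ θ) (h1 : θ < 1) (hμ : IsFreeIsing G θ μ) (o v : V) (j k : ℕ) :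
    innovLim G θ μ hG hd hreg o v j k =ᵐ[sampleLaw μ] fun ω =>
      innovLim G θ μ hG hd hreg o v (j + 1) (2 * k) ω +
        innovLim G θ μ hG hd hreg o v (j + 1) (2 * k + 1) ω := by
  have ht := tendsto_atTop_mono (f := fun r : ℕ => r) (g := fun r => G.dist o v + r)
    (fun r => Nat.le_add_left r _) tendsto_id
  have hv : ∀ n, v ∈ ballSet hG hd hreg o (G.dist o v + n) := fun n => by simp [mem_ballSet]
  set D := fun n => ballSet hG hd hreg o (G.dist o v + n) with hD
  refine ae_eq_of_l1_limits (X := fun n => innovD G θ μ (D n) v j k)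
    (fun n => integrable_innovD _ v j k) (integrable_innovLim hG hd hreg o v j k)
    ((integrable_innovLim hG hd hreg o v _ _).add (integrable_innovLim hG hd hreg o v _ _))
    ((innovLim_tendsto_center (μ := μ) hG hd hreg h0 h1 hμ o v j k).comp ht) ?_
  have t := tendsto_l1_add (P := sampleLaw μ)
    (fun n => integrable_innovD (D n) v (j + 1) (2 * k))
    (fun n => integrable_innovD (D n) v (j + 1) (2 * k + 1))
    (integrable_innovLim hG hd hreg o v _ _) (integrable_innovLim hG hd hreg o v _ _)
    ((innovLim_tendsto_center (μ := μ) hG hd hreg h0 h1 hμ o v (j + 1) (2 * k)).comp ht)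
    ((innovLim_tendsto_center (μ := μ) hG hd hreg h0 h1 hμ o v (j + 1) (2 * k + 1)).comp ht)
  refine t.congr fun n => integral_congr_ae ?_
  filter_upwards [innovD_split h0 h1 hμ (ballSet_connected hG hd hreg o (G.dist o v + n))
    (hv n) j k] with ω hω
  simp only [hD, Pi.add_apply]
  rw [hω]

/-- The innovation paths are i.i.d. Brownian increment paths. -/
theorem innovPath_law (h0 : 0 ≤ θ) (h1 : θ < 1) (hμ : IsFreeIsing G θ μ) (o : V) :
    (sampleLaw μ).map (innovPath G θ μ hG hd hreg o) =
      Measure.infinitePi fun _ : V => incLaw := by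
  haveI := isProb_sampleLaw hμ
  have hm := measurable_innovPath (μ := μ) (θ := θ) hG hd hreg o
  haveI := Measure.isProbabilityMeasure_map (μ := sampleLaw μ) hm.aemeasurable
  have hnoise : (noiseLaw V).map (fun x v => incPath (x v)) =
      Measure.infinitePi fun _ : V => incLaw := by
    rw [noiseLaw, Measure.infinitePi_map_pi _ (fun _ => measurable_incPath)]
    rfl
  have hnm : Measurable (fun (x : V → NIdx → ℝ) v => incPath (x v)) :=
    measurable_pi_lambda _ fun v => measurable_incPath.comp (measurable_pi_apply v)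
  refine path_law_unique (fun v j k => ?_) (fun v j k => ?_) (fun S J N c => ?_)
  · refine (ae_map_iff hm.aemeasurable (measurableSet_eq_fun (by fun_prop) (by fun_prop))).mpr ?_
    exact innovLim_split hG hd hreg h0 h1 hμ o v j k
  · rw [← hnoise]
    refine (ae_map_iff hnm.aemeasurable (measurableSet_eq_fun (by fun_prop) (by fun_prop))).mpr ?_
    exact ae_of_all _ fun x => (dyadInc_split j k (x v)).symm
  · rw [integral_map hm.aemeasurable (Measurable.aestronglyMeasurable
      (measurable_expI (by fun_prop)))]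
    refine (char_innovLim hG hd hreg h0 h1 hμ o S J N c).trans ?_
    rw [← hnoise, integral_map hnm.aemeasurable (Measurable.aestronglyMeasurable
      (measurable_expI (by fun_prop)))]
    set g : V × Fin N → ℝ → ℂ := fun q z =>
      Complex.exp (((c q.1 q.2 * z : ℝ) : ℂ) * Complex.I) with hg
    have e : ∀ x : V → NIdx → ℝ, Complex.exp (((∑ i ∈ Finset.range N, ∑ v ∈ S,
        c v i * incPath (x v) (J, i) : ℝ) : ℂ) * Complex.I) =
        ∏ q : S × Fin N, g (q.1, q.2) (noiseVec S J N x q) := by
      intro x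
      simp only [hg, noiseVec, ← Complex.exp_sum, ← Finset.sum_mul, ← Complex.ofReal_sum]
      rw [Fintype.sum_prod_type, Finset.sum_comm (s := (Finset.univ : Finset S)), Finset.sum_range]
      congr 3
      refine Finset.sum_congr rfl fun i _ => ?_
      rw [← Finset.sum_coe_sort S (fun v => c v i * incPath (x v) (J, (i : ℕ)))]
      rfl
    simp only [e]
    have hgm : Measurable (fun z : S × Fin N → ℝ => ∏ q : S × Fin N, g (q.1, q.2) (z q)) :=
      Finset.measurable_prod _ fun q _ => by simp only [hg]; fun_prop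
    rw [← integral_map (measurable_noiseVec S J N).aemeasurable hgm.aestronglyMeasurable,
      noiseLaw_map_noiseVec,
      integral_fintype_prod_eq_prod (fun (q : S × Fin N) z => g (q.1, q.2) z)]
    have e3 : ∀ q : S × Fin N, ∫ z, g (q.1, q.2) z ∂gaussianReal 0 (stepLen J) =
        ((Real.exp (-((stepLen J : ℝ) * c q.1 q.2 ^ 2 / 2)) : ℝ) : ℂ) := by
      intro q
      simp only [hg]
      have := charFun_gaussianReal (μ := 0) (v := stepLen J) (c q.1 q.2)
      rw [charFun_apply_real] at this
      push_cast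
      rw [this]
      simp
    simp only [e3, ← Complex.ofReal_prod, ← Real.exp_sum]
    congr 2
    rw [Finset.sum_neg_distrib, ← Finset.sum_div, ← Finset.mul_sum, Fintype.sum_prod_type,
      Finset.sum_comm (s := (Finset.univ : Finset S)), Finset.sum_range]
    congr 3
    refine Finset.sum_congr rfl fun i _ => ?_
    exact (Finset.sum_coe_sort S (fun v => c v i ^ 2)).symm

end Tree

end Vale.Agent.P161
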