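import Vale.Agent.P161.Tree

/-!
# Balls in regular trees and geometric sums over them
-/

namespace Vale.Agent.P161

open SimpleGraph

variable {V : Type*} {G : SimpleGraph V} {d : ℕ}

theorem nbr_finite (hd : 3 ≤ d) (hreg : ∀ v, (G.neighborSet v).ncard = d) (v : V) :
    (G.neighborSet v).Finite :=
  Set.finite_of_ncard_pos (by rw [hreg]; omega)

theorem sphere_finite (hG : G.IsTree) (hd : 3 ≤ d) (hreg : ∀ v, (G.neighborSet v).ncard = d)
    (o : V) : ∀ n, {x | G.dist o x = n}.Finite := by
  intro n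
  induction n with
  | zero =>
    apply (Set.finite_singleton o).subset
    intro x hx
    exact (hG.connected.dist_eq_zero_iff.mp hx).symm
  | succ n ih =>
    apply (ih.biUnion (fun p _ => nbr_finite hd hreg p)).subset
    intro x hx
    simp only [Set.mem_setOf_eq] at hx
    have hne : x ≠ o := by rintro rfl; simp at hx
    obtain ⟨p, hp, hpd⟩ := exists_toward hG hne
    refine Set.mem_biUnion (x := p) ?_ hp.symm
    show G.dist o p = n
    rw [dist_comm]; rw [dist_comm] at hx; omega

theorem sphere_ncard_le (hG : G.IsTree) (hd : 3 ≤ d) (hreg : ∀ v, (G.neighborSet v).ncard = d)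
    (o : V) : ∀ n, ({x | G.dist o x = n + 1}.ncard : ℝ) ≤ d * ((d : ℝ) - 1) ^ n := by
  classical
  intro n
  induction n with
  | zero =>
    have : {x | G.dist o x = 0 + 1} = G.neighborSet o := by
      ext x; simp [dist_eq_one_iff_adj]
    rw [this, hreg]; simp
  | succ n ih =>
    set S := (sphere_finite hG hd hreg o (n + 1 + 1)).toFinset with hS
    set P := (sphere_finite hG hd hreg o (n + 1)).toFinset with hP
    have hne : ∀ x ∈ S, x ≠ o := by
      intro x hx; rintro rfl; simp [hS] at hx
    let par : V → V := fun x => if h : x ≠ o then (exists_toward hG h).choose else o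
    have hpar : ∀ x ∈ S, G.Adj x (par x) ∧ G.dist (par x) o + 1 = G.dist x o := by
      intro x hx
      simp only [par, dif_pos (hne x hx)]
      exact (exists_toward hG (hne x hx)).choose_spec
    have hcard : S.card ≤ (d - 1) * P.card := by
      refine Finset.card_le_mul_card_image_of_maps_to (f := par) ?_ _ ?_
      · intro x hx
        have := hpar x hx
        have hx' : G.dist o x = n + 1 + 1 := by simpa [hS] using hx
        simp only [hP, Set.Finite.mem_toFinset, Set.mem_setOf_eq]
        rw [dist_comm] at hx' ⊢; omega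
      · intro p hp
        have hp' : G.dist o p = n + 1 := by simpa [hP] using hp
        have hpo : p ≠ o := by rintro rfl; simp at hp'
        obtain ⟨q, hq, hqd⟩ := exists_toward hG hpo
        have hsub : ↑(S.filter (fun x => par x = p)) ⊆ G.neighborSet p \ {q} := by
          intro x hx
          simp only [Finset.coe_filter, Set.mem_setOf_eq] at hx
          obtain ⟨hxS, rfl⟩ := hx
          refine ⟨(hpar x hxS).1.symm, ?_⟩
          rintro rfl
          have hx' : G.dist o x = n + 1 + 1 := by simpa [hS] using hxS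
          rw [dist_comm] at hx' hp'; omega
        have h1 := Set.ncard_le_ncard hsub ((nbr_finite hd hreg p).diff)
        rw [Set.ncard_coe_finset] at h1
        have hq' : q ∈ G.neighborSet p := hq
        rw [Set.ncard_sdiff_singleton_of_mem hq', hreg] at h1
        exact h1
    have hS' : {x | G.dist o x = n + 1 + 1}.ncard = S.card :=
      Set.ncard_eq_toFinset_card _ _
    have hP' : {x | G.dist o x = n + 1}.ncard = P.card :=
      Set.ncard_eq_toFinset_card _ _
    rw [hS']; rw [hP'] at ih
    have hd1 : ((d - 1 : ℕ) : ℝ) = (d : ℝ) - 1 := by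
      rw [Nat.cast_sub (by omega)]; simp
    have hnn : 0 ≤ (d : ℝ) - 1 := by
      have : (3 : ℝ) ≤ d := by exact_mod_cast hd
      linarith
    calc (S.card : ℝ) ≤ ((d - 1 : ℕ) : ℝ) * P.card := by exact_mod_cast hcard
      _ ≤ ((d : ℝ) - 1) * (d * ((d : ℝ) - 1) ^ n) := by
          rw [hd1]; exact mul_le_mul_of_nonneg_left ih hnn
      _ = _ := by ring

theorem ball_finite (hG : G.IsTree) (hd : 3 ≤ d) (hreg : ∀ v, (G.neighborSet v).ncard = d)
    (o : V) (n : ℕ) : {x | G.dist o x ≤ n}.Finite := by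
  apply ((Set.finite_le_nat n).biUnion (fun m _ => sphere_finite hG hd hreg o m)).subset
  intro x hx
  exact Set.mem_biUnion (x := G.dist o x) hx rfl

/-- The closed ball as a finite set. -/
noncomputable def ballSet (hG : G.IsTree) (hd : 3 ≤ d) (hreg : ∀ v, (G.neighborSet v).ncard = d)
    (o : V) (n : ℕ) : Finset V :=
  (ball_finite hG hd hreg o n).toFinset

theorem mem_ballSet {hG : G.IsTree} {hd : 3 ≤ d} {hreg : ∀ v, (G.neighborSet v).ncard = d}
    {o : V} {n : ℕ} {x : V} : x ∈ ballSet hG hd hreg o n ↔ G.dist o x ≤ n := by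
  simp [ballSet]

theorem ballSet_connected (hG : G.IsTree) (hd : 3 ≤ d)
    (hreg : ∀ v, (G.neighborSet v).ncard = d) (o : V) (n : ℕ) :
    (G.induce (ballSet hG hd hreg o n : Set V)).Connected := by
  have ho : o ∈ (ballSet hG hd hreg o n : Set V) := by simp [mem_ballSet]
  have key : ∀ m x, G.dist o x = m → (hx : x ∈ (ballSet hG hd hreg o n : Set V)) →
      (G.induce (ballSet hG hd hreg o n : Set V)).Reachable ⟨x, hx⟩ ⟨o, ho⟩ := by
    intro m
    induction m with
    | zero =>
      intro x hx hxm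
      obtain rfl := hG.connected.dist_eq_zero_iff.mp hx
      exact Reachable.refl _
    | succ m ih =>
      intro x hx hxm
      have hne : x ≠ o := by rintro rfl; simp at hx
      obtain ⟨p, hp, hpd⟩ := exists_toward hG hne
      rw [dist_comm (u := x), hx, dist_comm] at hpd
      have hpm : p ∈ (ballSet hG hd hreg o n : Set V) := by
        rw [Finset.mem_coe, mem_ballSet] at hxm ⊢; omega
      have e : (G.induce (ballSet hG hd hreg o n : Set V)).Adj ⟨x, hxm⟩ ⟨p, hpm⟩ := hp
      exact e.reachable.trans (ih p (by omega) hpm)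
  haveI : Nonempty (ballSet hG hd hreg o n : Set V) := ⟨⟨o, ho⟩⟩
  exact ⟨fun a b => (key _ a.1 rfl a.2).trans (key _ b.1 rfl b.2).symm⟩

/-- Geometric sums over all vertices, for a ratio below `1/(d-1)`. -/
theorem geom_sum_le (hG : G.IsTree) (hd : 3 ≤ d) (hreg : ∀ v, (G.neighborSet v).ncard = d)
    {r : ℝ} (hr0 : 0 ≤ r) (hr : ((d : ℝ) - 1) * r < 1) (v : V) (s : Finset V) :
    ∑ u ∈ s, r ^ G.dist v u ≤ 1 + d * r / (1 - ((d : ℝ) - 1) * r) := by
  classical
  have hk : 0 ≤ (d : ℝ) - 1 := by
    have : (3 : ℝ) ≤ d := by exact_mod_cast hd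
    linarith
  set N := s.sup (fun u => G.dist v u) + 1 with hN
  rw [← Finset.sum_fiberwise_of_maps_to (t := Finset.range (N + 1)) (g := fun u => G.dist v u)
    (fun u hu => Finset.mem_range.mpr (by have := Finset.le_sup (f := fun u => G.dist v u) hu; omega))]
  have hb : ∀ m : ℕ, ∑ u ∈ s.filter (fun u => G.dist v u = m), r ^ G.dist v u
      ≤ ({x | G.dist v x = m}.ncard : ℝ) * r ^ m := by
    intro m
    rw [Finset.sum_congr rfl (fun u hu => by rw [(Finset.mem_filter.mp hu).2]), Finset.sum_const,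
      nsmul_eq_mul]
    refine mul_le_mul_of_nonneg_right ?_ (by positivity)
    rw [← Set.ncard_coe_finset]
    exact_mod_cast Set.ncard_le_ncard (fun x hx => (Finset.mem_filter.mp hx).2)
      (sphere_finite hG hd hreg v m)
  refine (Finset.sum_le_sum fun m _ => hb m).trans ?_
  rw [Finset.sum_range_succ', add_comm]
  have h0 : {x | G.dist v x = 0} = {v} := by
    ext x; simp [hG.connected.dist_eq_zero_iff, eq_comm]
  rw [h0, Set.ncard_singleton, Nat.cast_one, pow_zero, one_mul]
  refine add_le_add le_rfl ?_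
  have hq : 0 ≤ ((d : ℝ) - 1) * r := mul_nonneg hk hr0
  calc ∑ i ∈ Finset.range N, ({x | G.dist v x = i + 1}.ncard : ℝ) * r ^ (i + 1)
      ≤ ∑ i ∈ Finset.range N, (d : ℝ) * r * (((d : ℝ) - 1) * r) ^ i := by
        refine Finset.sum_le_sum fun i _ => ?_
        calc _ ≤ (d * ((d : ℝ) - 1) ^ i) * r ^ (i + 1) :=
              mul_le_mul_of_nonneg_right (sphere_ncard_le hG hd hreg v i) (by positivity)
          _ = _ := by rw [mul_pow, pow_succ]; ring
    _ = (d : ℝ) * r * ∑ i ∈ Finset.range N, (((d : ℝ) - 1) * r) ^ i := by rw [Finset.mul_sum]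
    _ ≤ d * r * (1 / (1 - ((d : ℝ) - 1) * r)) := by
        refine mul_le_mul_of_nonneg_left ?_ (by positivity)
        rw [le_div_iff₀ (by linarith)]
        have := geom_sum_mul (((d : ℝ) - 1) * r) N
        nlinarith [pow_nonneg hq N]
    _ = _ := by ring

/-- The weighted operator bound `∑_u θ^{d(v,u)} a^{d(u,z)} ≤ c a^{d(v,z)}`. -/
theorem schur_le (hG : G.IsTree) (hd : 3 ≤ d)
    (hreg : ∀ v, (G.neighborSet v).ncard = d) {θ a : ℝ} (hθ : 0 ≤ θ) (hθa : θ < a)
    (hr : ((d : ℝ) - 1) * (θ * a) < 1) (s : Finset V) (v z : V) :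
    ∑ u ∈ s, θ ^ G.dist v u * a ^ G.dist u z ≤
      (1 + d * (θ * a) / (1 - ((d : ℝ) - 1) * (θ * a))) / (1 - θ / a) * a ^ G.dist v z := by
  classical
  have ha : 0 < a := lt_of_le_of_lt hθ hθa
  set c0 : ℝ := 1 + d * (θ * a) / (1 - ((d : ℝ) - 1) * (θ * a)) with hc0
  have hc0nn : 0 ≤ c0 := by
    have : 0 ≤ (d : ℝ) * (θ * a) := by positivity
    have : 0 ≤ (d : ℝ) * (θ * a) / (1 - ((d : ℝ) - 1) * (θ * a)) :=
      div_nonneg this (by linarith)
    linarith
  set c := c0 / (1 - θ / a) with hc
  have hca : c0 + θ / a * c = c := by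
    have : 1 - θ / a ≠ 0 := by
      have : θ / a < 1 := (div_lt_one ha).mpr hθa
      linarith
    have e : c * (1 - θ / a) = c0 := by rw [hc]; exact div_mul_cancel₀ _ this
    linear_combination -e
  induction hn : G.dist v z generalizing v s with
  | zero =>
    obtain rfl := hG.connected.dist_eq_zero_iff.mp hn
    have hcc : c0 ≤ c := by
      have : 0 ≤ θ / a * c := mul_nonneg (by positivity)
        (div_nonneg hc0nn (by rw [sub_nonneg, div_le_one ha]; linarith))
      linarith
    calc ∑ u ∈ s, θ ^ G.dist v u * a ^ G.dist u v = ∑ u ∈ s, (θ * a) ^ G.dist v u := by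
          refine Finset.sum_congr rfl fun u _ => ?_
          rw [mul_pow, dist_comm (u := u)]
      _ ≤ c0 := geom_sum_le hG hd hreg (by positivity) hr v s
      _ ≤ c * a ^ 0 := by simpa using hcc
  | succ n ih =>
    have hne : v ≠ z := by rintro rfl; simp at hn
    obtain ⟨p, hp, hpd⟩ := exists_toward hG hne
    have hzs : z ∈ edgeSide G v p := by rw [mem_edgeSide]; omega
    rw [← Finset.sum_filter_add_sum_filter_not s (fun u => u ∈ edgeSide G v p)]
    have h1 : ∑ u ∈ s.filter (fun u => u ∈ edgeSide G v p), θ ^ G.dist v u * a ^ G.dist u z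
        ≤ θ * (c * a ^ n) := by
      have e : ∀ u ∈ s.filter (fun u => u ∈ edgeSide G v p),
          θ ^ G.dist v u * a ^ G.dist u z = θ * (θ ^ G.dist p u * a ^ G.dist u z) := by
        intro u hu
        rw [dist_of_mem_side hG hp (Finset.mem_filter.mp hu).2, pow_succ]; ring
      rw [Finset.sum_congr rfl e, ← Finset.mul_sum]
      exact mul_le_mul_of_nonneg_left (ih _ p (by omega)) hθ
    have h2 : ∑ u ∈ s.filter (fun u => ¬ u ∈ edgeSide G v p), θ ^ G.dist v u * a ^ G.dist u z
        ≤ c0 * a ^ (n + 1) := by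
      have e : ∀ u ∈ s.filter (fun u => ¬ u ∈ edgeSide G v p),
          θ ^ G.dist v u * a ^ G.dist u z = (θ * a) ^ G.dist v u * a ^ (n + 1) := by
        intro u hu
        rw [dist_across hG hp hzs u (Finset.mem_filter.mp hu).2,
          show n + 1 = 1 + G.dist p z by omega, mul_pow, pow_add, pow_add, pow_add]
        ring
      rw [Finset.sum_congr rfl e, ← Finset.sum_mul]
      exact mul_le_mul_of_nonneg_right (geom_sum_le hG hd hreg (by positivity) hr v _)
        (by positivity)
    refine (add_le_add h1 h2).trans (le_of_eq ?_)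
    calc θ * (c * a ^ n) + c0 * a ^ (n + 1) = (c0 + θ / a * c) * a ^ (n + 1) := by
          field_simp; ring
      _ = c * a ^ (n + 1) := by rw [hca]

/-- A constant for the weighted operator bound. -/
theorem exists_schur_const (hG : G.IsTree) (hd : 3 ≤ d)
    (hreg : ∀ v, (G.neighborSet v).ncard = d) {θ a : ℝ} (hθ : 0 ≤ θ) (hθa : θ < a)
    (hr : ((d : ℝ) - 1) * (θ * a) < 1) :
    ∃ c : ℝ, 0 ≤ c ∧ ∀ (s : Finset V) (v z : V),
      ∑ u ∈ s, θ ^ G.dist v u * a ^ G.dist u z ≤ c * a ^ G.dist v z := by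
  refine ⟨_, ?_, fun s v z => schur_le hG hd hreg hθ hθa hr s v z⟩
  have ha : 0 < a := lt_of_le_of_lt hθ hθa
  exact div_nonneg (add_nonneg zero_le_one (div_nonneg (by positivity) (by linarith)))
    (by rw [sub_nonneg, div_le_one ha]; linarith)

end Vale.Agent.P161
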