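import Vale.Agent.P161.Defs

/-!
# Uniform labels from fair bits
-/

namespace Vale.Agent.P161

open MeasureTheory Set

/-- The law of a fair bit. -/
noncomputable def fair : Measure Bool := (PMF.uniformOfFintype Bool).toMeasure

instance : IsProbabilityMeasure fair := by unfold fair; infer_instance

theorem fair_singleton (b : Bool) : fair {b} = 2⁻¹ := by
  simp [fair]

theorem fair_map_not : fair.map (fun b => !b) = fair := by
  refine Measure.ext_of_singleton fun b => ?_
  rw [Measure.map_apply .of_discrete (measurableSet_singleton b), fair_singleton]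
  rw [show (fun b => !b) ⁻¹' {b} = {!b} by ext x; cases b <;> simp, fair_singleton]

/-- The law of a sequence of fair bits. -/
noncomputable def bitsLaw : Measure (ℕ → Bool) := Measure.infinitePi fun _ : ℕ => fair

instance : IsProbabilityMeasure bitsLaw := by unfold bitsLaw; infer_instance

/-- A bit followed by a sequence. -/
def consBit (p : Bool × (ℕ → Bool)) : ℕ → Bool := fun n => Nat.casesOn n p.1 p.2

theorem measurable_consBit : Measurable consBit := by
  refine measurable_pi_lambda _ fun n => ?_
  cases n with
  | zero => exact measurable_fst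
  | succ n => exact (measurable_pi_apply n).comp measurable_snd

theorem map_consBit : (fair.prod bitsLaw).map consBit = bitsLaw := by
  classical
  refine Measure.eq_infinitePi _ fun F t ht => ?_
  rw [Measure.map_apply measurable_consBit (.pi F.countable_toSet fun i _ => ht i)]
  have e : consBit ⁻¹' (F : Set ℕ).pi t = (if 0 ∈ F then t 0 else Set.univ) ×ˢ
      ((F.preimage Nat.succ Nat.succ_injective.injOn : Finset ℕ) : Set ℕ).pi
        (fun n => t (n + 1)) := by
    ext ⟨a, b⟩
    simp only [Set.mem_preimage, Set.mem_pi, Finset.mem_coe, Set.mem_prod, Finset.mem_preimage]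
    constructor
    · intro h
      refine ⟨?_, fun n hn => h (n + 1) hn⟩
      split_ifs with h0
      · exact h 0 h0
      · trivial
    · rintro ⟨h0, h1⟩ n hn
      cases n with
      | zero => simpa [hn, consBit] using h0
      | succ n => exact h1 n hn
  rw [e, Measure.prod_prod, bitsLaw, Measure.infinitePi_pi _ fun n _ => ht (n + 1),
    Finset.prod_preimage' Nat.succ F Nat.succ_injective.injOn (fun n => fair (t n))]
  by_cases h0 : 0 ∈ F
  · rw [if_pos h0, ← Finset.mul_prod_erase F _ h0]
    congr 1
    refine Finset.prod_congr (Finset.ext fun n => ?_) fun _ _ => rfl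
    cases n <;> simp
  · rw [if_neg h0, measure_univ, one_mul]
    refine Finset.prod_congr (Finset.ext fun n => ?_) fun _ _ => rfl
    cases n <;> simp [h0]

/-- The number with given binary digits. -/
noncomputable def bitsVal (b : ℕ → Bool) : ℝ :=
  ∑' n, (if b n then (1 : ℝ) else 0) * (1 / 2) ^ (n + 1)

theorem summable_bits (b : ℕ → Bool) :
    Summable fun n => (if b n then (1 : ℝ) else 0) * (1 / 2) ^ (n + 1) := by
  refine Summable.of_nonneg_of_le (fun n => ?_) (fun n => ?_)
    ((summable_geometric_two).mul_left (1 / 2 : ℝ))
  · split_ifs <;> simp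
  · split_ifs
    · rw [one_mul, pow_succ']
    · simp

theorem bitsVal_mem (b : ℕ → Bool) : bitsVal b ∈ Set.Icc (0 : ℝ) 1 := by
  refine ⟨tsum_nonneg fun n => by split_ifs <;> simp, ?_⟩
  have h : ∀ n, (if b n then (1 : ℝ) else 0) * (1 / 2) ^ (n + 1) ≤ 1 / 2 * (1 / 2) ^ n := fun n => by
    split_ifs
    · rw [one_mul, pow_succ']
    · simp
  calc bitsVal b ≤ ∑' n : ℕ, (1 / 2 : ℝ) * (1 / 2) ^ n :=
        (summable_bits b).tsum_le_tsum h (summable_geometric_two.mul_left _)
    _ = 1 := by rw [tsum_mul_left, tsum_geometric_two]; norm_num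

theorem bitsVal_consBit (a : Bool) (b : ℕ → Bool) :
    bitsVal (consBit (a, b)) = (if a then 1 else 0) / 2 + bitsVal b / 2 := by
  rw [bitsVal, (summable_bits _).tsum_eq_zero_add]
  congr 1
  · show (if a then (1 : ℝ) else 0) * (1 / 2) ^ (0 + 1) = _
    ring
  · rw [bitsVal, ← tsum_div_const]
    refine tsum_congr fun n => ?_
    show (if b n then (1 : ℝ) else 0) * (1 / 2) ^ (n + 1 + 1) = _
    ring

theorem measurable_bitsVal : Measurable bitsVal := by
  refine Continuous.measurable (continuous_tsum (fun n => ?_)
    ((summable_geometric_two).mul_left (1 / 2 : ℝ)) fun n b => ?_)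
  · exact (continuous_of_discreteTopology (f := fun a : Bool => if a then (1 : ℝ) else 0)).comp
      (continuous_apply n) |>.mul continuous_const
  · rw [Real.norm_eq_abs, abs_of_nonneg (by split_ifs <;> simp)]
    split_ifs
    · rw [one_mul, pow_succ']
    · simp

/-- The distribution function of `bitsVal` is the identity on the unit interval. -/
theorem bitsVal_cdf {x : ℝ} (h0 : 0 ≤ x) (h1 : x ≤ 1) :
    (bitsLaw.map bitsVal).real (Iic x) = x := by
  set m := bitsLaw.map bitsVal with hm
  have hp : IsProbabilityMeasure m :=
    Measure.isProbabilityMeasure_map measurable_bitsVal.aemeasurable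
  have hlow : ∀ x < 0, m.real (Iic x) = 0 := by
    intro x hx
    rw [measureReal_def, hm, Measure.map_apply measurable_bitsVal measurableSet_Iic]
    have : bitsVal ⁻¹' Iic x = ∅ := by
      ext b
      simp only [mem_preimage, mem_Iic, mem_empty_iff_false, iff_false]
      linarith [(bitsVal_mem b).1]
    simp [this]
  have hhigh : ∀ x, 1 ≤ x → m.real (Iic x) = 1 := by
    intro x hx
    rw [measureReal_def, hm, Measure.map_apply measurable_bitsVal measurableSet_Iic]
    have : bitsVal ⁻¹' Iic x = univ := by
      ext b
      simp only [mem_preimage, mem_Iic, mem_univ, iff_true]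
      linarith [(bitsVal_mem b).2]
    simp [this]
  have hrec : ∀ x, m.real (Iic x) = 1 / 2 * m.real (Iic (2 * x)) + 1 / 2 * m.real (Iic (2 * x - 1)) := by
    intro x
    have hA : MeasurableSet (bitsVal ⁻¹' Iic x) := measurable_bitsVal measurableSet_Iic
    have h : bitsLaw (bitsVal ⁻¹' Iic x) =
        2⁻¹ * bitsLaw (bitsVal ⁻¹' Iic (2 * x)) + 2⁻¹ * bitsLaw (bitsVal ⁻¹' Iic (2 * x - 1)) := by
      conv_lhs => rw [← map_consBit, Measure.map_apply measurable_consBit hA,
        Measure.prod_apply (measurable_consBit hA), lintegral_fintype, Fintype.sum_bool,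
        fair_singleton, fair_singleton]
      rw [mul_comm, mul_comm _ (2⁻¹ : ENNReal), add_comm]
      congr 2
      · congr 1
        ext b
        simp only [mem_preimage, mem_Iic, bitsVal_consBit]
        constructor <;> intro h <;> simp at h ⊢ <;> linarith
      · congr 1
        ext b
        simp only [mem_preimage, mem_Iic, bitsVal_consBit]
        constructor <;> intro h <;> simp at h ⊢ <;> linarith
    simp only [measureReal_def, hm, Measure.map_apply measurable_bitsVal measurableSet_Iic]
    rw [h, ENNReal.toReal_add (by finiteness) (by finiteness), ENNReal.toReal_mul,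
      ENNReal.toReal_mul]
    norm_num
  set D : ℝ → ℝ := fun x => m.real (Iic x) - max 0 (min x 1) with hD
  have hzero : ∀ x, (x < 0 ∨ 1 ≤ x) → D x = 0 := by
    intro x h
    rcases h with h | h
    · simp only [hD, hlow x h]
      rw [min_eq_left (by linarith), max_eq_left h.le, sub_zero]
    · simp only [hD, hhigh x h]
      rw [min_eq_right h, max_eq_right zero_le_one, sub_self]
  have hbound : ∀ n : ℕ, ∀ x, |D x| ≤ 2 * (1 / 2) ^ n := by
    intro n
    induction n with
    | zero =>
      intro x
      have a1 : 0 ≤ m.real (Iic x) := measureReal_nonneg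
      have a2 : m.real (Iic x) ≤ 1 := measureReal_le_one
      have a3 : 0 ≤ max 0 (min x 1) := le_max_left _ _
      have a4 : max 0 (min x 1) ≤ 1 := max_le zero_le_one (min_le_right _ _)
      rw [abs_le]
      simp only [hD]
      constructor <;> linarith
    | succ n ih =>
      intro x
      have hc : max 0 (min x 1) =
          1 / 2 * max 0 (min (2 * x) 1) + 1 / 2 * max 0 (min (2 * x - 1) 1) := by
        rcases le_total x 0 with h | h
        · rw [max_eq_left (min_le_of_left_le h), max_eq_left (min_le_of_left_le (by linarith)),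
            max_eq_left (min_le_of_left_le (by linarith))]
          ring
        rcases le_total x (1 / 2) with h' | h'
        · rw [min_eq_left (show x ≤ 1 by linarith), max_eq_right h,
            min_eq_left (show 2 * x ≤ 1 by linarith), max_eq_right (show (0:ℝ) ≤ 2 * x by linarith),
            max_eq_left (min_le_of_left_le (show 2 * x - 1 ≤ 0 by linarith))]
          ring
        rcases le_total x 1 with h'' | h''
        · rw [min_eq_left h'', max_eq_right h, min_eq_right (show 1 ≤ 2 * x by linarith),
            max_eq_right zero_le_one, min_eq_left (show 2 * x - 1 ≤ 1 by linarith),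
            max_eq_right (show (0:ℝ) ≤ 2 * x - 1 by linarith)]
          ring
        · rw [min_eq_right h'', min_eq_right (show 1 ≤ 2 * x by linarith),
            min_eq_right (show (1:ℝ) ≤ 2 * x - 1 by linarith), max_eq_right zero_le_one]
          norm_num
      have e : D x = 1 / 2 * D (2 * x) + 1 / 2 * D (2 * x - 1) := by
        simp only [hD]
        rw [hrec x, hc]
        ring
      rcases lt_or_ge x (1 / 2) with h | h
      · rw [e, hzero (2 * x - 1) (Or.inl (by linarith)), mul_zero, add_zero,
          abs_mul, abs_of_pos (by norm_num : (0:ℝ) < 1 / 2)]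
        calc 1 / 2 * |D (2 * x)| ≤ 1 / 2 * (2 * (1 / 2) ^ n) :=
              mul_le_mul_of_nonneg_left (ih _) (by norm_num)
          _ = _ := by ring
      · rw [e, hzero (2 * x) (Or.inr (by linarith)), mul_zero, zero_add,
          abs_mul, abs_of_pos (by norm_num : (0:ℝ) < 1 / 2)]
        calc 1 / 2 * |D (2 * x - 1)| ≤ 1 / 2 * (2 * (1 / 2) ^ n) :=
              mul_le_mul_of_nonneg_left (ih _) (by norm_num)
          _ = _ := by ring
  have hlim : Filter.Tendsto (fun n : ℕ => 2 * (1 / 2 : ℝ) ^ n) Filter.atTop (nhds 0) := by
    simpa using (tendsto_pow_atTop_nhds_zero_of_lt_one (by norm_num : (0:ℝ) ≤ 1 / 2)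
      (by norm_num : (1:ℝ) / 2 < 1)).const_mul 2
  have := ge_of_tendsto' hlim fun n => hbound n x
  have : D x = 0 := abs_eq_zero.mp (le_antisymm this (abs_nonneg _))
  simp only [hD, min_eq_left h1, max_eq_right h0] at this
  linarith

/-- The label with given binary digits. -/
noncomputable def bitsLabel (b : ℕ → Bool) : unitInterval := ⟨bitsVal b, bitsVal_mem b⟩

theorem measurable_bitsLabel : Measurable bitsLabel := measurable_bitsVal.subtype_mk

theorem map_bitsLabel : bitsLaw.map bitsLabel = (volume : Measure unitInterval) := by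
  have hp : IsProbabilityMeasure (bitsLaw.map bitsLabel) :=
    Measure.isProbabilityMeasure_map measurable_bitsLabel.aemeasurable
  refine Measure.ext_of_Iic _ _ fun x => ?_
  rw [Measure.map_apply measurable_bitsLabel measurableSet_Iic, unitInterval.volume_Iic,
    show bitsLabel ⁻¹' Iic x = bitsVal ⁻¹' Iic (x : ℝ) from rfl,
    ← Measure.map_apply measurable_bitsVal measurableSet_Iic,
    ← ENNReal.ofReal_toReal (measure_ne_top _ (Iic (x : ℝ))), ← measureReal_def,
    bitsVal_cdf x.2.1 x.2.2]

end Vale.Agent.P161
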