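import Vale.Agent.P161.Limits

/-!
# The innovations have the law of the noise increments: characteristic functions
-/

namespace Vale.Agent.P161

open SimpleGraph MeasureTheory ProbabilityTheory Filter
open scoped Classical Topology

theorem pi_split {ι : Type*} [Fintype ι] (π : ι → Measure ℝ) [∀ i, IsProbabilityMeasure (π i)]
    (p : ι → Prop) [DecidablePred p] (A : ({i // p i} → ℝ) → ℂ) (g : ι → ℝ → ℂ) :
    ∫ x, A (fun i => x i) * ∏ i : {i // ¬ p i}, g i (x i) ∂Measure.pi π =
      (∫ x, A x ∂Measure.pi fun i : {i // p i} => π i) * ∏ i : {i // ¬ p i}, ∫ z, g i z ∂π i := by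
  have h := measurePreserving_piEquivPiSubtypeProd π p
  rw [← integral_fintype_prod_eq_prod, ← integral_prod_mul]
  exact h.integral_comp' (fun z => A z.1 * ∏ i : {i // ¬ p i}, g i (z.2 i))

theorem exp_I_remainder (x : ℝ) :
    ‖Complex.exp ((x : ℂ) * Complex.I) - 1 - (x : ℂ) * Complex.I‖ ≤ 3 * x ^ 2 := by
  have hn : ‖(x : ℂ) * Complex.I‖ = |x| := by simp
  by_cases hx : |x| ≤ 1
  · have := Complex.norm_exp_sub_one_sub_id_le (x := (x : ℂ) * Complex.I) (by rw [hn]; exact hx)
    rw [hn, sq_abs] at this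
    nlinarith
  · have h1 : ‖Complex.exp ((x : ℂ) * Complex.I)‖ = 1 := Complex.norm_exp_ofReal_mul_I x
    have h2 := norm_sub_le (Complex.exp ((x : ℂ) * Complex.I) - 1) ((x : ℂ) * Complex.I)
    have h3 := norm_sub_le (Complex.exp ((x : ℂ) * Complex.I)) 1
    rw [h1, norm_one] at h3
    rw [hn] at h2
    push Not at hx
    nlinarith [sq_abs x]

variable {V : Type*} [Countable V] {G : SimpleGraph V} {θ : ℝ} {μ : Measure (V → Bool)}

/-- The observation at step `k` read off from a vector of increments. -/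
noncomputable def obsOfVec (D : Finset V) {K : ℕ} (k : ℕ) (x : D × Fin K → ℝ) (u : V) : ℝ :=
  if h : u ∈ D then ∑ i ∈ Finset.univ.filter (fun i : Fin K => (i : ℕ) < k), x (⟨u, h⟩, i) else 0

theorem measurable_obsOfVec (D : Finset V) {K : ℕ} (k : ℕ) :
    Measurable (obsOfVec D k : (D × Fin K → ℝ) → V → ℝ) := by
  refine measurable_pi_lambda _ fun u => ?_
  by_cases h : u ∈ D
  · simp only [obsOfVec, dif_pos h]; fun_prop
  · simp only [obsOfVec, dif_neg h]; fun_prop

omit [Countable V] in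
theorem mfil_eq_obsVec {D D' : Finset V} (hsub : D ⊆ D') (v : V) (j : ℕ) {k K : ℕ} (hk : k ≤ K)
    (ω : Sample V) :
    mfil G θ D v j k ω = magn G θ D v (obsOfVec D' k (obsVec D' j K ω)) := by
  refine magn_congr D v fun u hu => ?_
  simp only [obsOfVec, dif_pos (hsub hu), obsVec, obs]
  refine (Finset.sum_bij (fun (i : Fin K) _ => (i : ℕ)) ?_ ?_ ?_ ?_).symm
  · intro i hi; simpa using hi
  · intro a _ b _ h; exact Fin.ext h
  · intro b hb
    exact ⟨⟨b, lt_of_lt_of_le (Finset.mem_range.mp hb) hk⟩, by simpa using hb, rfl⟩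
  · intro i _; rfl

/-- The partial exponential functional, as a function of the observation increments. -/
noncomputable def charPart (G : SimpleGraph V) (θ : ℝ) (D S : Finset V) (J : ℕ)
    (lam : V → ℕ → ℝ) (n : ℕ) (x : D × Fin n → ℝ) : ℂ :=
  ∏ i : Fin n, (Complex.exp (((∑ v ∈ S, lam v i *
      ((if h : v ∈ D then x (⟨v, h⟩, i) else 0) -
        (stepLen J : ℝ) * magn G θ D v (obsOfVec D i x)) : ℝ) : ℂ) * Complex.I) *
    ((Real.exp ((stepLen J : ℝ) * (∑ v ∈ S, lam v i ^ 2) / 2) : ℝ) : ℂ))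

theorem measurable_charPart (h0 : 0 ≤ θ) (h1 : θ < 1) (D S : Finset V) (J : ℕ)
    (lam : V → ℕ → ℝ) (n : ℕ) : Measurable (charPart G θ D S J lam n) := by
  refine Finset.measurable_prod _ fun i _ => Measurable.mul ?_ measurable_const
  refine Complex.measurable_exp.comp (Measurable.mul ?_ measurable_const)
  refine Complex.measurable_ofReal.comp (Finset.measurable_sum _ fun v _ => ?_)
  refine measurable_const.mul (Measurable.sub ?_ (measurable_const.mul ?_))
  · by_cases h : v ∈ D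
    · simp only [dif_pos h]; fun_prop
    · simp only [dif_neg h]; fun_prop
  · exact (measurable_magn h0 h1 D v).comp (measurable_obsOfVec D i)

omit [Countable V] in
theorem norm_charPart (D S : Finset V) (J : ℕ) (lam : V → ℕ → ℝ) (n : ℕ) (x : D × Fin n → ℝ) :
    ‖charPart G θ D S J lam n x‖ =
      Real.exp ((stepLen J : ℝ) * (∑ i ∈ Finset.range n, ∑ v ∈ S, lam v i ^ 2) / 2) := by
  rw [charPart, norm_prod]
  simp only [norm_mul, Complex.norm_exp_ofReal_mul_I, one_mul, Complex.norm_real,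
    Real.norm_eq_abs, Real.abs_exp, ← Real.exp_sum]
  congr 1
  rw [← Finset.sum_div, ← Finset.mul_sum, Finset.sum_range]

/-- The drift part of the exponent of step `n`. -/
noncomputable def stepAlpha (G : SimpleGraph V) (θ : ℝ) (D S : Finset V) (J : ℕ)
    (lam : V → ℕ → ℝ) (n : ℕ) (ω : Sample V) : ℝ :=
  (stepLen J : ℝ) * ∑ v ∈ S, lam v n * (spin (ω.1 v) - mfil G θ D v J n ω)

/-- The noise part of the exponent of step `n`. -/
noncomputable def stepBeta (S : Finset V) (J : ℕ) (lam : V → ℕ → ℝ) (n : ℕ)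
    (x : V → NIdx → ℝ) : ℝ :=
  ∑ v ∈ S, lam v n * dyadInc J n (x v)

omit [Countable V] in
theorem charPart_succ {D S : Finset V} (hS : S ⊆ D) (J : ℕ) (lam : V → ℕ → ℝ) (n : ℕ)
    (ω : Sample V) :
    charPart G θ D S J lam (n + 1) (obsVec D J (n + 1) ω) =
      charPart G θ D S J lam n (obsVec D J n ω) *
        Complex.exp ((stepAlpha G θ D S J lam n ω : ℂ) * Complex.I) *
        (Complex.exp ((stepBeta S J lam n ω.2 : ℂ) * Complex.I) *
          ((Real.exp ((stepLen J : ℝ) * (∑ v ∈ S, lam v n ^ 2) / 2) : ℝ) : ℂ)) := by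
  unfold charPart
  rw [Fin.prod_univ_castSucc]
  have e1 : ∀ (i : Fin n) (v : V),
      magn G θ D v (obsOfVec D (i : ℕ) (obsVec D J (n + 1) ω)) =
        magn G θ D v (obsOfVec D (i : ℕ) (obsVec D J n ω)) := by
    intro i v
    rw [← mfil_eq_obsVec subset_rfl v J (by omega : (i : ℕ) ≤ n + 1),
      ← mfil_eq_obsVec subset_rfl v J i.isLt.le]
  have e2 : ∀ v, magn G θ D v (obsOfVec D n (obsVec D J (n + 1) ω)) =
      mfil G θ D v J n ω := by
    intro v
    rw [← mfil_eq_obsVec subset_rfl v J (Nat.le_succ n)]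
  rw [mul_assoc]
  refine congrArg₂ (fun a b : ℂ => a * b) ?_ ?_
  · refine Finset.prod_congr rfl fun i _ => ?_
    simp only [Fin.val_castSucc, e1]
    rfl
  · simp only [Fin.val_last, e2]
    rw [← mul_assoc, ← Complex.exp_add, ← add_mul, ← Complex.ofReal_add]
    refine congrArg (fun t : ℝ => Complex.exp ((t : ℂ) * Complex.I) *
      ((Real.exp ((stepLen J : ℝ) * (∑ v ∈ S, lam v n ^ 2) / 2) : ℝ) : ℂ)) ?_
    simp only [stepAlpha, stepBeta, Finset.mul_sum, ← Finset.sum_add_distrib]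
    refine Finset.sum_congr rfl fun v hv => ?_
    rw [dif_pos (hS hv)]
    simp only [obsVec, obsInc, Fin.val_last]
    ring

omit [Countable V] in
theorem last_column (D : Finset V) (n : ℕ) :
    Finset.univ.filter (fun q : D × Fin (n + 1) => ¬ (q.2 : ℕ) < n) =
      (Finset.univ : Finset D).image (fun u => (u, Fin.last n)) := by
  ext ⟨u, i⟩
  simp only [Finset.mem_filter, Finset.mem_univ, true_and, Finset.mem_image, Prod.mk.injEq,
    exists_eq_left]
  constructor
  · intro hi; exact Fin.ext (by have := i.isLt; simp only [Fin.val_last]; omega)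
  · rintro rfl; simp

omit [Countable V] in
theorem prod_last_column {D S : Finset V} (hS : S ⊆ D) (n : ℕ) (F : V → Fin (n + 1) → ℂ) :
    ∏ q : {q : D × Fin (n + 1) // ¬ (q.2 : ℕ) < n},
        (if (q.1.1 : V) ∈ S then F (q.1.1 : V) q.1.2 else 1) =
      ∏ v ∈ S, F v (Fin.last n) := by
  rw [← Finset.prod_subtype (Finset.univ.filter fun q : D × Fin (n + 1) => ¬ (q.2 : ℕ) < n)
    (by simp) (fun q : D × Fin (n + 1) => if (q.1 : V) ∈ S then F (q.1 : V) q.2 else 1),
    last_column, Finset.prod_image (fun a _ b _ h => congrArg Prod.fst h)]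
  rw [Finset.prod_coe_sort D (fun v => if v ∈ S then F v (Fin.last n) else 1),
    Finset.prod_ite_mem, Finset.inter_eq_right.mpr hS]

theorem noise_step (h0 : 0 ≤ θ) (h1 : θ < 1) {D S : Finset V} (hS : S ⊆ D) (J : ℕ)
    (lam : V → ℕ → ℝ) (n : ℕ) (σ : V → Bool) :
    ∫ x, charPart G θ D S J lam n (obsVec D J n (σ, x)) *
        Complex.exp ((stepAlpha G θ D S J lam n (σ, x) : ℂ) * Complex.I) *
        (Complex.exp ((stepBeta S J lam n x : ℂ) * Complex.I) *
          ((Real.exp ((stepLen J : ℝ) * (∑ v ∈ S, lam v n ^ 2) / 2) : ℝ) : ℂ)) ∂noiseLaw V =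
      ∫ x, charPart G θ D S J lam n (obsVec D J n (σ, x)) *
        Complex.exp ((stepAlpha G θ D S J lam n (σ, x) : ℂ) * Complex.I) ∂noiseLaw V := by
  set A : ({q : D × Fin (n + 1) // (q.2 : ℕ) < n} → ℝ) → ℂ := fun z =>
    charPart G θ D S J lam n
        (fun q => (stepLen J : ℝ) * spin (σ q.1) + z ⟨(q.1, q.2.castSucc), q.2.isLt⟩) *
      Complex.exp ((((stepLen J : ℝ) * ∑ v ∈ S, lam v n * (spin (σ v) - magn G θ D v
        (obsOfVec D n (fun q : D × Fin n =>
          (stepLen J : ℝ) * spin (σ q.1) + z ⟨(q.1, q.2.castSucc), q.2.isLt⟩))) : ℝ) : ℂ) *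
        Complex.I) with hA
  set g : D × Fin (n + 1) → ℝ → ℂ := fun q z =>
    if (q.1 : V) ∈ S then Complex.exp (((lam q.1 n * z : ℝ) : ℂ) * Complex.I) else 1 with hg
  have eA : ∀ x, charPart G θ D S J lam n (obsVec D J n (σ, x)) *
      Complex.exp ((stepAlpha G θ D S J lam n (σ, x) : ℂ) * Complex.I) =
      A (fun q => noiseVec D J (n + 1) x q.1) := by
    intro x
    have evec : (fun q : D × Fin n => (stepLen J : ℝ) * spin (σ q.1) +
        noiseVec D J (n + 1) x (q.1, q.2.castSucc)) = obsVec D J n (σ, x) := by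
      funext q; rfl
    simp only [hA, stepAlpha, evec, ← mfil_eq_obsVec subset_rfl _ J (le_refl n)]
  have eg : ∀ x, Complex.exp ((stepBeta S J lam n x : ℂ) * Complex.I) =
      ∏ q : {q : D × Fin (n + 1) // ¬ (q.2 : ℕ) < n}, g q.1 (noiseVec D J (n + 1) x q.1) := by
    intro x
    simp only [hg, noiseVec]
    rw [prod_last_column hS n
      (fun v i => Complex.exp (((lam v n * dyadInc J i (x v) : ℝ) : ℂ) * Complex.I))]
    rw [stepBeta, Complex.ofReal_sum, Finset.sum_mul, Complex.exp_sum, Fin.val_last]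
  have hz : Measurable (fun z : {q : D × Fin (n + 1) // (q.2 : ℕ) < n} → ℝ => fun q : D × Fin n =>
      (stepLen J : ℝ) * spin (σ q.1) + z ⟨(q.1, q.2.castSucc), q.2.isLt⟩) := by fun_prop
  have hAm : Measurable A := by
    refine ((measurable_charPart h0 h1 D S J lam n).comp hz).mul ?_
    refine Complex.measurable_exp.comp ((Complex.measurable_ofReal.comp ?_).mul measurable_const)
    exact (Finset.measurable_sum _ fun v _ => (measurable_const.sub
      (((measurable_magn h0 h1 D v).comp (measurable_obsOfVec D n)).comp hz)).const_mul _).const_mul _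
  have hrest : Measurable (fun z : D × Fin (n + 1) → ℝ =>
      fun q : {q : D × Fin (n + 1) // (q.2 : ℕ) < n} => z q.1) :=
    measurable_pi_lambda _ fun q => measurable_pi_apply _
  have hgm : Measurable (fun z : D × Fin (n + 1) → ℝ =>
      A (fun q => z q.1) *
        ∏ q : {q : D × Fin (n + 1) // ¬ (q.2 : ℕ) < n}, g q.1 (z q.1)) := by
    refine (hAm.comp hrest).mul (Finset.measurable_prod _ fun q _ => ?_)
    simp only [hg]
    split_ifs <;> fun_prop
  have hgm1 : Measurable (fun z : D × Fin (n + 1) → ℝ =>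
      A (fun q => z q.1) *
        ∏ _q : {q : D × Fin (n + 1) // ¬ (q.2 : ℕ) < n}, (1 : ℂ)) :=
    (hAm.comp hrest).mul measurable_const
  have hm1 : AEMeasurable (noiseVec (V := V) D J (n + 1)) (noiseLaw V) :=
    (measurable_noiseVec D J (n + 1)).aemeasurable
  have s1 := pi_split (fun _ : D × Fin (n + 1) => gaussianReal 0 (stepLen J))
    (fun q => (q.2 : ℕ) < n) A g
  have s2 := pi_split (fun _ : D × Fin (n + 1) => gaussianReal 0 (stepLen J))
    (fun q => (q.2 : ℕ) < n) A (fun _ _ => (1 : ℂ))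
  rw [← noiseLaw_map_noiseVec, integral_map hm1 hgm.aestronglyMeasurable] at s1
  rw [← noiseLaw_map_noiseVec, integral_map hm1 hgm1.aestronglyMeasurable] at s2
  simp only [← eA, ← eg] at s1
  simp only [← eA, Finset.prod_const_one, mul_one, integral_const, probReal_univ, one_smul] at s2
  have e3 : ∀ q : D × Fin (n + 1), ∫ z, g q z ∂gaussianReal 0 (stepLen J) =
      if (q.1 : V) ∈ S then
        ((Real.exp (-((stepLen J : ℝ) * lam q.1 n ^ 2 / 2)) : ℝ) : ℂ) else 1 := by
    intro q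
    simp only [hg]
    split_ifs
    · have := charFun_gaussianReal (μ := 0) (v := stepLen J) (lam q.1 n)
      rw [charFun_apply_real] at this
      push_cast
      rw [this]
      simp
    · simp
  simp only [e3] at s1
  rw [prod_last_column hS n
    (fun v _ => ((Real.exp (-((stepLen J : ℝ) * lam v n ^ 2 / 2)) : ℝ) : ℂ))] at s1
  simp only [← mul_assoc]
  rw [integral_mul_const, s1, ← s2, mul_assoc, ← Complex.ofReal_prod, ← Real.exp_sum,
    ← Complex.ofReal_mul, ← Real.exp_add, Finset.sum_neg_distrib, ← Finset.sum_div,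
    ← Finset.mul_sum, neg_add_cancel, Real.exp_zero, Complex.ofReal_one, mul_one]

theorem abs_spin_sub_mfil (h0 : 0 ≤ θ) (h1 : θ < 1) (D : Finset V) (v : V) (J n : ℕ)
    (ω : Sample V) : |spin (ω.1 v) - mfil G θ D v J n ω| ≤ 2 := by
  have := abs_sub (spin (ω.1 v)) (mfil G θ D v J n ω)
  rw [abs_spin] at this
  linarith [abs_mfil_le (G := G) h0 h1 D v J n ω]

theorem abs_stepAlpha_le (h0 : 0 ≤ θ) (h1 : θ < 1) (D S : Finset V) (J : ℕ)
    (lam : V → ℕ → ℝ) (n : ℕ) (ω : Sample V) :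
    |stepAlpha G θ D S J lam n ω| ≤ 2 * (stepLen J : ℝ) * ∑ v ∈ S, |lam v n| := by
  rw [stepAlpha, abs_mul, abs_of_pos (stepLen_pos J), mul_comm 2 (stepLen J : ℝ), mul_assoc,
    Finset.mul_sum]
  refine mul_le_mul_of_nonneg_left ((Finset.abs_sum_le_sum_abs _ _).trans
    (Finset.sum_le_sum fun v _ => ?_)) (stepLen_pos J).le
  rw [abs_mul, mul_comm 2]
  exact mul_le_mul_of_nonneg_left (abs_spin_sub_mfil h0 h1 D v J n ω) (abs_nonneg _)

theorem measurable_stepAlpha (h0 : 0 ≤ θ) (h1 : θ < 1) (D S : Finset V) (J : ℕ)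
    (lam : V → ℕ → ℝ) (n : ℕ) : Measurable (stepAlpha G θ D S J lam n) :=
  (Finset.measurable_sum _ fun v _ =>
    ((measurable_spin.comp ((measurable_pi_apply v).comp measurable_fst)).sub
      (measurable_mfil h0 h1 D v J n)).const_mul _).const_mul _

theorem measurable_expI {α : Type*} [MeasurableSpace α] {f : α → ℝ} (hf : Measurable f) :
    Measurable (fun a => Complex.exp ((f a : ℂ) * Complex.I)) :=
  Complex.measurable_exp.comp ((Complex.measurable_ofReal.comp hf).mul measurable_const)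

theorem linear_term_zero (h0 : 0 ≤ θ) (h1 : θ < 1) (hμ : IsFreeIsing G θ μ) {D S : Finset V}
    (hD : (G.induce (D : Set V)).Connected) (hS : S ⊆ D) (J : ℕ) (lam : V → ℕ → ℝ) (n : ℕ) :
    ∫ ω, charPart G θ D S J lam n (obsVec D J n ω) *
      ((stepAlpha G θ D S J lam n ω : ℂ) * Complex.I) ∂sampleLaw μ = 0 := by
  haveI := isProb_sampleLaw hμ
  have e : ∀ ω, charPart G θ D S J lam n (obsVec D J n ω) *
      ((stepAlpha G θ D S J lam n ω : ℂ) * Complex.I) =
      ∑ v ∈ S, ((stepLen J : ℝ) * lam v n * Complex.I) *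
        (((spin (ω.1 v) - mfil G θ D v J n ω : ℝ) : ℂ) *
          charPart G θ D S J lam n (obsVec D J n ω)) := by
    intro ω
    simp only [stepAlpha, Finset.mul_sum, Complex.ofReal_sum, Finset.sum_mul]
    refine Finset.sum_congr rfl fun v _ => ?_
    push_cast; ring
  simp only [e]
  rw [integral_finsetSum]
  · refine Finset.sum_eq_zero fun v hv => ?_
    rw [integral_const_mul, orth_filter h0 h1 hμ hD (hS hv) J n (charPart G θ D S J lam n)
      (measurable_charPart h0 h1 D S J lam n) (fun x => (norm_charPart D S J lam n x).le),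
      mul_zero]
  · intro v _
    refine Integrable.const_mul (Integrable.of_bound
      (((Complex.measurable_ofReal.comp
        ((measurable_spin.comp ((measurable_pi_apply v).comp measurable_fst)).sub
          (measurable_mfil h0 h1 D v J n)))).mul
        ((measurable_charPart h0 h1 D S J lam n).comp
          (measurable_obsVec D J n))).aestronglyMeasurable
      (2 * Real.exp ((stepLen J : ℝ) * (∑ i ∈ Finset.range n, ∑ v ∈ S, lam v i ^ 2) / 2))
      (ae_of_all _ fun ω => ?_)) _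
    simp only [Pi.mul_apply, Pi.sub_apply, Function.comp_apply]
    rw [norm_mul, norm_charPart, Complex.norm_real, Real.norm_eq_abs]
    exact mul_le_mul_of_nonneg_right (abs_spin_sub_mfil h0 h1 D v J n ω) (Real.exp_pos _).le

theorem charPart_step (h0 : 0 ≤ θ) (h1 : θ < 1) (hμ : IsFreeIsing G θ μ) {D S : Finset V}
    (hD : (G.induce (D : Set V)).Connected) (hS : S ⊆ D) (J : ℕ) (lam : V → ℕ → ℝ) (n : ℕ) :
    ‖∫ ω, charPart G θ D S J lam (n + 1) (obsVec D J (n + 1) ω) ∂sampleLaw μ -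
      ∫ ω, charPart G θ D S J lam n (obsVec D J n ω) ∂sampleLaw μ‖ ≤
      Real.exp ((stepLen J : ℝ) * (∑ i ∈ Finset.range n, ∑ v ∈ S, lam v i ^ 2) / 2) *
        (3 * (2 * (stepLen J : ℝ) * ∑ v ∈ S, |lam v n|) ^ 2) := by
  haveI := hμ.1
  haveI := isProb_sampleLaw hμ
  set C := Real.exp ((stepLen J : ℝ) * (∑ i ∈ Finset.range n, ∑ v ∈ S, lam v i ^ 2) / 2) with hC
  set Q : Sample V → ℂ := fun ω => charPart G θ D S J lam n (obsVec D J n ω) with hQ
  set α : Sample V → ℝ := stepAlpha G θ D S J lam n with hα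
  have hQm : Measurable Q :=
    (measurable_charPart h0 h1 D S J lam n).comp (measurable_obsVec D J n)
  have hαm : Measurable α := measurable_stepAlpha h0 h1 D S J lam n
  have hQn : ∀ ω, ‖Q ω‖ = C := fun ω => norm_charPart D S J lam n _
  have hQA : Integrable (fun ω => Q ω * Complex.exp ((α ω : ℂ) * Complex.I)) (sampleLaw μ) :=
    Integrable.of_bound (hQm.mul (measurable_expI hαm)).aestronglyMeasurable C
      (ae_of_all _ fun ω => by rw [norm_mul, hQn, Complex.norm_exp_ofReal_mul_I, mul_one])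
  have hnoise : ∫ ω, charPart G θ D S J lam (n + 1) (obsVec D J (n + 1) ω) ∂sampleLaw μ =
      ∫ ω, Q ω * Complex.exp ((α ω : ℂ) * Complex.I) ∂sampleLaw μ := by
    have hI : Integrable (fun ω => charPart G θ D S J lam (n + 1) (obsVec D J (n + 1) ω))
        (sampleLaw μ) :=
      Integrable.of_bound ((measurable_charPart h0 h1 D S J lam (n + 1)).comp
        (measurable_obsVec D J (n + 1))).aestronglyMeasurable
        (Real.exp ((stepLen J : ℝ) * (∑ i ∈ Finset.range (n + 1), ∑ v ∈ S, lam v i ^ 2) / 2))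
        (ae_of_all _ fun ω => (norm_charPart D S J lam (n + 1) _).le)
    simp only [hQ, hα] at hQA ⊢
    unfold sampleLaw at hI hQA ⊢
    rw [integral_prod _ hI, integral_prod _ hQA]
    refine integral_congr_ae (ae_of_all _ fun σ => ?_)
    simp only [charPart_succ hS]
    exact noise_step h0 h1 hS J lam n σ
  have hIQ : Integrable Q (sampleLaw μ) :=
    Integrable.of_bound hQm.aestronglyMeasurable C (ae_of_all _ fun ω => (hQn ω).le)
  have hIl : Integrable (fun ω => Q ω * ((α ω : ℂ) * Complex.I)) (sampleLaw μ) :=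
    Integrable.of_bound
      (hQm.mul ((Complex.measurable_ofReal.comp hαm).mul_const _)).aestronglyMeasurable
      (C * (2 * (stepLen J : ℝ) * ∑ v ∈ S, |lam v n|)) (ae_of_all _ fun ω => by
        rw [norm_mul, hQn]
        refine mul_le_mul_of_nonneg_left ?_ (Real.exp_pos _).le
        simpa using abs_stepAlpha_le h0 h1 D S J lam n ω)
  have i2 : Integrable (fun ω => Q ω * Complex.exp ((α ω : ℂ) * Complex.I) - Q ω)
      (sampleLaw μ) := hQA.sub hIQ
  have hsub : ∫ ω, Q ω * Complex.exp ((α ω : ℂ) * Complex.I) ∂sampleLaw μ -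
      ∫ ω, Q ω ∂sampleLaw μ =
      ∫ ω, (Q ω * Complex.exp ((α ω : ℂ) * Complex.I) - Q ω -
        Q ω * ((α ω : ℂ) * Complex.I)) ∂sampleLaw μ := by
    rw [integral_sub i2 hIl, integral_sub hQA hIQ,
      show ∫ ω, Q ω * ((α ω : ℂ) * Complex.I) ∂sampleLaw μ = 0 from
        linear_term_zero h0 h1 hμ hD hS J lam n, sub_zero]
  rw [hnoise, hsub]
  refine (norm_integral_le_of_norm_le_const
    (C := C * (3 * (2 * (stepLen J : ℝ) * ∑ v ∈ S, |lam v n|) ^ 2))
    (ae_of_all _ fun ω => ?_)).trans ?_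
  · rw [show Q ω * Complex.exp ((α ω : ℂ) * Complex.I) - Q ω - Q ω * ((α ω : ℂ) * Complex.I) =
      Q ω * (Complex.exp ((α ω : ℂ) * Complex.I) - 1 - (α ω : ℂ) * Complex.I) by ring,
      norm_mul, hQn]
    refine mul_le_mul_of_nonneg_left ((exp_I_remainder _).trans ?_) (Real.exp_pos _).le
    rw [← sq_abs (α ω)]
    exact mul_le_mul_of_nonneg_left
      (pow_le_pow_left₀ (abs_nonneg _) (abs_stepAlpha_le h0 h1 D S J lam n ω) 2) (by norm_num)
  · simp

theorem charPart_total (h0 : 0 ≤ θ) (h1 : θ < 1) (hμ : IsFreeIsing G θ μ) {D S : Finset V}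
    (hD : (G.induce (D : Set V)).Connected) (hS : S ⊆ D) (J : ℕ) (lam : V → ℕ → ℝ) (N : ℕ) :
    ‖∫ ω, charPart G θ D S J lam N (obsVec D J N ω) ∂sampleLaw μ - 1‖ ≤
      Real.exp ((stepLen J : ℝ) * (∑ i ∈ Finset.range N, ∑ v ∈ S, lam v i ^ 2) / 2) *
        ∑ n ∈ Finset.range N, 3 * (2 * (stepLen J : ℝ) * ∑ v ∈ S, |lam v n|) ^ 2 := by
  haveI := isProb_sampleLaw hμ
  induction N with
  | zero => simp [charPart]
  | succ n ih =>
    have hmono : Real.exp ((stepLen J : ℝ) * (∑ i ∈ Finset.range n, ∑ v ∈ S, lam v i ^ 2) / 2) ≤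
        Real.exp ((stepLen J : ℝ) * (∑ i ∈ Finset.range (n + 1), ∑ v ∈ S, lam v i ^ 2) / 2) := by
      have h2 : ∑ i ∈ Finset.range n, ∑ v ∈ S, lam v i ^ 2 ≤
          ∑ i ∈ Finset.range (n + 1), ∑ v ∈ S, lam v i ^ 2 := by
        rw [Finset.sum_range_succ]
        exact le_add_of_nonneg_right (Finset.sum_nonneg fun v _ => sq_nonneg _)
      exact Real.exp_le_exp.mpr (by
        linarith [mul_le_mul_of_nonneg_left h2 (stepLen_pos J).le])
    calc _ ≤ ‖∫ ω, charPart G θ D S J lam (n + 1) (obsVec D J (n + 1) ω) ∂sampleLaw μ -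
          ∫ ω, charPart G θ D S J lam n (obsVec D J n ω) ∂sampleLaw μ‖ +
          ‖∫ ω, charPart G θ D S J lam n (obsVec D J n ω) ∂sampleLaw μ - 1‖ :=
          norm_sub_le_norm_sub_add_norm_sub _ _ _
      _ ≤ _ := by
          rw [Finset.sum_range_succ _ n, Finset.sum_range_succ _ n, mul_add, add_comm]
          refine add_le_add (ih.trans ?_) ((charPart_step h0 h1 hμ hD hS J lam n).trans ?_)
          · exact mul_le_mul_of_nonneg_right (by rw [← Finset.sum_range_succ]; exact hmono)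
              (Finset.sum_nonneg fun _ _ => by positivity)
          · exact mul_le_mul_of_nonneg_right (by rw [← Finset.sum_range_succ]; exact hmono)
              (by positivity)

omit [Countable V] in
theorem obsInc_block (j k r : ℕ) (v : V) (ω : Sample V) :
    ∑ i ∈ Finset.range (2 ^ r), obsInc (j + r) (k * 2 ^ r + i) v ω = obsInc j k v ω := by
  have e1 := obs_refine j (k + 1) v ω r
  have e0 := obs_refine j k v ω r
  rw [show (k + 1) * 2 ^ r = k * 2 ^ r + 2 ^ r by ring] at e1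
  simp only [obs, Finset.sum_range_succ, Finset.sum_range_add] at e1 e0
  linarith

omit [Countable V] in
theorem charPart_eq_innov {D S : Finset V} (hS : S ⊆ D) (j K r : ℕ) (c : V → ℕ → ℝ)
    (ω : Sample V) :
    charPart G θ D S (j + r) (fun v i => c v (i / 2 ^ r)) (K * 2 ^ r)
        (obsVec D (j + r) (K * 2 ^ r) ω) =
      Complex.exp (((∑ k ∈ Finset.range K, ∑ v ∈ S, c v k * innov G θ D v j k r ω : ℝ) : ℂ) *
          Complex.I) *
        ((Real.exp ((stepLen j : ℝ) * (∑ k ∈ Finset.range K, ∑ v ∈ S, c v k ^ 2) / 2) : ℝ) : ℂ) := by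
  set f : ℕ → ℝ := fun i => ∑ v ∈ S, c v (i / 2 ^ r) *
    (obsInc (j + r) i v ω - (stepLen (j + r) : ℝ) * mfil G θ D v (j + r) i ω) with hf
  have e : ∀ i : Fin (K * 2 ^ r), (∑ v ∈ S, c v ((i : ℕ) / 2 ^ r) *
      ((if h : v ∈ D then obsVec D (j + r) (K * 2 ^ r) ω (⟨v, h⟩, i) else 0) -
        (stepLen (j + r) : ℝ) *
          magn G θ D v (obsOfVec D i (obsVec D (j + r) (K * 2 ^ r) ω)))) = f i := by
    intro i
    refine Finset.sum_congr rfl fun v hv => ?_
    rw [dif_pos (hS hv), ← mfil_eq_obsVec subset_rfl v (j + r) i.isLt.le]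
    rfl
  simp only [charPart, e]
  rw [Finset.prod_mul_distrib, ← Complex.exp_sum, ← Finset.sum_mul, ← Complex.ofReal_prod,
    ← Complex.ofReal_sum, ← Real.exp_sum, ← Finset.sum_range f,
    ← Finset.sum_range (fun i => (stepLen (j + r) : ℝ) * (∑ v ∈ S, c v (i / 2 ^ r) ^ 2) / 2)]
  have hdiv : ∀ k, ∀ i ∈ Finset.range (2 ^ r), (k * 2 ^ r + i) / 2 ^ r = k := by
    intro k i hi
    rw [Nat.add_comm, Nat.add_mul_div_right _ _ (by positivity),
      Nat.div_eq_of_lt (Finset.mem_range.mp hi), zero_add]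
  congr 1
  · congr 3
    rw [sum_blocks]
    refine Finset.sum_congr rfl fun k _ => ?_
    simp only [hf]
    rw [Finset.sum_comm]
    refine Finset.sum_congr rfl fun v _ => ?_
    rw [Finset.sum_congr rfl (fun i hi => by rw [hdiv k i hi]), ← Finset.mul_sum,
      Finset.sum_sub_distrib, obsInc_block, ← Finset.mul_sum]
    rfl
  · congr 2
    rw [sum_blocks, Finset.mul_sum, Finset.sum_div]
    refine Finset.sum_congr rfl fun k _ => ?_
    have hk : ∀ i ∈ Finset.range (2 ^ r),
        (stepLen (j + r) : ℝ) * (∑ v ∈ S, c v ((k * 2 ^ r + i) / 2 ^ r) ^ 2) / 2 =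
          (stepLen (j + r) : ℝ) * (∑ v ∈ S, c v k ^ 2) / 2 := fun i hi => by rw [hdiv k i hi]
    rw [Finset.sum_congr rfl hk, Finset.sum_const, Finset.card_range, nsmul_eq_mul,
      ← stepLen_block j r]
    ring

theorem char_innov_tendsto (h0 : 0 ≤ θ) (h1 : θ < 1) (hμ : IsFreeIsing G θ μ) {D S : Finset V}
    (hD : (G.induce (D : Set V)).Connected) (hS : S ⊆ D) (j K : ℕ) (c : V → ℕ → ℝ) :
    Tendsto (fun r => ∫ ω, Complex.exp (((∑ k ∈ Finset.range K, ∑ v ∈ S,
        c v k * innov G θ D v j k r ω : ℝ) : ℂ) * Complex.I) ∂sampleLaw μ) atTop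
      (𝓝 ((Real.exp (-((stepLen j : ℝ) *
        (∑ k ∈ Finset.range K, ∑ v ∈ S, c v k ^ 2) / 2)) : ℝ) : ℂ)) := by
  set a := (stepLen j : ℝ) * (∑ k ∈ Finset.range K, ∑ v ∈ S, c v k ^ 2) / 2 with ha
  set B := ∑ k ∈ Finset.range K, (∑ v ∈ S, |c v k|) ^ 2 with hB
  rw [tendsto_iff_norm_sub_tendsto_zero]
  have hlim : Tendsto (fun r => 12 * (stepLen j : ℝ) * B * (stepLen (j + r) : ℝ)) atTop (𝓝 0) := by
    have h := (tendsto_pow_atTop_nhds_zero_of_lt_one (show (0:ℝ) ≤ 1 / 2 by norm_num)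
      (by norm_num)).const_mul (12 * (stepLen j : ℝ) * B * (1 / 2) ^ j)
    rw [mul_zero] at h
    refine h.congr fun r => ?_
    rw [stepLen_coe (j + r), pow_add]; ring
  refine squeeze_zero (fun r => norm_nonneg _) (fun r => ?_) hlim
  set lam : V → ℕ → ℝ := fun v i => c v (i / 2 ^ r) with hlam
  have hdiv : ∀ k, ∀ i ∈ Finset.range (2 ^ r), (k * 2 ^ r + i) / 2 ^ r = k := by
    intro k i hi
    rw [Nat.add_comm, Nat.add_mul_div_right _ _ (by positivity),
      Nat.div_eq_of_lt (Finset.mem_range.mp hi), zero_add]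
  have hb : ∀ g : ℕ → ℝ, ∑ i ∈ Finset.range (K * 2 ^ r), g (i / 2 ^ r) =
      (2 : ℝ) ^ r * ∑ k ∈ Finset.range K, g k := by
    intro g
    rw [sum_blocks, Finset.mul_sum]
    refine Finset.sum_congr rfl fun k _ => ?_
    rw [Finset.sum_congr rfl (fun i hi => by rw [hdiv k i hi]), Finset.sum_const,
      Finset.card_range, nsmul_eq_mul]
    push_cast; ring
  have main := charPart_total (μ := μ) h0 h1 hμ hD hS (j + r) lam (K * 2 ^ r)
  simp only [hlam, charPart_eq_innov hS] at main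
  rw [integral_mul_const, hb (fun k => ∑ v ∈ S, c v k ^ 2),
    hb (fun k => 3 * (2 * (stepLen (j + r) : ℝ) * ∑ v ∈ S, |c v k|) ^ 2)] at main
  have e1 : (stepLen (j + r) : ℝ) * ((2 : ℝ) ^ r * ∑ k ∈ Finset.range K, ∑ v ∈ S, c v k ^ 2) / 2 = a := by
    rw [ha, ← stepLen_add j r]; ring
  have e2 : (2 : ℝ) ^ r * ∑ k ∈ Finset.range K,
      3 * (2 * (stepLen (j + r) : ℝ) * ∑ v ∈ S, |c v k|) ^ 2 =
      12 * (stepLen j : ℝ) * B * (stepLen (j + r) : ℝ) := by
    rw [hB, ← stepLen_add j r, Finset.mul_sum, Finset.mul_sum, Finset.sum_mul]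
    exact Finset.sum_congr rfl fun k _ => by ring
  rw [e1, e2, ← ha] at main
  set I := ∫ ω, Complex.exp (((∑ k ∈ Finset.range K, ∑ v ∈ S,
        c v k * innov G θ D v j k r ω : ℝ) : ℂ) * Complex.I) ∂sampleLaw μ
  have : I - ((Real.exp (-a) : ℝ) : ℂ) =
      (I * ((Real.exp a : ℝ) : ℂ) - 1) * ((Real.exp (-a) : ℝ) : ℂ) := by
    rw [sub_mul, one_mul, mul_assoc, ← Complex.ofReal_mul, ← Real.exp_add, add_neg_cancel,
      Real.exp_zero, Complex.ofReal_one, mul_one]
  rw [this, norm_mul, Complex.norm_real, Real.norm_eq_abs, Real.abs_exp]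
  calc _ ≤ (Real.exp a * (12 * (stepLen j : ℝ) * B * (stepLen (j + r) : ℝ))) * Real.exp (-a) :=
        mul_le_mul_of_nonneg_right main (Real.exp_pos _).le
    _ = _ := by rw [mul_comm (Real.exp a), mul_assoc, ← Real.exp_add, add_neg_cancel,
        Real.exp_zero, mul_one]

/-- Exponential functionals are continuous under `L¹` convergence of their exponents. -/
theorem char_l1_limit {Ω : Type*} [MeasurableSpace Ω] {P : Measure Ω} [IsProbabilityMeasure P]
    {X : ℕ → Ω → ℝ} {Y : Ω → ℝ} (hX : ∀ n, Integrable (X n) P) (hY : Integrable Y P)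
    (h : Tendsto (fun n => ∫ ω, |X n ω - Y ω| ∂P) atTop (𝓝 0)) :
    Tendsto (fun n => ∫ ω, Complex.exp ((X n ω : ℂ) * Complex.I) ∂P) atTop
      (𝓝 (∫ ω, Complex.exp ((Y ω : ℂ) * Complex.I) ∂P)) := by
  rw [tendsto_iff_norm_sub_tendsto_zero]
  have hI : ∀ {f : Ω → ℝ}, Integrable f P →
      Integrable (fun ω => Complex.exp ((f ω : ℂ) * Complex.I)) P := fun hf =>
    Integrable.of_bound ((Complex.continuous_exp.comp (by fun_prop : Continuous fun x : ℝ =>
      (x : ℂ) * Complex.I)).comp_aestronglyMeasurable hf.aestronglyMeasurable) 1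
      (ae_of_all _ fun ω => (Complex.norm_exp_ofReal_mul_I _).le)
  refine squeeze_zero (fun _ => norm_nonneg _) (fun n => ?_) h
  rw [← integral_sub (hI (hX n)) (hI hY)]
  refine norm_integral_le_of_norm_le ((hX n).sub hY).abs (ae_of_all _ fun ω => ?_)
  have e : Complex.exp ((X n ω : ℂ) * Complex.I) - Complex.exp ((Y ω : ℂ) * Complex.I) =
      Complex.exp ((Y ω : ℂ) * Complex.I) *
        (Complex.exp (Complex.I * ((X n ω - Y ω : ℝ) : ℂ)) - 1) := by
    rw [mul_sub, ← Complex.exp_add, mul_one]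
    congr 2
    push_cast; ring
  rw [e, norm_mul, Complex.norm_exp_ofReal_mul_I, one_mul]
  exact (Real.norm_exp_I_mul_ofReal_sub_one_le).trans (le_of_eq (Real.norm_eq_abs _))

theorem char_innovD (h0 : 0 ≤ θ) (h1 : θ < 1) (hμ : IsFreeIsing G θ μ) {D S : Finset V}
    (hD : (G.induce (D : Set V)).Connected) (hS : S ⊆ D) (j K : ℕ) (c : V → ℕ → ℝ) :
    ∫ ω, Complex.exp (((∑ k ∈ Finset.range K, ∑ v ∈ S,
        c v k * innovD G θ μ D v j k ω : ℝ) : ℂ) * Complex.I) ∂sampleLaw μ =
      ((Real.exp (-((stepLen j : ℝ) *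
        (∑ k ∈ Finset.range K, ∑ v ∈ S, c v k ^ 2) / 2)) : ℝ) : ℂ) := by
  haveI := isProb_sampleLaw hμ
  refine tendsto_nhds_unique (char_l1_limit (P := sampleLaw μ) ?_ ?_ ?_)
    (char_innov_tendsto h0 h1 hμ hD hS j K c)
  · exact fun r => integrable_finsetSum _ fun k _ => integrable_finsetSum _ fun v _ =>
      (integrable_innov h0 h1 hμ D v j k r).const_mul _
  · exact integrable_finsetSum _ fun k _ => integrable_finsetSum _ fun v _ =>
      (integrable_innovD D v j k).const_mul _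
  · have hb : Tendsto (fun r => ∑ k ∈ Finset.range K, ∑ v ∈ S, |c v k| *
        ∫ ω, |innov G θ D v j k r ω - innovD G θ μ D v j k ω| ∂sampleLaw μ) atTop (𝓝 0) := by
      simpa using tendsto_finsetSum (Finset.range K) fun k _ => tendsto_finsetSum S fun v hv =>
        (innovD_tendsto (μ := μ) h0 h1 hμ hD (hS hv) j k).const_mul |c v k|
    refine squeeze_zero (fun r => integral_nonneg fun _ => abs_nonneg _) (fun r => ?_) hb
    have hI : ∀ k v, Integrable (fun ω => |c v k| *
        |innov G θ D v j k r ω - innovD G θ μ D v j k ω|) (sampleLaw μ) := fun k v =>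
      (((integrable_innov h0 h1 hμ D v j k r).sub (integrable_innovD D v j k)).abs).const_mul _
    simp only [← integral_const_mul]
    rw [show (∑ k ∈ Finset.range K, ∑ v ∈ S, ∫ ω, |c v k| *
        |innov G θ D v j k r ω - innovD G θ μ D v j k ω| ∂sampleLaw μ) =
      ∫ ω, ∑ k ∈ Finset.range K, ∑ v ∈ S, |c v k| *
        |innov G θ D v j k r ω - innovD G θ μ D v j k ω| ∂sampleLaw μ by
      rw [integral_finsetSum _ fun k _ => integrable_finsetSum _ fun v _ => hI k v]
      exact Finset.sum_congr rfl fun k _ => (integral_finsetSum _ fun v _ => hI k v).symm]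
    refine integral_mono_of_nonneg (ae_of_all _ fun _ => abs_nonneg _)
      (integrable_finsetSum _ fun k _ => integrable_finsetSum _ fun v _ => hI k v)
      (ae_of_all _ fun ω => ?_)
    beta_reduce
    rw [← Finset.sum_sub_distrib]
    refine (Finset.abs_sum_le_sum_abs _ _).trans (Finset.sum_le_sum fun k _ => ?_)
    rw [← Finset.sum_sub_distrib]
    refine (Finset.abs_sum_le_sum_abs _ _).trans (Finset.sum_le_sum fun v _ => ?_)
    rw [← mul_sub, abs_mul]

end Vale.Agent.P161
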