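import Vale.Agent.P161.Ising

/-!
# Two-point correlations of the free Ising measure
-/

namespace Vale.Agent.P161

open SimpleGraph MeasureTheory
open scoped Classical

variable {V : Type*} {G : SimpleGraph V} {θ : ℝ} {μ : Measure (V → Bool)}

/-- The free Ising measure has mean zero. -/
theorem ising_mean (h0 : 0 ≤ θ) (h1 : θ < 1) (hμ : IsFreeIsing G θ μ) (o : V) :
    ∫ s, spin (s o) ∂μ = 0 := by
  have hD : (G.induce (({o} : Finset V) : Set V)).Connected := by
    have : Nonempty (({o} : Finset V) : Set V) := ⟨⟨o, by simp⟩⟩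
    refine ⟨fun a b => ?_⟩
    have : a = b := Subtype.ext (by
      have ha := a.2; have hb := b.2
      simp only [Finset.coe_singleton, Set.mem_singleton_iff] at ha hb
      rw [ha, hb])
    rw [this]
  refine (integral_restrict h0 h1 hμ hD fun η : ({o} : Finset V) → Bool =>
    spin (η ⟨o, Finset.mem_singleton_self o⟩)).trans ?_
  have he : edgesWithin G ({o} : Finset V) = ∅ := by
    ext e
    induction e using Sym2.ind with
    | h a b =>
      simp only [edgesWithin, Finset.mem_filter, Finset.mk_mem_sym2_iff, Finset.mem_singleton,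
        mem_edgeSet, Finset.notMem_empty, iff_false, not_and]
      rintro ⟨rfl, rfl⟩
      exact G.irrefl
  simp only [freeWeight, he, Finset.prod_empty, mul_one, smul_eq_mul, ← Finset.mul_sum]
  rw [← (Equiv.funUnique ({o} : Finset V) Bool).symm.sum_comp]
  simp [spin]

/-- Splitting off one site. -/
noncomputable def splitSite {D : Finset V} {o : V} (ho : o ∉ D) :
    (↥(insert o D) → Bool) ≃ Bool × (D → Bool) where
  toFun η := (η ⟨o, Finset.mem_insert_self o D⟩, fun x => η ⟨x, Finset.mem_insert_of_mem x.2⟩)
  invFun p x := if h : (x : V) ∈ D then p.2 ⟨x, h⟩ else p.1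
  left_inv η := by
    funext x
    by_cases h : (x : V) ∈ D
    · simp [h]
    · rcases Finset.mem_insert.mp x.2 with e | e
      · simp only [dif_neg h]
        congr 1
        exact Subtype.ext e.symm
      · exact absurd e h
  right_inv p := by
    refine Prod.ext (by simp [ho]) ?_
    funext x
    simp [x.2]

/-- Peeling off the vertex `o` whose only neighbour in `D` is `w`. -/
theorem peel (h0 : 0 ≤ θ) (h1 : θ < 1) (hμ : IsFreeIsing G θ μ) {D : Finset V} {o w z : V}
    (hD : (G.induce (D : Set V)).Connected)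
    (hD' : (G.induce ((insert o D : Finset V) : Set V)).Connected) (ho : o ∉ D) (hw : w ∈ D)
    (hz : z ∈ D) (hadj : G.Adj o w) (hnb : ∀ u ∈ D, G.Adj o u → u = w) :
    ∫ s, spin (s o) * spin (s z) ∂μ = θ * ∫ s, spin (s w) * spin (s z) ∂μ := by
  refine (integral_restrict h0 h1 hμ hD' fun η : ↥(insert o D) → Bool =>
    spin (η ⟨o, Finset.mem_insert_self o D⟩) *
      spin (η ⟨z, Finset.mem_insert_of_mem hz⟩)).trans ?_
  rw [show (∫ s, spin (s w) * spin (s z) ∂μ) = _ from integral_restrict h0 h1 hμ hD
      fun η : D → Bool => spin (η ⟨w, hw⟩) * spin (η ⟨z, hz⟩),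
    ← (splitSite ho).symm.sum_comp, Fintype.sum_prod_type, Finset.sum_comm, Finset.mul_sum]
  refine Finset.sum_congr rfl fun η _ => ?_
  have he : edgesWithin G (insert o D) = insert s(o, w) (edgesWithin G D) := by
    ext e
    induction e using Sym2.ind with
    | h a b =>
      simp only [edgesWithin, Finset.mem_filter, Finset.mk_mem_sym2_iff, Finset.mem_insert,
        mem_edgeSet, Sym2.eq_iff]
      constructor
      · rintro ⟨⟨ha, hb⟩, hab⟩
        rcases ha with rfl | ha <;> rcases hb with rfl | hb
        · exact absurd hab G.irrefl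
        · exact Or.inl (Or.inl ⟨rfl, hnb _ hb hab⟩)
        · exact Or.inl (Or.inr ⟨hnb _ ha hab.symm, rfl⟩)
        · exact Or.inr ⟨⟨ha, hb⟩, hab⟩
      · rintro ((⟨rfl, rfl⟩ | ⟨rfl, rfl⟩) | ⟨⟨ha, hb⟩, hab⟩)
        · exact ⟨⟨Or.inl rfl, Or.inr hw⟩, hadj⟩
        · exact ⟨⟨Or.inr hw, Or.inl rfl⟩, hadj.symm⟩
        · exact ⟨⟨Or.inr ha, Or.inr hb⟩, hab⟩
  have hne : s(o, w) ∉ edgesWithin G D := by simp [edgesWithin, ho]
  have hext : ∀ s x, x ∈ D → extCfg ((splitSite ho).symm (s, η)) x = extCfg η x := by
    intro s x hx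
    simp [extCfg, splitSite, hx]
  have heo : ∀ s, extCfg ((splitSite ho).symm (s, η)) o = s := by
    intro s
    simp [extCfg, splitSite, ho]
  have hfw : ∀ s, freeWeight G θ (insert o D) ((splitSite ho).symm (s, η)) =
      (1 + θ * spin s * spin (η ⟨w, hw⟩)) / 2 * freeWeight G θ D η := by
    intro s
    have hp : ∀ e ∈ edgesWithin G D,
        pairFactor θ (extCfg ((splitSite ho).symm (s, η))) e = pairFactor θ (extCfg η) e := by
      intro e
      induction e using Sym2.ind with
      | h a b =>
        intro h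
        simp only [edgesWithin, Finset.mem_filter, Finset.mk_mem_sym2_iff] at h
        rw [pairFactor_mk, pairFactor_mk, hext s a h.1.1, hext s b h.1.2]
    rw [freeWeight, freeWeight, he, Finset.prod_insert hne, Finset.prod_congr rfl hp, pairFactor_mk,
      heo, hext s w hw, extCfg_of_mem _ hw]
    ring
  have hso : ∀ s, (splitSite ho).symm (s, η) ⟨o, Finset.mem_insert_self o D⟩ = s := by
    intro s; simp [splitSite, ho]
  have hsz : ∀ s, (splitSite ho).symm (s, η) ⟨z, Finset.mem_insert_of_mem hz⟩ = η ⟨z, hz⟩ := by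
    intro s; simp [splitSite, hz]
  simp only [smul_eq_mul, Fintype.sum_bool, hfw, hso, hsz, spin_true, spin_false]
  ring

/-- The correlation at distance `k` is `θ ^ k`. -/
theorem ising_corr {d : ℕ} (hG : G.IsTree) (hd : 3 ≤ d)
    (hreg : ∀ v, (G.neighborSet v).ncard = d) (h0 : 0 ≤ θ) (h1 : θ < 1)
    (hμ : IsFreeIsing G θ μ) :
    ∀ k o z, G.dist o z = k → ∫ s, spin (s o) * spin (s z) ∂μ = θ ^ k := by
  have := hμ.1
  intro k
  induction k with
  | zero =>
    intro o z h
    obtain rfl := hG.connected.dist_eq_zero_iff.mp h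
    simp [spin_mul_self]
  | succ k ih =>
    intro o z h
    have hoz : o ≠ z := by rintro rfl; simp at h
    obtain ⟨w, hadj, hw⟩ := exists_toward hG hoz
    have hwk : G.dist w z = k := by omega
    set D := ballSet hG hd hreg z k with hDdef
    have hmem : ∀ u, u ∈ D ↔ G.dist u z ≤ k := fun u => by
      rw [hDdef, mem_ballSet, SimpleGraph.dist_comm]
    have ho : o ∉ D := by rw [hmem]; omega
    have hD' : (G.induce ((insert o D : Finset V) : Set V)).Connected := by
      have e : ((insert o D : Finset V) : Set V) = insert o (D : Set V) := Finset.coe_insert o D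
      have hoR : o ∈ ((insert o D : Finset V) : Set V) := by simp
      have hwR : w ∈ ((insert o D : Finset V) : Set V) := by
        simp [(hmem w).mpr (by omega)]
      have hB := ballSet_connected hG hd hreg z k
      rw [← hDdef] at hB
      have : Nonempty ((insert o D : Finset V) : Set V) := ⟨⟨o, hoR⟩⟩
      have key : ∀ a : ((insert o D : Finset V) : Set V),
          (G.induce ((insert o D : Finset V) : Set V)).Reachable a ⟨w, hwR⟩ := by
        rintro ⟨a, ha⟩
        rcases Finset.mem_insert.mp ha with rfl | ha'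
        · exact SimpleGraph.Adj.reachable (G := G.induce _) hadj
        · exact (hB.preconnected ⟨a, ha'⟩ ⟨w, (hmem w).mpr (by omega)⟩).map
            (SimpleGraph.induceHomOfLE G (s := (D : Set V))
              (s' := ((insert o D : Finset V) : Set V)) (by rw [e]; exact Set.subset_insert _ _)).toHom
      exact ⟨fun a b => (key a).trans (key b).symm⟩
    rw [peel h0 h1 hμ (by rw [hDdef]; exact ballSet_connected hG hd hreg z k) hD' ho
      ((hmem w).mpr (by omega)) ((hmem z).mpr (by simp)) hadj ?_, ih w z hwk, pow_succ']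
    intro u hu hou
    have := (hmem u).mp hu
    refine toward_unique hG hou hadj (?_ : G.dist u z + 1 = G.dist o z) hw
    rcases dist_succ_or hG hou z with h' | h' <;> omega

end Vale.Agent.P161
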