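import Vale.Agent.P161.Ball

/-!
# Automorphisms of a regular tree exchanging two vertices
-/

namespace Vale.Agent.P161

open SimpleGraph

variable {V : Type*} {G : SimpleGraph V} {d : ℕ}

/-- A bijection of finite sets with two prescribed values. -/
theorem exists_bijOn_pair {A B : Set V} (hA : A.Finite) (hB : B.Finite) (hc : A.ncard = B.ncard)
    {a a' c c' : V} (ha : a ∈ A) (ha' : a' ∈ B) (hcA : c ∈ A) (hcB : c' ∈ B)
    (h : a = c ↔ a' = c') : ∃ b : V → V, Set.BijOn b A B ∧ b a = a' ∧ b c = c' := by
  classical
  have := hA.fintype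
  have := hB.fintype
  have hcard : Fintype.card A = Fintype.card B := by
    rw [← Nat.card_eq_fintype_card, ← Nat.card_eq_fintype_card]
    exact hc
  let e := Fintype.equivOfCardEq hcard
  let e1 := e.trans (Equiv.swap (e ⟨a, ha⟩) ⟨a', ha'⟩)
  let e2 := e1.trans (Equiv.swap (e1 ⟨c, hcA⟩) ⟨c', hcB⟩)
  have h1 : e1 ⟨a, ha⟩ = ⟨a', ha'⟩ := by simp [e1]
  have h2 : e2 ⟨c, hcA⟩ = ⟨c', hcB⟩ := by simp [e2]
  have h3 : e2 ⟨a, ha⟩ = ⟨a', ha'⟩ := by
    by_cases hac : a = c
    · have := h.mp hac
      subst hac this
      exact h2
    · have n1 : (⟨a', ha'⟩ : B) ≠ e1 ⟨c, hcA⟩ := by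
        rw [← h1]
        exact fun he => hac (congrArg Subtype.val (e1.injective he))
      have n2 : (⟨a', ha'⟩ : B) ≠ ⟨c', hcB⟩ := fun he =>
        hac (h.mpr (congrArg Subtype.val he))
      show Equiv.swap _ _ (e1 ⟨a, ha⟩) = _
      rw [h1, Equiv.swap_apply_of_ne_of_ne n1 n2]
  refine ⟨fun v => if hv : v ∈ A then (e2 ⟨v, hv⟩ : V) else v, ⟨?_, ?_, ?_⟩, ?_, ?_⟩
  · intro v hv
    simp [hv]
  · intro v hv w hw he
    simp only [hv, hw, dif_pos] at he
    exact congrArg Subtype.val (e2.injective (Subtype.ext he))
  · intro w hw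
    refine ⟨e2.symm ⟨w, hw⟩, (e2.symm ⟨w, hw⟩).2, ?_⟩
    simp
  · simp [ha, h3]
  · simp [hcA, h2]

/-- Any two vertices of a regular tree are exchanged by some automorphism. -/
theorem exists_swap (hG : G.IsTree) (hd : 3 ≤ d) (hreg : ∀ v, (G.neighborSet v).ncard = d)
    (x y : V) : ∃ g : G ≃g G, g x = y ∧ g y = x := by
  classical
  set k := G.dist x y with hk
  let tw : V → V → V := fun p z => if h : p ≠ z then (exists_toward hG h).choose else p
  have tw_spec : ∀ p z, p ≠ z → G.Adj p (tw p z) ∧ G.dist (tw p z) z + 1 = G.dist p z := by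
    intro p z h
    simp only [tw, dif_pos h]
    exact (exists_toward hG h).choose_spec
  have tw_eq : ∀ p z w, G.Adj p w → G.dist w z + 1 = G.dist p z → w = tw p z := by
    intro p z w h1 h2
    have hne : p ≠ z := by rintro rfl; simp at h2
    exact toward_unique hG h1 (tw_spec p z hne).1 h2 (tw_spec p z hne).2
  have d0 : ∀ a b, G.dist a b = 0 → a = b := fun a b h => hG.connected.dist_eq_zero_iff.mp h
  -- local bijections
  have hB : ∀ p q, ∃ b : V → V, G.dist x p = G.dist y q →
      Set.BijOn b (G.neighborSet p) (G.neighborSet q) ∧ (p ≠ x → b (tw p x) = tw q y) ∧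
      (G.dist x p + G.dist p y = k → p ≠ y → G.dist x q + G.dist q y = k → q ≠ x →
        b (tw p y) = tw q x) := by
    intro p q
    by_cases hpq : G.dist x p = G.dist y q
    swap
    · exact ⟨id, fun h => absurd h hpq⟩
    have hfp := nbr_finite hd hreg p
    have hfq := nbr_finite hd hreg q
    have hc : (G.neighborSet p).ncard = (G.neighborSet q).ncard := by rw [hreg, hreg]
    by_cases hon : G.dist x p + G.dist p y = k ∧ p ≠ y ∧ G.dist x q + G.dist q y = k ∧ q ≠ x
    · obtain ⟨o1, o2, o3, o4⟩ := hon
      have mp := (tw_spec p y o2).1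
      have mq := (tw_spec q x o4).1
      by_cases hpx : p = x
      · obtain ⟨b, h1, h2, -⟩ := exists_bijOn_pair hfp hfq hc mp mq mp mq (by simp)
        exact ⟨b, fun _ => ⟨h1, fun h => absurd hpx h, fun _ _ _ _ => h2⟩⟩
      · have hqy : q ≠ y := by
          rintro rfl
          rw [SimpleGraph.dist_self] at hpq
          exact hpx (d0 _ _ hpq).symm
        have np : tw p x ≠ tw p y := by
          intro he
          have e1 := (tw_spec p x hpx).2
          have e2 := (tw_spec p y o2).2
          have := hG.connected.dist_triangle (u := x) (v := tw p x) (w := y)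
          rw [← he] at e2
          rw [SimpleGraph.dist_comm (u := x) (v := p)] at o1
          rw [SimpleGraph.dist_comm (u := x) (v := tw p x)] at this
          omega
        have nq : tw q y ≠ tw q x := by
          intro he
          have e1 := (tw_spec q y hqy).2
          have e2 := (tw_spec q x o4).2
          have := hG.connected.dist_triangle (u := x) (v := tw q x) (w := y)
          rw [he] at e1
          rw [SimpleGraph.dist_comm (u := x) (v := q)] at o3
          rw [SimpleGraph.dist_comm (u := x) (v := tw q x)] at this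
          omega
        obtain ⟨b, h1, h2, h3⟩ := exists_bijOn_pair hfp hfq hc (tw_spec p x hpx).1
          (tw_spec q y hqy).1 mp mq (iff_of_false np nq)
        exact ⟨b, fun _ => ⟨h1, fun _ => h2, fun _ _ _ _ => h3⟩⟩
    · by_cases hpx : p = x
      · have hne : (G.neighborSet p).Nonempty := Set.nonempty_of_ncard_ne_zero (by rw [hreg]; omega)
        have hne' : (G.neighborSet q).Nonempty := Set.nonempty_of_ncard_ne_zero (by rw [hreg]; omega)
        obtain ⟨b, h1, -⟩ := exists_bijOn_pair hfp hfq hc hne.choose_spec hne'.choose_spec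
          hne.choose_spec hne'.choose_spec (by simp)
        exact ⟨b, fun _ => ⟨h1, fun h => absurd hpx h, fun a b c e => absurd ⟨a, b, c, e⟩ hon⟩⟩
      · have hqy : q ≠ y := by
          rintro rfl
          rw [SimpleGraph.dist_self] at hpq
          exact hpx (d0 _ _ hpq).symm
        obtain ⟨b, h1, h2, -⟩ := exists_bijOn_pair hfp hfq hc (tw_spec p x hpx).1
          (tw_spec q y hqy).1 (tw_spec p x hpx).1 (tw_spec q y hqy).1 (by simp)
        exact ⟨b, fun _ => ⟨h1, fun _ => h2, fun a b c e => absurd ⟨a, b, c, e⟩ hon⟩⟩
  choose B hB using hB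
  let F : ℕ → V → V := fun n => Nat.rec (fun _ => y) (fun _ f u => B (tw u x) (f (tw u x)) u) n
  set g : V → V := fun u => F (G.dist x u) u with hg
  have g0 : g x = y := by simp [hg, F]
  have gstep : ∀ u, u ≠ x → g u = B (tw u x) (g (tw u x)) u := by
    intro u hu
    have h := (tw_spec u x hu).2
    rw [SimpleGraph.dist_comm (u := u), SimpleGraph.dist_comm (u := tw u x)] at h
    simp only [hg]
    rw [← h]
  -- `g` respects levels and parents
  have lev : ∀ n u, G.dist x u = n →
      G.dist y (g u) = n ∧ (u ≠ x → tw (g u) y = g (tw u x) ∧ G.Adj (g u) (g (tw u x))) := by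
    intro n
    induction n with
    | zero =>
      intro u hu
      obtain rfl := d0 _ _ hu
      exact ⟨by simp [g0], fun h => absurd rfl h⟩
    | succ n ih =>
      intro u hu
      have hux : u ≠ x := by rintro rfl; simp at hu
      obtain ⟨hadj, hd1⟩ := tw_spec u x hux
      rw [SimpleGraph.dist_comm (u := u), hu, SimpleGraph.dist_comm] at hd1
      have hp : G.dist x (tw u x) = n := by omega
      have hq := (ih _ hp).1
      obtain ⟨hbij, hbx, -⟩ := hB (tw u x) (g (tw u x)) (hp.trans hq.symm)
      have hmem : u ∈ G.neighborSet (tw u x) := hadj.symm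
      have hgu : G.Adj (g (tw u x)) (g u) := by rw [gstep u hux]; exact hbij.mapsTo hmem
      have hlev : G.dist y (g u) = n + 1 := by
        rcases dist_succ_or hG hgu y with h | h
        · exfalso
          have hpx : tw u x ≠ x := by
            intro he
            rw [he, g0, SimpleGraph.dist_self] at h
            omega
          have e : g u = tw (g (tw u x)) y := tw_eq _ _ _ hgu (by omega)
          rw [← hbx hpx, gstep u hux] at e
          have e' := hbij.injOn hmem (tw_spec _ _ hpx).1 e
          have := (tw_spec _ _ hpx).2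
          rw [← e', SimpleGraph.dist_comm (u := u), SimpleGraph.dist_comm (u := tw u x)] at this
          omega
        · rw [SimpleGraph.dist_comm, h, SimpleGraph.dist_comm, hq]
      refine ⟨hlev, fun _ => ⟨(tw_eq _ _ _ hgu.symm ?_).symm, hgu.symm⟩⟩
      rw [SimpleGraph.dist_comm (u := g (tw u x)), SimpleGraph.dist_comm (u := g u), hq, hlev]
  have ginj : ∀ n u u', G.dist x u = n → g u = g u' → u = u' := by
    intro n
    induction n with
    | zero =>
      intro u u' hu he
      have h1 := (lev _ u' rfl).1
      rw [← he, (lev _ u hu).1] at h1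
      rw [← d0 _ _ hu, ← d0 _ _ h1.symm]
    | succ n ih =>
      intro u u' hu he
      have h1 := (lev _ u' rfl).1
      rw [← he, (lev _ u hu).1] at h1
      have hux : u ≠ x := by rintro rfl; simp at hu
      have hux' : u' ≠ x := by rintro rfl; simp at h1
      have hd1 := (tw_spec u x hux).2
      rw [SimpleGraph.dist_comm (u := u), hu, SimpleGraph.dist_comm] at hd1
      have hp : G.dist x (tw u x) = n := by omega
      have e : g (tw u x) = g (tw u' x) := by
        rw [← ((lev _ u hu).2 hux).1, ← ((lev _ u' rfl).2 hux').1, he]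
      have hpp : tw u x = tw u' x := ih _ _ hp e
      obtain ⟨hbij, -, -⟩ := hB (tw u x) (g (tw u x)) (hp.trans (lev _ _ hp).1.symm)
      rw [gstep u hux, gstep u' hux', ← hpp] at he
      refine hbij.injOn (tw_spec u x hux).1.symm ?_ he
      rw [hpp]
      exact (tw_spec u' x hux').1.symm
  have gsurj : ∀ n q, G.dist y q = n → ∃ u, g u = q := by
    intro n
    induction n with
    | zero => intro q hq; exact ⟨x, by rw [g0, d0 _ _ hq]⟩
    | succ n ih =>
      intro q hq
      have hqy : q ≠ y := by rintro rfl; simp at hq
      obtain ⟨hadj, hd1⟩ := tw_spec q y hqy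
      rw [SimpleGraph.dist_comm (u := q), hq, SimpleGraph.dist_comm] at hd1
      obtain ⟨p, hp⟩ := ih (tw q y) (by omega)
      have hlev := (lev _ p rfl).1
      rw [hp] at hlev
      obtain ⟨hbij, hbx, -⟩ := hB p (tw q y) hlev.symm
      obtain ⟨u, hu, hbu⟩ := hbij.surjOn (show q ∈ G.neighborSet (tw q y) from hadj.symm)
      have hup : G.dist p x + 1 = G.dist u x := by
        rcases dist_succ_or hG hu x with h | h
        · exfalso
          have hpx : p ≠ x := by rintro rfl; simp at h
          rw [tw_eq p x u hu h.symm, hbx hpx] at hbu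
          have hne : tw q y ≠ y := by
            intro he
            rw [he, SimpleGraph.dist_self, SimpleGraph.dist_comm] at hlev
            exact hpx (d0 _ _ hlev.symm)
          have := (tw_spec (tw q y) y hne).2
          rw [hbu, SimpleGraph.dist_comm (u := q), hq, SimpleGraph.dist_comm (u := tw q y)] at this
          omega
        · exact h.symm
      have hux : u ≠ x := by rintro rfl; simp at hup
      refine ⟨u, ?_⟩
      rw [gstep u hux, ← tw_eq u x p hu.symm hup, hp]
      exact hbu
  have hbij : Function.Bijective g := ⟨fun u u' => ginj _ u u' rfl, fun q => gsurj _ q rfl⟩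
  have hmap : ∀ u w, G.dist w x + 1 = G.dist u x → G.Adj u w → G.Adj (g u) (g w) := by
    intro u w h hadj
    have hux : u ≠ x := by rintro rfl; simp at h
    rw [tw_eq u x w hadj h]
    exact ((lev _ u rfl).2 hux).2
  have hrel : ∀ u w, G.Adj (g u) (g w) ↔ G.Adj u w := by
    have hback : ∀ u w, G.dist (g w) y + 1 = G.dist (g u) y → G.Adj (g u) (g w) → G.Adj u w := by
      intro u w h hadj
      have hux : u ≠ x := by
        rintro rfl
        rw [g0, SimpleGraph.dist_self] at h
        omega
      have e := ((lev _ u rfl).2 hux).1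
      rw [← tw_eq _ y _ hadj h] at e
      rw [hbij.1 e]
      exact (tw_spec u x hux).1
    intro u w
    constructor
    · intro h
      rcases dist_succ_or hG h y with h' | h'
      · exact hback u w h'.symm h
      · exact (hback w u h'.symm h.symm).symm
    · intro h
      rcases dist_succ_or hG h x with h' | h'
      · exact hmap u w h'.symm h
      · exact (hmap w u h'.symm h.symm).symm
  have hpath : ∀ i u, G.dist x u = i → i + G.dist u y = k → G.dist x (g u) + i = k := by
    intro i
    induction i with
    | zero =>
      intro u hu _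
      obtain rfl := d0 _ _ hu
      simp [g0, hk]
    | succ i ih =>
      intro u hu huy
      have hux : u ≠ x := by rintro rfl; simp at hu
      obtain ⟨hadj, hd1⟩ := tw_spec u x hux
      rw [SimpleGraph.dist_comm (u := u), hu, SimpleGraph.dist_comm] at hd1
      have hp : G.dist x (tw u x) = i := by omega
      have t1 := hG.connected.dist_triangle (u := x) (v := tw u x) (w := y)
      have t2 := hG.connected.dist_triangle (u := tw u x) (v := u) (w := y)
      rw [dist_eq_one_iff_adj.mpr hadj.symm] at t2
      have hpy : i + G.dist (tw u x) y = k := by omega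
      have hqx := ih _ hp hpy
      have hqy := (lev _ _ hp).1
      obtain ⟨-, -, hby⟩ := hB (tw u x) (g (tw u x)) (hp.trans hqy.symm)
      have hne : g (tw u x) ≠ x := by
        intro he
        rw [he, SimpleGraph.dist_self] at hqx
        omega
      have hne' : tw u x ≠ y := by
        intro he
        rw [he, SimpleGraph.dist_self] at hpy
        omega
      rw [SimpleGraph.dist_comm (u := y)] at hqy
      have e := hby (by omega) hne' (by omega) hne
      rw [← tw_eq (tw u x) y u hadj.symm (by omega), ← gstep u hux] at e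
      have := (tw_spec _ x hne).2
      rw [← e, SimpleGraph.dist_comm (u := g u), SimpleGraph.dist_comm (u := g (tw u x))] at this
      omega
  refine ⟨{ toEquiv := Equiv.ofBijective g hbij, map_rel_iff' := hrel _ _ }, g0, ?_⟩
  have := hpath k y hk.symm (by simp)
  exact (d0 _ _ (by omega : G.dist x (g y) = 0)).symm

end Vale.Agent.P161
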