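import Vale.Agent.P161.Walsh
import Vale.Agent.P161.Swap
import Vale.Agent.P161.Corr

/-!
# No factor of i.i.d. labels above the reconstruction threshold
-/

namespace Vale.Agent.P161

open SimpleGraph MeasureTheory
open scoped ENNReal Classical

variable {V : Type*} {G : SimpleGraph V} {d : ℕ}

/-- Spheres grow at least geometrically. -/
theorem sphere_card_ge (hG : G.IsTree) (hd : 3 ≤ d) (hreg : ∀ v, (G.neighborSet v).ncard = d)
    (o : V) : ∀ n, (d - 1) ^ n ≤ (sphere_finite hG hd hreg o n).toFinset.card := by
  intro n
  induction n with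
  | zero =>
    simp only [pow_zero]
    exact Finset.card_pos.mpr ⟨o, by simp⟩
  | succ n ih =>
    set S := (sphere_finite hG hd hreg o n).toFinset with hS
    set kids : V → Finset V := fun p =>
      (nbr_finite hd hreg p).toFinset.filter fun u => G.dist o u = n + 1 with hkids
    have hmem : ∀ p ∈ S, G.dist o p = n := fun p hp => by simpa [hS] using hp
    have hk : ∀ p ∈ S, d - 1 ≤ (kids p).card := by
      intro p hp
      have h1 : ((nbr_finite hd hreg p).toFinset.filter
          fun u => ¬ G.dist o u = n + 1).card ≤ 1 := by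
        refine Finset.card_le_one.mpr fun u hu u' hu' => ?_
        simp only [Finset.mem_filter, Set.Finite.mem_toFinset, mem_neighborSet] at hu hu'
        have key : ∀ w, G.Adj p w → ¬ G.dist o w = n + 1 → G.dist w o + 1 = G.dist p o := by
          intro w hw hne
          rcases dist_succ_or hG hw o with h | h
          · exact h.symm
          · exfalso
            rw [SimpleGraph.dist_comm (u := w), SimpleGraph.dist_comm (u := p), hmem p hp] at h
            exact hne h
        exact toward_unique hG hu.1 hu'.1 (key _ hu.1 hu.2) (key _ hu'.1 hu'.2)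
      have h2 := Finset.card_filter_add_card_filter_not (s := (nbr_finite hd hreg p).toFinset)
        (p := fun u => G.dist o u = n + 1)
      have h3 : (nbr_finite hd hreg p).toFinset.card = d := by
        rw [← Set.ncard_eq_toFinset_card _ (nbr_finite hd hreg p), hreg]
      simp only [hkids]
      omega
    have hdisj : (S : Set V).PairwiseDisjoint kids := by
      intro p hp p' hp' hne
      refine Finset.disjoint_left.mpr fun u hu hu' => hne ?_
      simp only [hkids, Finset.mem_filter, Set.Finite.mem_toFinset, mem_neighborSet] at hu hu'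
      refine toward_unique hG hu.1.symm hu'.1.symm (x := o) ?_ ?_
      · rw [SimpleGraph.dist_comm, hmem p hp, SimpleGraph.dist_comm, hu.2]
      · rw [SimpleGraph.dist_comm, hmem p' hp', SimpleGraph.dist_comm, hu.2]
    have hsub : S.biUnion kids ⊆ (sphere_finite hG hd hreg o (n + 1)).toFinset := by
      intro u hu
      obtain ⟨p, -, hu⟩ := Finset.mem_biUnion.mp hu
      simp only [hkids, Finset.mem_filter] at hu
      simpa using hu.2
    calc (d - 1) ^ (n + 1) = (d - 1) ^ n * (d - 1) := pow_succ _ _
      _ ≤ S.card * (d - 1) := Nat.mul_le_mul_right _ ih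
      _ = ∑ p ∈ S, (d - 1) := by rw [Finset.sum_const, smul_eq_mul]
      _ ≤ ∑ p ∈ S, (kids p).card := Finset.sum_le_sum hk
      _ = (S.biUnion kids).card := (Finset.card_biUnion hdisj).symm
      _ ≤ _ := Finset.card_le_card hsub

/-- Labels assembled from bits. -/
noncomputable def labelsOfBits (b : V × ℕ → Bool) : V → unitInterval :=
  fun v => bitsLabel fun n => b (v, n)

theorem measurable_labelsOfBits : Measurable (labelsOfBits (V := V)) :=
  measurable_pi_lambda _ fun _ => measurable_bitsLabel.comp
    (measurable_pi_lambda _ fun _ => measurable_pi_apply _)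

theorem map_labelsOfBits : (bitsPi (V × ℕ)).map labelsOfBits = iidLabels V := by
  have hpi : (Measure.infinitePi fun _ : V => bitsLaw).map (fun x v => bitsLabel (x v)) =
      iidLabels V := by
    rw [Measure.infinitePi_map_pi (μ := fun _ : V => bitsLaw) fun _ => measurable_bitsLabel,
      iidLabels]
    simp only [map_bitsLabel]
  have hcurry : (bitsPi (V × ℕ)).map (MeasurableEquiv.curry V ℕ Bool) =
      Measure.infinitePi fun _ : V => bitsLaw :=
    Measure.infinitePi_map_curry (ι := V) (κ := ℕ) fun _ _ => fair
  have hm : Measurable fun (x : V → ℕ → Bool) v => bitsLabel (x v) :=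
    measurable_pi_lambda _ fun v => measurable_bitsLabel.comp (measurable_pi_apply v)
  rw [← hpi, ← hcurry, Measure.map_map hm (MeasurableEquiv.measurable _)]
  rfl

/-- Reindexing fair bits. -/
theorem bitsPi_reindex {J : Type*} (e : J ≃ J) :
    (bitsPi J).map (fun b j => b (e j)) = bitsPi J := by
  refine Measure.eq_infinitePi _ fun s t ht => ?_
  have hm : Measurable fun (b : J → Bool) j => b (e j) :=
    measurable_pi_lambda _ fun _ => measurable_pi_apply _
  rw [Measure.map_apply hm (.pi s.countable_toSet fun i _ => ht i)]
  have h : (fun (b : J → Bool) j => b (e j)) ⁻¹' (s : Set J).pi t =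
      ((s.image e : Finset J) : Set J).pi (fun u => t (e.symm u)) := by
    ext x
    simp only [Set.mem_preimage, Set.mem_pi, Finset.coe_image, Set.mem_image, Finset.mem_coe]
    constructor
    · rintro h u ⟨i, hi, rfl⟩
      simpa using h i hi
    · intro h i hi
      simpa using h (e i) ⟨i, hi, rfl⟩
  rw [h, bitsPi, Measure.infinitePi_pi _ (fun u _ => ht (e.symm u)),
    Finset.prod_image (fun a _ b _ h => e.injective h)]
  simp

/-- An invariant kernel sends out what it receives. -/
theorem transport_eq (hG : G.IsTree) (hd : 3 ≤ d) (hreg : ∀ v, (G.neighborSet v).ncard = d)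
    (T : V → V → ℝ≥0∞) (hT : ∀ (g : G ≃g G) o a, T (g o) (g a) = T o a) (o : V) :
    ∑' a, T o a = ∑' a, T a o := by
  refine tsum_congr fun a => ?_
  obtain ⟨g, hg1, hg2⟩ := exists_swap hG hd hreg o a
  rw [← hT g o a, hg1, hg2]

/-- The free Ising state is not a factor of i.i.d. labels when (d-1) θ² > 1. -/
theorem not_factor_above [Countable V] (hG : G.IsTree) (hd : 3 ≤ d)
    (hreg : ∀ v, (G.neighborSet v).ncard = d) {θ : ℝ} (h0 : 0 ≤ θ) (h1 : θ < 1)
    (hθ : 1 < ((d : ℝ) - 1) * θ ^ 2) {μ : Measure (V → Bool)} (hμ : IsFreeIsing G θ μ) :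
    ¬ IsFactorOfIID G μ := by
  rintro ⟨Φ, hΦ, hequiv, hlaw⟩
  obtain ⟨o⟩ := hG.connected.nonempty
  set φ : V → (V × ℕ → Bool) → Bool := fun v b => Φ (labelsOfBits b) v with hφdef
  have hφ : ∀ v, Measurable (φ v) := fun v =>
    (measurable_pi_apply v).comp (hΦ.comp measurable_labelsOfBits)
  set F : V → Finset (V × ℕ) → ℝ := fun v A => coeff (fun b => spin (φ v b)) A with hFdef
  have hfm : ∀ v, Measurable fun b => spin (φ v b) := fun v => measurable_spin.comp (hφ v)
  have hmap : (bitsPi (V × ℕ)).map (fun b => Φ (labelsOfBits b)) = μ := by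
    rw [← hlaw, ← map_labelsOfBits, Measure.map_map hΦ measurable_labelsOfBits]
    rfl
  -- correlations and means of `μ` in terms of the bits
  have hmeas : Measurable fun b => Φ (labelsOfBits b) := hΦ.comp measurable_labelsOfBits
  have hsv : ∀ v, Measurable fun s : V → Bool => spin (s v) := fun v =>
    measurable_spin.comp (measurable_pi_apply v)
  have hsvz : ∀ v z, Measurable fun s : V → Bool => spin (s v) * spin (s z) := fun v z =>
    (hsv v).mul (hsv z)
  have hmean : ∀ v, F v ∅ = 0 := by
    intro v
    simp only [hFdef, coeff, walsh, Finset.prod_empty, mul_one]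
    rw [← ising_mean h0 h1 hμ v, ← hmap,
      integral_map hmeas.aemeasurable (hsv v).aestronglyMeasurable]
  have hcorr : ∀ v z, ∫ b, spin (φ v b) * spin (φ z b) ∂bitsPi (V × ℕ) = θ ^ G.dist v z := by
    intro v z
    rw [← ising_corr hG hd hreg h0 h1 hμ _ v z rfl, ← hmap,
      integral_map hmeas.aemeasurable (hsvz v z).aestronglyMeasurable]
  -- equivariance of the coefficients
  let act : (G ≃g G) → (V × ℕ ≃ V × ℕ) := fun g => Equiv.prodCongr g.toEquiv (Equiv.refl ℕ)
  have hF : ∀ (g : G ≃g G) v A, F (g v) (A.map (act g).toEmbedding) = F v A := by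
    intro g v A
    simp only [hFdef, coeff]
    have hm : Measurable fun (b : V × ℕ → Bool) j => b ((act g).symm j) :=
      measurable_pi_lambda _ fun _ => measurable_pi_apply _
    have hpm : Measurable fun b => spin (φ (g v) b) * walsh (A.map (act g).toEmbedding) b :=
      (hfm _).mul (measurable_walsh _)
    conv_lhs => rw [← bitsPi_reindex (act g).symm]
    rw [integral_map hm.aemeasurable hpm.aestronglyMeasurable]
    refine integral_congr_ae ?_
    have he := ae_of_ae_map measurable_labelsOfBits.aemeasurable
      (by rw [map_labelsOfBits]; exact hequiv g)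
    filter_upwards [he] with b hb
    congr 1
    · congr 1
      show Φ (labelsOfBits fun j => b ((act g).symm j)) (g v) = Φ (labelsOfBits b) v
      rw [show (labelsOfBits fun j => b ((act g).symm j)) =
        fun u => labelsOfBits b (g.symm u) from rfl, hb]
      simp
    · simp only [walsh, Finset.prod_map, Equiv.coe_toEmbedding, Equiv.symm_apply_apply]
  set w : V → Finset (V × ℕ) → ℝ≥0∞ := fun v A => ENNReal.ofReal |F v A| with hwdef
  have hw : ∀ (g : G ≃g G) v A, w (g v) (A.map (act g).toEmbedding) = w v A := by
    intro g v A; simp only [hwdef, hF]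
  have hw0 : ∀ v, w v ∅ = 0 := by intro v; simp [hwdef, hmean]
  have hw2 : ∀ v, ∑' A, w v A * w v A ≤ 1 := by
    intro v
    rw [ENNReal.tsum_eq_iSup_sum]
    refine iSup_le fun s => ?_
    have e : ∀ A, w v A * w v A = ENNReal.ofReal (F v A ^ 2) := by
      intro A
      rw [hwdef, ← ENNReal.ofReal_mul (abs_nonneg _), abs_mul_abs_self, sq]
    simp only [e]
    rw [← ENNReal.ofReal_sum_of_nonneg fun A _ => sq_nonneg _, ENNReal.ofReal_le_one]
    refine (bessel (hfm v) (fun b => spin_bounded _) s).trans (le_of_eq ?_)
    simp [sq, spin_mul_self]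
  have hpair : ∀ v z, ENNReal.ofReal (θ ^ G.dist v z) ≤ ∑' A, w v A * w z A := by
    intro v z
    refine ENNReal.le_of_forall_pos_le_add fun ε hε _ => ?_
    obtain ⟨s, hs⟩ := corr_le (hφ v) (hfm z) (fun b => spin_bounded _)
      (show (0 : ℝ) < ε from hε)
    rw [hcorr] at hs
    refine (ENNReal.ofReal_le_ofReal hs).trans ?_
    rw [ENNReal.ofReal_add (Finset.sum_nonneg fun A _ => by positivity) ε.coe_nonneg,
      ENNReal.ofReal_coe_nnreal, ENNReal.ofReal_sum_of_nonneg fun A _ => by positivity]
    refine add_le_add ((Finset.sum_le_sum fun A _ => ?_).trans (ENNReal.sum_le_tsum s)) le_rfl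
    exact le_of_eq (ENNReal.ofReal_mul (abs_nonneg _))
  -- weights spread over the vertices carrying bits of `A`
  set ind : V → Finset (V × ℕ) → ℝ≥0∞ := fun a A =>
    if a ∈ A.image Prod.fst then ((A.image Prod.fst).card : ℝ≥0∞)⁻¹ else 0 with hind
  have hind' : ∀ (g : G ≃g G) a A, ind (g a) (A.map (act g).toEmbedding) = ind a A := by
    intro g a A
    have e : (A.map (act g).toEmbedding).image Prod.fst = (A.image Prod.fst).image g := by
      rw [Finset.map_eq_image, Finset.image_image, Finset.image_image]
      rfl
    simp only [hind, e, Finset.card_image_of_injective _ g.injective,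
      g.injective.mem_finset_image]
  have hindsum : ∀ v A, (∑' a, ind a A) * w v A = w v A := by
    intro v A
    rcases A.eq_empty_or_nonempty with rfl | hA
    · simp [hw0]
    · rw [tsum_eq_sum (s := A.image Prod.fst) (fun a ha => by simp only [hind, if_neg ha]),
        Finset.sum_congr rfl (fun a ha => by simp only [hind, if_pos ha] :
          ∀ a ∈ A.image Prod.fst, ind a A = ((A.image Prod.fst).card : ℝ≥0∞)⁻¹),
        Finset.sum_const, nsmul_eq_mul, ENNReal.mul_inv_cancel
          (by exact_mod_cast (hA.image _).card_pos.ne') (ENNReal.natCast_ne_top _), one_mul]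
  -- the Schur constant
  set dd : ℝ := (d : ℝ) - 1 with hdd
  have hdd2 : 2 ≤ dd := by
    have : (3 : ℝ) ≤ d := by exact_mod_cast hd
    linarith
  set a : ℝ := (Real.sqrt dd)⁻¹ with ha
  have hsq : 0 < Real.sqrt dd := Real.sqrt_pos.mpr (by linarith)
  have ha0 : 0 < a := inv_pos.mpr hsq
  have haa : dd * (a * a) = 1 := by
    rw [ha, ← mul_inv, Real.mul_self_sqrt (by linarith), mul_inv_cancel₀ (by linarith)]
  have hθa : a < θ := by
    by_contra hle
    push Not at hle
    have h2 := mul_le_mul_of_nonneg_left (mul_self_le_mul_self h0 hle) (show 0 ≤ dd by linarith)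
    rw [haa, ← sq] at h2
    linarith
  have hθp : 0 < θ := ha0.trans hθa
  set q : ℝ := (a + 1 / (dd * θ)) / 2 with hq
  have hq1 : 1 / (dd * θ) < a := by
    rw [div_lt_iff₀ (by positivity)]
    nlinarith [mul_lt_mul_of_pos_left hθa (show 0 < dd * a by positivity)]
  have hq0 : 0 < q := by positivity
  have hqa : q < a := by rw [hq]; linarith
  have hqd : 1 < dd * θ * q := by
    have : 1 / (dd * θ) < q := by rw [hq]; linarith
    rw [div_lt_iff₀ (by positivity)] at this
    linarith
  obtain ⟨c, hc0, hc⟩ := exists_schur_const hG hd hreg (θ := q) (a := a) hq0.le hqa (by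
    rw [← hdd]
    nlinarith [mul_lt_mul_of_pos_left hqa (show 0 < dd * a by positivity)])
  have hbound : ∀ k : ℕ, (dd * θ * q) ^ k ≤ c := by
    intro k
    set S : V → Finset V := fun v => (sphere_finite hG hd hreg v k).toFinset with hSdef
    set nb : V → (V → ℝ≥0∞) → ℝ≥0∞ := fun v f => ∑' z, if G.dist v z = k then f z else 0
      with hnb
    have hnbS : ∀ v f, nb v f = ∑ z ∈ S v, f z := by
      intro v f
      simp only [hnb]
      rw [tsum_eq_sum (s := S v) (fun z hz => if_neg (by simpa [hSdef] using hz))]
      exact Finset.sum_congr rfl fun z hz => if_pos (by simpa [hSdef] using hz)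
    set T : V → V → ℝ≥0∞ := fun v b => ∑' A, ind b A * (w v A * nb v fun z => w z A) with hT
    set T2 : V → V → ℝ≥0∞ := fun v b => ∑' A, ind b A * (w v A * w v A) with hT2
    have hTinv : ∀ (g : G ≃g G) v b, T (g v) (g b) = T v b := by
      intro g v b
      simp only [hT]
      rw [← (act g).finsetCongr.tsum_eq]
      refine tsum_congr fun A => ?_
      simp only [Equiv.finsetCongr_apply, hind', hw]
      congr 2
      simp only [hnb]
      rw [← g.toEquiv.tsum_eq]
      refine tsum_congr fun z => ?_
      show (if G.dist (g v) (g z) = k then w (g z) (A.map (act g).toEmbedding) else 0) = _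
      have hdist : G.dist (g v) (g z) = G.dist v z := by
        have key : ∀ (f : G ≃g G) a b, G.dist (f a) (f b) ≤ G.dist a b := by
          intro f a b
          obtain ⟨p, hp⟩ := hG.connected.exists_walk_length_eq_dist a b
          rw [← hp, ← Walk.length_map f.toHom p]
          exact dist_le (p.map f.toHom)
        refine le_antisymm (key g v z) ?_
        simpa using key g.symm (g v) (g z)
      rw [hdist, hw]
    have hT2inv : ∀ (g : G ≃g G) v b, T2 (g v) (g b) = T2 v b := by
      intro g v b
      simp only [hT2]
      rw [← (act g).finsetCongr.tsum_eq]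
      refine tsum_congr fun A => ?_
      simp only [Equiv.finsetCongr_apply, hind', hw]
    have hout : ∀ v (X : Finset (V × ℕ) → ℝ≥0∞),
        ∑' b, ∑' A, ind b A * (w v A * X A) = ∑' A, w v A * X A := by
      intro v X
      rw [ENNReal.tsum_comm]
      refine tsum_congr fun A => ?_
      rw [ENNReal.tsum_mul_right, ← mul_assoc, hindsum]
    have hlow : ((dd * θ) ^ k : ℝ) ≤ ((S o).card : ℝ) * θ ^ k := by
      rw [mul_pow]
      refine mul_le_mul_of_nonneg_right ?_ (by positivity)
      have h := sphere_card_ge hG hd hreg o k
      have e : ((d - 1 : ℕ) : ℝ) = dd := by rw [hdd, Nat.cast_sub (by omega), Nat.cast_one]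
      rw [← e]
      exact_mod_cast h
    have hA : ENNReal.ofReal ((dd * θ) ^ k) ≤ ∑' b, T o b := by
      simp only [hT]
      rw [hout]
      simp only [hnbS, Finset.mul_sum]
      rw [Summable.tsum_finsetSum fun _ _ => ENNReal.summable]
      calc ENNReal.ofReal ((dd * θ) ^ k) ≤ ENNReal.ofReal ((S o).card * θ ^ k) :=
            ENNReal.ofReal_le_ofReal hlow
        _ = ∑ z ∈ S o, ENNReal.ofReal (θ ^ k) := by
            rw [Finset.sum_const, nsmul_eq_mul, ENNReal.ofReal_mul (Nat.cast_nonneg _),
              ENNReal.ofReal_natCast]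
        _ ≤ _ := Finset.sum_le_sum fun z hz => by
            have : G.dist o z = k := by simpa [hSdef] using hz
            rw [← this]
            exact hpair o z
    set r : V → V → ℝ := fun v z => a ^ G.dist z o / a ^ G.dist v o with hr
    have hr0 : ∀ v z, 0 < r v z := fun v z => by positivity
    have hrow : ∀ v, nb v (fun z => ENNReal.ofReal (r v z / 2)) ≤
        ENNReal.ofReal (c / q ^ k / 2) := by
      intro v
      rw [hnbS, ← ENNReal.ofReal_sum_of_nonneg fun z _ => by
        have := hr0 v z; positivity, ← Finset.sum_div]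
      refine ENNReal.ofReal_le_ofReal (div_le_div_of_nonneg_right ?_ zero_le_two)
      simp only [hr]
      rw [← Finset.sum_div, div_le_div_iff₀ (by positivity) (by positivity)]
      refine le_trans (le_of_eq ?_) (hc (S v) v o)
      rw [Finset.sum_mul]
      refine Finset.sum_congr rfl fun z hz => ?_
      have : G.dist v z = k := by simpa [hSdef] using hz
      rw [this, mul_comm]
    have hschur : ∀ A, ∑' v, w v A * nb v (fun z => w z A) ≤
        ENNReal.ofReal (c / q ^ k) * ∑' v, w v A * w v A := by
      intro A
      have hpt : ∀ v z, w v A * w z A ≤ ENNReal.ofReal (r v z / 2) * (w v A * w v A) +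
          ENNReal.ofReal (r z v / 2) * (w z A * w z A) := by
        intro v z
        have hz := hr0 v z
        have hz' := hr0 z v
        simp only [hwdef]
        rw [← ENNReal.ofReal_mul (abs_nonneg _), ← ENNReal.ofReal_mul (abs_nonneg _),
          ← ENNReal.ofReal_mul (abs_nonneg _), ← ENNReal.ofReal_mul (by positivity),
          ← ENNReal.ofReal_mul (by positivity),
          ← ENNReal.ofReal_add (by positivity) (by positivity)]
        refine ENNReal.ofReal_le_ofReal ?_
        have e : r z v = (r v z)⁻¹ := by simp only [hr, inv_div]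
        rw [e]
        set R := r v z
        set x := |F v A|
        set y := |F z A|
        have h2 : 0 ≤ (R * x - y) ^ 2 / (2 * R) := by positivity
        have h3 : R / 2 * (x * x) + R⁻¹ / 2 * (y * y) - x * y = (R * x - y) ^ 2 / (2 * R) := by
          field_simp
          ring
        linarith
      set first : ℝ≥0∞ := ∑' v, ∑' z,
        if G.dist v z = k then ENNReal.ofReal (r v z / 2) * (w v A * w v A) else 0 with hfirst
      have hf : first ≤ ENNReal.ofReal (c / q ^ k / 2) * ∑' v, w v A * w v A := by
        rw [hfirst, ← ENNReal.tsum_mul_left]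
        refine ENNReal.tsum_le_tsum fun v => ?_
        refine le_trans (le_of_eq ?_) (mul_le_mul_left (hrow v) _)
        simp only [hnb]
        rw [← ENNReal.tsum_mul_right]
        exact tsum_congr fun z => by split_ifs <;> simp
      calc ∑' v, w v A * nb v (fun z => w z A)
          ≤ ∑' v, ∑' z, ((if G.dist v z = k then
              ENNReal.ofReal (r v z / 2) * (w v A * w v A) else 0) +
            (if G.dist z v = k then ENNReal.ofReal (r z v / 2) * (w z A * w z A) else 0)) := by
            refine ENNReal.tsum_le_tsum fun v => ?_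
            simp only [hnb]
            rw [← ENNReal.tsum_mul_left]
            refine ENNReal.tsum_le_tsum fun z => ?_
            rw [SimpleGraph.dist_comm (u := z) (v := v)]
            split_ifs
            · exact hpt v z
            · simp
        _ = first + first := by
            simp only [ENNReal.tsum_add]
            rw [ENNReal.tsum_comm (f := fun v z => if G.dist z v = k then
              ENNReal.ofReal (r z v / 2) * (w z A * w z A) else 0)]
        _ ≤ _ := by
            refine (add_le_add hf hf).trans (le_of_eq ?_)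
            rw [← add_mul, ← ENNReal.ofReal_add (by positivity) (by positivity)]
            congr 2
            ring
    have hB : ∑' b, T b o ≤ ENNReal.ofReal (c / q ^ k) := by
      calc ∑' b, T b o = ∑' A, ind o A * ∑' b, w b A * nb b fun z => w z A := by
            simp only [hT]
            rw [ENNReal.tsum_comm]
            exact tsum_congr fun A => ENNReal.tsum_mul_left
        _ ≤ ∑' A, ind o A * (ENNReal.ofReal (c / q ^ k) * ∑' b, w b A * w b A) :=
            ENNReal.tsum_le_tsum fun A => mul_le_mul_right (hschur A) _
        _ = ENNReal.ofReal (c / q ^ k) * ∑' b, T2 b o := by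
            simp only [hT2]
            rw [ENNReal.tsum_comm, ← ENNReal.tsum_mul_left]
            refine tsum_congr fun A => ?_
            rw [ENNReal.tsum_mul_left]
            ring
        _ ≤ ENNReal.ofReal (c / q ^ k) * 1 := by
            refine mul_le_mul_right ?_ _
            rw [← transport_eq hG hd hreg T2 hT2inv o]
            simp only [hT2, hout]
            exact hw2 o
        _ = _ := mul_one _
    have h := hA.trans ((transport_eq hG hd hreg T hTinv o).le.trans hB)
    rw [ENNReal.ofReal_le_ofReal_iff (by positivity), le_div_iff₀ (by positivity), ← mul_pow] at h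
    exact h
  obtain ⟨k, hk⟩ := pow_unbounded_of_one_lt c hqd
  exact absurd (hbound k) (not_le.mpr hk)

end Vale.Agent.P161
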