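import Vale.Agent.P161.Ising

/-!
# Existence of the free Ising measure
-/

namespace Vale.Agent.P161

open SimpleGraph MeasureTheory
open scoped Classical

variable {V : Type*} {G : SimpleGraph V} {d : ℕ}

theorem exists_isFreeIsing [Countable V] (hG : G.IsTree) (hd : 3 ≤ d)
    (hreg : ∀ v, (G.neighborSet v).ncard = d) {θ : ℝ} (h0 : 0 ≤ θ) (h1 : θ < 1) :
    ∃ μ : Measure (V → Bool), IsFreeIsing G θ μ := by
  obtain ⟨o⟩ := hG.connected.nonempty
  -- the parent of a vertex
  have hpar : ∀ v : V, ∃ p, v ≠ o → G.Adj v p ∧ G.dist p o + 1 = G.dist v o := by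
    intro v
    by_cases h : v = o
    · exact ⟨v, fun h' => absurd h h'⟩
    · obtain ⟨w, hw⟩ := exists_toward hG h
      exact ⟨w, fun _ => hw⟩
  choose par hpar using hpar
  -- the law of the independent signs
  set w : V → Bool → ℝ := fun v b => if v = o then 1 / 2 else (1 + θ * spin b) / 2 with hw
  have hw0 : ∀ v b, 0 ≤ w v b := by
    intro v b
    by_cases hv : v = o
    · simp only [hw, hv, if_true]; norm_num
    · cases b <;> simp only [hw, hv, if_false, spin] <;> norm_num <;> linarith
  set β : V → Measure Bool := fun v =>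
    ENNReal.ofReal (w v true) • Measure.dirac true +
      ENNReal.ofReal (w v false) • Measure.dirac false with hβ
  have hβp : ∀ v, IsProbabilityMeasure (β v) := by
    intro v
    refine ⟨?_⟩
    simp only [hβ, Measure.coe_add, Measure.coe_smul, Pi.add_apply, Pi.smul_apply, smul_eq_mul,
      measure_univ, mul_one]
    rw [← ENNReal.ofReal_add (hw0 _ _) (hw0 _ _)]
    by_cases hv : v = o <;> simp [hw, hv, spin] <;> ring_nf <;> simp
  have hβs : ∀ v b, β v {b} = ENNReal.ofReal (w v b) := by
    intro v b
    cases b <;> simp [hβ]
  set P := Measure.infinitePi β with hP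
  -- the ancestors
  have hfin : ∀ v, {u | G.dist o u + G.dist u v = G.dist o v}.Finite := fun v =>
    (ball_finite hG hd hreg o (G.dist o v)).subset fun u hu => by
      simp only [Set.mem_setOf_eq] at hu ⊢; omega
  set anc : V → Finset V := fun v => (hfin v).toFinset with hanc
  have mem_anc : ∀ v u, u ∈ anc v ↔ G.dist o u + G.dist u v = G.dist o v := fun v u => by
    simp [hanc]
  set π : V → (V → Bool) → ℝ := fun v τ => ∏ u ∈ anc v, spin (τ u) with hπ
  set σ : (V → Bool) → V → Bool := fun τ v => decide (0 < π v τ) with hσ
  have habs : ∀ v τ, |π v τ| = 1 := fun v τ => by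
    simp [hπ, Finset.abs_prod, abs_spin]
  have hspinσ : ∀ v τ, spin (σ τ v) = π v τ := by
    intro v τ
    rcases (abs_eq zero_le_one).mp (habs v τ) with h | h <;> simp [hσ, h, spin]
  have hσm : Measurable σ := measurable_pi_lambda _ fun v =>
    (Measurable.of_discrete (f := fun x : ({u // u ∈ anc v} → Bool) =>
      decide (0 < ∏ u, spin (x u)))).comp
      (measurable_pi_lambda _ fun u => measurable_pi_apply (u : V)) |> fun h => by
        convert h using 1
        funext τ
        simp only [hσ, hπ, Function.comp_apply]
        rw [Finset.prod_coe_sort (anc v) (fun u => spin (τ u))]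
  -- the recursion
  have hstep : ∀ v, v ≠ o → ∀ τ, π v τ = π (par v) τ * spin (τ v) := by
    intro v hv τ
    obtain ⟨hadj, hdist⟩ := hpar v hv
    rw [dist_comm (u := par v), dist_comm (u := v) (v := o)] at hdist
    have e : anc v = insert v (anc (par v)) := by
      ext u
      rw [Finset.mem_insert, mem_anc, mem_anc]
      constructor
      · intro hu
        by_cases huv : u = v
        · exact Or.inl huv
        · right
          obtain ⟨z, hz, hzd⟩ := exists_toward hG (Ne.symm huv)
          have t1 := hG.connected.dist_triangle (u := o) (v := u) (w := z)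
          have t2 : G.dist o v ≤ G.dist o z + 1 := by
            have := hG.connected.dist_triangle (u := o) (v := z) (w := v)
            rwa [dist_eq_one_iff_adj.mpr hz.symm] at this
          rw [dist_comm (u := u) (v := z)] at t1
          rw [dist_comm (u := u) (v := v)] at hu
          have hzo : G.dist z o + 1 = G.dist v o := by
            rw [dist_comm (u := z), dist_comm (u := v) (v := o)]; omega
          have hzp := toward_unique hG hz hadj hzo
            (by rw [dist_comm (u := par v), dist_comm (u := v) (v := o)]; exact hdist)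
          subst hzp
          rw [dist_comm (u := u)]
          omega
      · rintro (rfl | hu)
        · simp
        · have t1 := hG.connected.dist_triangle (u := o) (v := u) (w := v)
          have t2 := hG.connected.dist_triangle (u := u) (v := par v) (w := v)
          rw [dist_eq_one_iff_adj.mpr hadj.symm] at t2
          omega
    have hnot : v ∉ anc (par v) := by
      rw [mem_anc, dist_eq_one_iff_adj.mpr hadj]; omega
    simp only [hπ]
    rw [e, Finset.prod_insert hnot, mul_comm]
  refine ⟨P.map σ, Measure.isProbabilityMeasure_map hσm.aemeasurable, fun D hD η => ?_⟩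
  have hDne : D.Nonempty := by
    obtain ⟨⟨x, hx⟩⟩ := hD.nonempty
    exact ⟨x, hx⟩
  obtain ⟨r, hr, hrmin⟩ := Finset.exists_min_image D (fun v => G.dist o v) hDne
  set E := D.erase r with hE
  have hne : ∀ v ∈ E, v ≠ o := by
    intro v hv hvo
    rw [hvo] at hv
    obtain ⟨hvr, hvD⟩ := Finset.mem_erase.mp hv
    have := hrmin o hvD
    rw [dist_self] at this
    exact hvr (hG.connected.dist_eq_zero_iff.mp (Nat.le_zero.mp this))
  have hparD : ∀ v ∈ E, par v ∈ D := by
    intro v hv
    obtain ⟨hvr, hvD⟩ := Finset.mem_erase.mp hv
    obtain ⟨hadj, hdist⟩ := hpar v (hne v hv)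
    have hoS : o ∈ edgeSide G v (par v) := by rw [mem_edgeSide]; omega
    have hvS : v ∉ edgeSide G v (par v) := not_mem_edgeSide_left hadj
    have hrS : r ∈ edgeSide G v (par v) := by
      by_contra hrS
      have e := dist_across hG hadj hoS r hrS
      have := hrmin v hvD
      have hpos : 0 < G.dist v r := hG.connected.pos_dist_of_ne hvr
      rw [dist_comm (u := r) (v := o)] at e
      rw [dist_comm (u := v) (v := o)] at hdist
      omega
    obtain ⟨p⟩ := hD.preconnected ⟨r, hr⟩ ⟨v, hvD⟩
    obtain ⟨dd, -, h1', h2'⟩ :=
      p.exists_boundary_dart {x | (x : V) ∈ edgeSide G v (par v)} hrS hvS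
    have := (crossing_edge hG hadj (show G.Adj dd.fst.1 dd.snd.1 from dd.adj) h1' h2').1
    rw [← this]
    exact dd.fst.2
  have hedges : edgesWithin G D = E.image fun v => s(v, par v) := by
    ext e
    induction e using Sym2.ind with
    | h a b =>
      simp only [edgesWithin, Finset.mem_filter, Finset.mk_mem_sym2_iff, mem_edgeSet,
        Finset.mem_image]
      constructor
      · rintro ⟨⟨ha, hb⟩, hab⟩
        have key : ∀ x y, x ∈ D → y ∈ D → G.Adj x y → G.dist x o = G.dist y o + 1 →
            x ∈ E ∧ par x = y := by
          intro x y hx hy hxy hd'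
          have hxr : x ≠ r := by
            rintro rfl
            have := hrmin y hy
            rw [dist_comm (u := o) (v := x), dist_comm (u := o) (v := y)] at this
            omega
          have hxE : x ∈ E := Finset.mem_erase.mpr ⟨hxr, hx⟩
          obtain ⟨hadj, hdist⟩ := hpar x (hne x hxE)
          exact ⟨hxE, toward_unique hG hadj hxy hdist hd'.symm⟩
        rcases dist_succ_or hG hab o with h | h
        · obtain ⟨he, hp⟩ := key a b ha hb hab h
          exact ⟨a, he, by rw [hp]⟩
        · obtain ⟨he, hp⟩ := key b a hb ha hab.symm h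
          exact ⟨b, he, by rw [hp]; exact Sym2.eq_swap⟩
      · rintro ⟨v, hv, he⟩
        obtain ⟨hadj, -⟩ := hpar v (hne v hv)
        have hvD := (Finset.mem_erase.mp hv).2
        rcases Sym2.eq_iff.mp he with ⟨rfl, rfl⟩ | ⟨rfl, rfl⟩
        · exact ⟨⟨hvD, hparD v hv⟩, hadj⟩
        · exact ⟨⟨hparD v hv, hvD⟩, hadj.symm⟩
  have hinj : Set.InjOn (fun v => s(v, par v)) E := by
    intro a ha b hb hab
    rcases Sym2.eq_iff.mp hab with ⟨h, -⟩ | ⟨h, h'⟩
    · exact h
    · exfalso
      have ea := (hpar a (hne a ha)).2
      have eb := (hpar b (hne b hb)).2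
      rw [h'] at ea
      rw [← h] at eb
      omega
  -- the event
  set c : V → Bool := fun v => decide (η v = η (par v)) with hc
  set Bset : Set (V → Bool) := (E : Set V).pi fun v => {c v} with hBset
  set A : Bool → Set (V → Bool) := fun b => {τ | σ τ r = b} with hA
  have hAm : ∀ b, MeasurableSet (A b) := fun b =>
    ((measurable_pi_apply r).comp hσm) (measurableSet_singleton b)
  have hBm : MeasurableSet Bset := .pi E.countable_toSet fun v _ => measurableSet_singleton _
  have hspinc : ∀ v, spin (c v) = spin (η v) * spin (η (par v)) := fun v => by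
    cases hx : η v <;> cases hy : η (par v) <;> simp [hc, hx, hy, spin]
  have hev : σ ⁻¹' {s | ∀ v ∈ D, s v = η v} = A (η r) ∩ Bset := by
    ext τ
    simp only [Set.mem_preimage, Set.mem_setOf_eq, hA, hBset, Set.mem_inter_iff, Set.mem_pi,
      Finset.mem_coe, Set.mem_singleton_iff]
    have spin_inj : ∀ a b : Bool, spin a = spin b → a = b := by
      intro a b; cases a <;> cases b <;> simp [spin] <;> norm_num
    constructor
    · intro h
      refine ⟨h r hr, fun v hv => ?_⟩
      apply spin_inj
      have e := hstep v (hne v hv) τ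
      rw [← hspinσ, ← hspinσ, h v (Finset.mem_erase.mp hv).2, h (par v) (hparD v hv)] at e
      rw [hspinc, e]
      have := spin_mul_self (η (par v))
      linear_combination -(spin (τ v)) * this
    · rintro ⟨hr', hB⟩
      suffices H : ∀ n, ∀ v ∈ D, G.dist o v = n → σ τ v = η v from fun v hv => H _ v hv rfl
      intro n
      induction n using Nat.strong_induction_on with
      | _ n ih =>
        intro v hv hvn
        by_cases hvr : v = r
        · rw [hvr]; exact hr'
        · have hvE : v ∈ E := Finset.mem_erase.mpr ⟨hvr, hv⟩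
          have hd' := (hpar v (hne v hvE)).2
          rw [dist_comm (u := par v), dist_comm (u := v) (v := o)] at hd'
          have := ih (G.dist o (par v)) (by omega) (par v) (hparD v hvE) rfl
          apply spin_inj
          rw [hspinσ, hstep v (hne v hvE) τ, ← hspinσ, this, hB v hvE, hspinc]
          have := spin_mul_self (η (par v))
          linear_combination (spin (η v)) * this
  -- flipping the root sign
  set F : (V → Bool) → (V → Bool) := fun τ v => if v = o then !(τ v) else τ v with hF
  have hFm : Measurable F := measurable_pi_lambda _ fun v => by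
    by_cases hv : v = o
    · simp only [hF, hv, if_true]
      exact (Measurable.of_discrete (f := not)).comp (measurable_pi_apply o)
    · simp only [hF, hv, if_false]; exact measurable_pi_apply v
  have hflip : P.map F = P := by
    rw [hP, hF, Measure.infinitePi_map_pi (μ := β) (f := fun v b => if v = o then !b else b)
      (fun v => Measurable.of_discrete)]
    congr 1
    funext v
    refine Measure.ext_of_singleton fun b => ?_
    rw [Measure.map_apply Measurable.of_discrete (measurableSet_singleton b)]
    by_cases hv : v = o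
    · rw [show (fun b => if v = o then !b else b) ⁻¹' {b} = {!b} by
        ext x; cases x <;> cases b <;> simp [hv], hβs, hβs]
      simp [hw, hv]
    · simp [hv]
  have hFB : F ⁻¹' Bset = Bset := by
    ext τ
    simp only [Set.mem_preimage, hBset, Set.mem_pi, Finset.mem_coe, Set.mem_singleton_iff, hF]
    exact forall₂_congr fun v hv => by rw [if_neg (hne v hv)]
  have hFA : ∀ b, F ⁻¹' (A b) = A (!b) := by
    intro b
    ext τ
    have ho' : o ∈ anc r := by rw [mem_anc]; simp
    have e : π r (F τ) = - π r τ := by
      simp only [hπ]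
      rw [← Finset.mul_prod_erase _ _ ho', ← Finset.mul_prod_erase (anc r) (fun u => spin (τ u)) ho']
      have e1 : ∏ u ∈ (anc r).erase o, spin (F τ u) = ∏ u ∈ (anc r).erase o, spin (τ u) :=
        Finset.prod_congr rfl fun u hu => by simp [hF, (Finset.mem_erase.mp hu).1]
      have e2 : spin (F τ o) = - spin (τ o) := by cases hh : τ o <;> simp [hF, hh, spin]
      rw [e1, e2, neg_mul]
    rw [← hspinσ, ← hspinσ] at e
    simp only [Set.mem_preimage, hA, Set.mem_setOf_eq]
    cases b <;> cases h1 : σ (F τ) r <;> cases h2 : σ τ r <;> simp [h1, h2, spin] at e ⊢ <;>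
      norm_num at e
  have hsymm : P (A (!(η r)) ∩ Bset) = P (A (η r) ∩ Bset) := by
    rw [← hFA, ← hFB, ← Set.preimage_inter]
    conv_lhs => rw [← Measure.map_apply hFm ((hAm _).inter hBm), hflip]
    rw [hFB]
  have htot : P (A (η r) ∩ Bset) + P (A (!(η r)) ∩ Bset) = P Bset := by
    have hd' : Disjoint (A (η r) ∩ Bset) (A (!(η r)) ∩ Bset) := by
      rw [Set.disjoint_left]
      rintro τ ⟨h1, -⟩ ⟨h2, -⟩
      simp only [hA, Set.mem_setOf_eq] at h1 h2
      rw [h1] at h2
      cases hh : η r <;> simp [hh] at h2
    rw [← measure_union hd' ((hAm _).inter hBm)]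
    congr 1
    ext τ
    simp only [hA, Set.mem_union, Set.mem_inter_iff, Set.mem_setOf_eq]
    cases σ τ r <;> cases η r <;> simp
  rw [hsymm, ← two_mul] at htot
  have hPB : P Bset = ENNReal.ofReal (∏ e ∈ edgesWithin G D, pairFactor θ η e) := by
    rw [hP, hBset, Measure.infinitePi_pi β (fun v _ => measurableSet_singleton _), hedges,
      Finset.prod_image hinj, ENNReal.ofReal_prod_of_nonneg fun v _ => (pairFactor_pos h0 h1 η _).le]
    refine Finset.prod_congr rfl fun v hv => ?_
    rw [hβs, pairFactor_mk]
    simp only [hw, if_neg (hne v hv), hspinc]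
    congr 1; ring
  have hset : MeasurableSet {s : V → Bool | ∀ v ∈ D, s v = η v} := by
    have : {s : V → Bool | ∀ v ∈ D, s v = η v} = ⋂ v ∈ D, {s | s v = η v} := by ext; simp
    rw [this]
    exact Finset.measurableSet_biInter D fun v _ =>
      measurable_pi_apply v (measurableSet_singleton _)
  rw [Measure.map_apply hσm hset, hev, ENNReal.ofReal_mul (by norm_num), ← hPB, ← htot,
    ← mul_assoc]
  rw [show ENNReal.ofReal (1 / 2) * 2 = 1 by
    rw [← ENNReal.ofReal_ofNat, ← ENNReal.ofReal_mul (by norm_num)]; norm_num, one_mul]

end Vale.Agent.P161
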