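import Vale.Agent.P161.Euler
import Vale.Agent.P161.Exists

/-!
# The free Ising measure is a factor of IID below the reconstruction threshold
-/

namespace Vale.Agent.P161

open SimpleGraph MeasureTheory ProbabilityTheory Filter
open scoped Classical Topology

variable {V : Type*} [Countable V] {G : SimpleGraph V} {θ : ℝ} {d : ℕ}

theorem isFactorOfIID_of_below (hG : G.IsTree) (hd : 3 ≤ d)
    (hreg : ∀ v, (G.neighborSet v).ncard = d) (h0 : 0 ≤ θ) (hθ : ((d : ℝ) - 1) * θ ^ 2 < 1)
    {μ : Measure (V → Bool)} (hμ : IsFreeIsing G θ μ) : IsFactorOfIID G μ := by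
  haveI := hμ.1
  haveI := isProb_sampleLaw hμ
  have h1 : θ < 1 := by
    have : (3 : ℝ) ≤ d := by exact_mod_cast hd
    nlinarith
  obtain ⟨o0⟩ := hG.connected.nonempty
  choose g hgm hg using fun o : V => spin_eq_ae hG hd hreg h0 hθ hμ o0 o
  set π := innovPath G θ μ hG hd hreg o0 with hπ
  have hπm : Measurable π := measurable_innovPath hG hd hreg o0
  set Φ0 : (V → IncPath) → V → Bool := fun z v => decide (0 < g v z) with hΦ0
  have hΦ0m : Measurable Φ0 := measurable_pi_lambda _ fun v => by
    refine measurable_to_bool ?_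
    have : (fun z => decide (0 < g v z)) ⁻¹' {true} = g v ⁻¹' Set.Ioi 0 := by ext z; simp
    rw [this]
    exact hgm v measurableSet_Ioi
  have hrec : ∀ᵐ ω ∂sampleLaw μ, Φ0 (π ω) = ω.1 := by
    filter_upwards [ae_all_iff.mpr hg] with ω hω
    funext v
    simp only [hΦ0, ← hω v]
    cases ω.1 v <;> simp [spin]
  set P := Measure.infinitePi fun _ : V => incLaw with hP
  have hπlaw : (sampleLaw μ).map π = P := innovPath_law hG hd hreg h0 h1 hμ o0
  obtain ⟨f, hfm, hf⟩ := Measure.exists_measurable_map_eq incLaw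
  have hfV : Measurable (fun (U : V → unitInterval) w => f (U w)) :=
    measurable_pi_lambda _ fun w => hfm.comp (measurable_pi_apply w)
  have hflaw : (iidLabels V).map (fun U w => f (U w)) = P := by
    rw [iidLabels, Measure.infinitePi_map_pi _ (fun _ => hfm), hf]
  refine ⟨fun U => Φ0 (fun w => f (U w)), hΦ0m.comp hfV, fun e => ?_, ?_⟩
  · have hmp := measurePreserving_moveSample hG hd hreg hμ e
    have hrec' : ∀ᵐ ω ∂sampleLaw μ, Φ0 (π (moveSample e ω)) = (moveSample e ω).1 :=
      hmp.quasiMeasurePreserving.ae hrec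
    have hset : MeasurableSet {z : V → IncPath | Φ0 (moveCfg e z) = moveCfg e (Φ0 z)} := by
      rw [show {z : V → IncPath | Φ0 (moveCfg e z) = moveCfg e (Φ0 z)} =
        ⋂ v, {z | Φ0 (moveCfg e z) v = moveCfg e (Φ0 z) v} by ext z; simp [funext_iff]]
      exact MeasurableSet.iInter fun v => measurableSet_eq_fun
        ((measurable_pi_apply v).comp (hΦ0m.comp (measurable_moveCfg e)))
        ((measurable_pi_apply v).comp ((measurable_moveCfg e).comp hΦ0m))
    have hP' : ∀ᵐ z ∂P, Φ0 (moveCfg e z) = moveCfg e (Φ0 z) := by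
      rw [← hπlaw]
      refine (ae_map_iff hπm.aemeasurable hset).mpr ?_
      filter_upwards [hrec, hrec', innovPath_move h0 h1 hG hd hreg hμ e o0] with ω hω hω' hmove
      simp only [← hπ] at hmove
      rw [← hmove, hω', hω]
      rfl
    rw [← hflaw] at hP'
    filter_upwards [(ae_map_iff hfV.aemeasurable hset).mp hP'] with U hU
    exact hU
  · show (iidLabels V).map (Φ0 ∘ fun U w => f (U w)) = μ
    rw [← Measure.map_map hΦ0m hfV, hflaw, ← hπlaw, Measure.map_map hΦ0m hπm,
      Measure.map_congr (show (Φ0 ∘ π) =ᵐ[sampleLaw μ] Prod.fst from hrec),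
      sampleLaw, ← Measure.fst, Measure.fst_prod]

end Vale.Agent.P161
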