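import Vale.Agent.P161.BLaw

/-!
# Automorphisms: invariance of the law and equivariance of the innovations
-/

namespace Vale.Agent.P161

open SimpleGraph MeasureTheory ProbabilityTheory Filter
open scoped Classical Topology

variable {V : Type*} {G : SimpleGraph V}

theorem dist_iso (hc : G.Connected) (g : G ≃g G) (u v : V) : G.dist (g u) (g v) = G.dist u v := by
  have key : ∀ (f : G ≃g G) a b, G.dist (f a) (f b) ≤ G.dist a b := by
    intro f a b
    obtain ⟨p, hp⟩ := hc.exists_walk_length_eq_dist a b
    rw [← hp, ← Walk.length_map f.toHom p]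
    exact dist_le (p.map f.toHom)
  refine le_antisymm (key g u v) ?_
  simpa using key g.symm (g u) (g v)

theorem ballSet_image {d : ℕ} (hG : G.IsTree) (hd : 3 ≤ d)
    (hreg : ∀ v, (G.neighborSet v).ncard = d) (g : G ≃g G) (o : V) (n : ℕ) :
    (ballSet hG hd hreg o n).image g.symm = ballSet hG hd hreg (g.symm o) n := by
  ext x
  simp only [Finset.mem_image, mem_ballSet]
  constructor
  · rintro ⟨y, hy, rfl⟩
    rwa [dist_iso hG.connected g.symm]
  · intro hx
    refine ⟨g x, ?_, by simp⟩
    rw [← dist_iso hG.connected g.symm]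
    simpa using hx

theorem connected_image (g : G ≃g G) {D : Finset V} (hD : (G.induce (D : Set V)).Connected) :
    (G.induce ((D.image g : Finset V) : Set V)).Connected := by
  let e : G.induce (D : Set V) ≃g G.induce ((D.image g : Finset V) : Set V) :=
    { toEquiv := g.toEquiv.subtypeEquiv (fun x => by simp)
      map_rel_iff' := by intro a b; exact g.map_rel_iff' }
  exact e.connected_iff.mp hD

theorem edgesWithin_image (g : G ≃g G) (D : Finset V) :
    edgesWithin G (D.image g) = (edgesWithin G D).image (Sym2.map g) := by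
  ext e
  induction e using Sym2.ind with
  | h a b =>
    simp only [edgesWithin, Finset.mem_filter, Finset.mk_mem_sym2_iff, mem_edgeSet,
      Finset.mem_image]
    constructor
    · rintro ⟨⟨⟨a', ha, rfl⟩, ⟨b', hb, rfl⟩⟩, hab⟩
      exact ⟨s(a', b'), ⟨Finset.mk_mem_sym2_iff.mpr ⟨ha, hb⟩, g.map_rel_iff'.mp hab⟩, by simp⟩
    · rintro ⟨e', ⟨he, hadj⟩, hmap⟩
      induction e' using Sym2.ind with
      | h a' b' =>
        obtain ⟨ha, hb⟩ := Finset.mk_mem_sym2_iff.mp he
        have hadj' : G.Adj (g a') (g b') := g.map_rel_iff'.mpr hadj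
        rw [Sym2.map_mk, Sym2.eq_iff] at hmap
        rcases hmap with ⟨rfl, rfl⟩ | ⟨rfl, rfl⟩
        · exact ⟨⟨⟨a', ha, rfl⟩, ⟨b', hb, rfl⟩⟩, hadj'⟩
        · exact ⟨⟨⟨b', hb, rfl⟩, ⟨a', ha, rfl⟩⟩, hadj'.symm⟩

theorem pairFactor_map (θ : ℝ) (f : V → V) (η : V → Bool) (e : Sym2 V) :
    pairFactor θ η (Sym2.map f e) = pairFactor θ (fun x => η (f x)) e := by
  induction e using Sym2.ind with
  | h a b => rw [Sym2.map_mk, pairFactor_mk, pairFactor_mk]

theorem prod_edgesWithin_image (θ : ℝ) (g : G ≃g G) (D : Finset V) (η : V → Bool) :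
    ∏ e ∈ edgesWithin G (D.image g), pairFactor θ η e =
      ∏ e ∈ edgesWithin G D, pairFactor θ (fun x => η (g x)) e := by
  rw [edgesWithin_image, Finset.prod_image (fun a _ b _ h => Sym2.map.injective g.injective h)]
  exact Finset.prod_congr rfl fun e _ => pairFactor_map θ g η e

theorem pairFactor_congr (θ : ℝ) {η η' : V → Bool} {e : Sym2 V}
    (h : ∀ x ∈ e, η x = η' x) : pairFactor θ η e = pairFactor θ η' e := by
  induction e using Sym2.ind with
  | h a b =>
    rw [pairFactor_mk, pairFactor_mk, h a (Sym2.mem_mk_left a b), h b (Sym2.mem_mk_right a b)]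

/-- The configurations on a set and on its image. -/
noncomputable def cfgMap (g : G ≃g G) (D : Finset V) :
    (↥(D.image g) → Bool) ≃ (D → Bool) where
  toFun η x := η ⟨g x, Finset.mem_image_of_mem g x.2⟩
  invFun η y := η ⟨g.symm y, by
    obtain ⟨x, hx, e⟩ := Finset.mem_image.mp y.2
    rw [← e]; simpa using hx⟩
  left_inv η := by funext y; simp
  right_inv η := by funext x; simp

theorem extCfg_cfgMap (g : G ≃g G) (D : Finset V) (η : ↥(D.image g) → Bool) {x : V}
    (hx : x ∈ D) : extCfg η (g x) = extCfg (cfgMap g D η) x := by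
  rw [extCfg_of_mem _ hx, extCfg_of_mem _ (Finset.mem_image_of_mem g hx)]
  rfl

theorem magn_image (θ : ℝ) (g : G ≃g G) (D : Finset V) {v : V} (hv : v ∈ D) (y : V → ℝ) :
    magn G θ (D.image g) (g v) y = magn G θ D v (fun x => y (g x)) := by
  have hw : ∀ η, fieldWeight G θ (D.image g) y η =
      fieldWeight G θ D (fun x => y (g x)) (cfgMap g D η) := by
    intro η
    unfold fieldWeight freeWeight
    rw [prod_edgesWithin_image]
    congr 1
    · congr 1
      refine Finset.prod_congr rfl fun e he => pairFactor_congr θ fun x hx => ?_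
      simp only [edgesWithin, Finset.mem_filter, Finset.mem_sym2_iff] at he
      exact extCfg_cfgMap g D η (he.1 x hx)
    · refine (Fintype.prod_bijective
        (fun x : D => (⟨g x, Finset.mem_image_of_mem g x.2⟩ : (D.image g : Finset V))) ?_ _ _
        (fun x => rfl)).symm
      constructor
      · intro a b h
        exact Subtype.ext (g.injective (congrArg Subtype.val h))
      · rintro ⟨y, hy⟩
        obtain ⟨x, hx, rfl⟩ := Finset.mem_image.mp hy
        exact ⟨⟨x, hx⟩, rfl⟩
  unfold magn
  rw [← (cfgMap g D).sum_comp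
      (fun η => fieldWeight G θ D (fun x => y (g x)) η * spin (extCfg η v)),
    ← (cfgMap g D).sum_comp (fun η => fieldWeight G θ D (fun x => y (g x)) η)]
  simp only [← hw, ← extCfg_cfgMap g D _ hv]

/-- The action of an automorphism on configurations. -/
def moveCfg {α : Type*} (g : G ≃g G) (s : V → α) : V → α := fun v => s (g.symm v)

theorem measurable_moveCfg {α : Type*} [MeasurableSpace α] (g : G ≃g G) :
    Measurable (moveCfg (α := α) g) :=
  measurable_pi_lambda _ fun _ => measurable_pi_apply _

theorem infinitePi_move {α : Type*} [MeasurableSpace α] (ν : Measure α) [IsProbabilityMeasure ν]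
    (g : G ≃g G) :
    (Measure.infinitePi fun _ : V => ν).map (moveCfg g) = Measure.infinitePi fun _ : V => ν := by
  refine Measure.eq_infinitePi _ fun s t ht => ?_
  rw [Measure.map_apply (measurable_moveCfg g) (.pi s.countable_toSet fun i _ => ht i)]
  have e : moveCfg g ⁻¹' (s : Set V).pi t =
      ((s.image g.symm : Finset V) : Set V).pi (fun u => t (g u)) := by
    ext x
    simp only [moveCfg, Set.mem_preimage, Set.mem_pi, Finset.coe_image, Set.mem_image,
      Finset.mem_coe]
    constructor
    · rintro h u ⟨i, hi, rfl⟩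
      simpa using h i hi
    · intro h i hi
      simpa using h (g.symm i) ⟨i, hi, rfl⟩
  rw [e, Measure.infinitePi_pi _ (fun u _ => ht (g u)),
    Finset.prod_image (fun a _ b _ h => g.symm.injective h)]
  simp

variable {θ : ℝ} {μ : Measure (V → Bool)}

theorem isFreeIsing_move (hμ : IsFreeIsing G θ μ) (g : G ≃g G) :
    IsFreeIsing G θ (μ.map (moveCfg g)) := by
  haveI := hμ.1
  refine ⟨Measure.isProbabilityMeasure_map (measurable_moveCfg g).aemeasurable, fun D hD η => ?_⟩
  have hs : MeasurableSet {s : V → Bool | ∀ v ∈ D, s v = η v} := by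
    have : {s : V → Bool | ∀ v ∈ D, s v = η v} = ⋂ v ∈ D, {s | s v = η v} := by ext; simp
    rw [this]
    exact Finset.measurableSet_biInter D fun v _ =>
      measurable_pi_apply v (measurableSet_singleton _)
  rw [Measure.map_apply (measurable_moveCfg g) hs]
  have e : moveCfg g ⁻¹' {s : V → Bool | ∀ v ∈ D, s v = η v} =
      {s | ∀ u ∈ D.image g.symm, s u = (fun u => η (g u)) u} := by
    ext s
    simp [moveCfg]
  rw [e, hμ.2 _ (connected_image g.symm hD), prod_edgesWithin_image]
  simp

variable {d : ℕ}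

theorem isFreeIsing_unique [Countable V] (hG : G.IsTree) (hd : 3 ≤ d)
    (hreg : ∀ v, (G.neighborSet v).ncard = d) {μ' : Measure (V → Bool)}
    (hμ : IsFreeIsing G θ μ) (hμ' : IsFreeIsing G θ μ') : μ = μ' := by
  haveI := hμ.1
  haveI := hμ'.1
  obtain ⟨o⟩ := hG.connected.nonempty
  refine IsProjectiveLimit.unique (P := fun I : Finset V => μ.map I.restrict) (fun I => rfl)
    (fun I => ?_)
  set D := ballSet hG hd hreg o (I.sup fun v => G.dist o v) with hD
  have hI : I ⊆ D := fun v hv => by
    rw [hD, mem_ballSet]; exact Finset.le_sup (f := fun v => G.dist o v) hv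
  have hm : ∀ J : Finset V, Measurable (J.restrict : (V → Bool) → J → Bool) := fun J =>
    measurable_pi_lambda _ fun _ => measurable_pi_apply _
  have hDeq : μ'.map D.restrict = μ.map D.restrict := by
    refine Measure.ext_of_singleton fun η => ?_
    rw [Measure.map_apply (hm D) (measurableSet_singleton _),
      Measure.map_apply (hm D) (measurableSet_singleton _)]
    have e : (D.restrict : (V → Bool) → D → Bool) ⁻¹' {η} =
        {s | ∀ v ∈ D, s v = extCfg η v} := by
      ext s
      simp only [Set.mem_preimage, Set.mem_singleton_iff, Set.mem_setOf_eq, funext_iff,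
        Finset.restrict]
      constructor
      · intro hs v hv; rw [extCfg_of_mem _ hv]; exact hs ⟨v, hv⟩
      · rintro hs ⟨v, hv⟩; rw [← extCfg_of_mem η hv]; exact hs v hv
    rw [e, hμ.2 D (ballSet_connected hG hd hreg _ _),
      hμ'.2 D (ballSet_connected hG hd hreg _ _)]
  have e2 : ∀ ν : Measure (V → Bool), ν.map I.restrict =
      (ν.map D.restrict).map (fun x : D → Bool => Finset.restrict₂ (π := fun _ => Bool) hI x) := by
    intro ν
    have hr : Measurable (fun x : D → Bool => Finset.restrict₂ (π := fun _ => Bool) hI x) :=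
      measurable_pi_lambda _ fun i => measurable_pi_apply (⟨i.1, hI i.2⟩ : D)
    rw [Measure.map_map hr (hm D)]
    rfl
  show μ'.map I.restrict = μ.map I.restrict
  rw [e2, e2, hDeq]

theorem measurePreserving_moveCfg [Countable V] (hG : G.IsTree) (hd : 3 ≤ d)
    (hreg : ∀ v, (G.neighborSet v).ncard = d) (hμ : IsFreeIsing G θ μ) (g : G ≃g G) :
    MeasurePreserving (moveCfg g) μ μ :=
  ⟨measurable_moveCfg g, isFreeIsing_unique hG hd hreg (isFreeIsing_move hμ g) hμ⟩

/-- The action of an automorphism on samples. -/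
def moveSample (g : G ≃g G) (ω : Sample V) : Sample V := (moveCfg g ω.1, moveCfg g ω.2)

theorem measurePreserving_moveSample [Countable V] (hG : G.IsTree) (hd : 3 ≤ d)
    (hreg : ∀ v, (G.neighborSet v).ncard = d) (hμ : IsFreeIsing G θ μ) (g : G ≃g G) :
    MeasurePreserving (moveSample g) (sampleLaw μ) (sampleLaw μ) := by
  haveI := hμ.1
  exact (measurePreserving_moveCfg hG hd hreg hμ g).prod
    ⟨measurable_moveCfg g, infinitePi_move stdNoise g⟩

theorem obsInc_move (g : G ≃g G) (j k : ℕ) (v : V) (ω : Sample V) :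
    obsInc j k v (moveSample g ω) = obsInc j k (g.symm v) ω := rfl

theorem mfil_move (g : G ≃g G) (D : Finset V) {v : V} (hv : v ∈ D) (j k : ℕ) (ω : Sample V) :
    mfil G θ D v j k (moveSample g ω) = mfil G θ (D.image g.symm) (g.symm v) j k ω := by
  simp only [mfil, magn_image θ g.symm D hv]
  rfl

theorem innov_move (g : G ≃g G) (D : Finset V) {v : V} (hv : v ∈ D) (j k r : ℕ) (ω : Sample V) :
    innov G θ D v j k r (moveSample g ω) =
      innov G θ (D.image g.symm) (g.symm v) j k r ω := by
  simp only [innov, driftSum, mfil_move g D hv, obsInc_move]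

theorem integral_comp_move [Countable V] (hG : G.IsTree) (hd : 3 ≤ d)
    (hreg : ∀ v, (G.neighborSet v).ncard = d) (hμ : IsFreeIsing G θ μ) (g : G ≃g G)
    {f : Sample V → ℝ} (hf : AEStronglyMeasurable f (sampleLaw μ)) :
    ∫ ω, f (moveSample g ω) ∂sampleLaw μ = ∫ ω, f ω ∂sampleLaw μ := by
  have h := measurePreserving_moveSample hG hd hreg hμ g
  conv_rhs => rw [← h.map_eq]
  rw [integral_map h.measurable.aemeasurable (by rwa [h.map_eq])]

variable [Countable V]

theorem innovD_move (h0 : 0 ≤ θ) (h1 : θ < 1) (hG : G.IsTree) (hd : 3 ≤ d)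
    (hreg : ∀ v, (G.neighborSet v).ncard = d) (hμ : IsFreeIsing G θ μ) (g : G ≃g G)
    {D : Finset V} (hD : (G.induce (D : Set V)).Connected) {v : V} (hv : v ∈ D) (j k : ℕ) :
    (fun ω => innovD G θ μ D v j k (moveSample g ω)) =ᵐ[sampleLaw μ]
      innovD G θ μ (D.image g.symm) (g.symm v) j k := by
  have hmp := measurePreserving_moveSample hG hd hreg hμ g
  refine ae_eq_of_l1_limits (X := fun r => innov G θ (D.image g.symm) (g.symm v) j k r)
    (fun r => integrable_innov h0 h1 hμ _ _ j k r)
    (hmp.integrable_comp_of_integrable (integrable_innovD D v j k))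
    (integrable_innovD _ _ j k) ?_
    (innovD_tendsto h0 h1 hμ (connected_image g.symm hD) (Finset.mem_image_of_mem _ hv) j k)
  refine (innovD_tendsto h0 h1 hμ hD hv j k).congr fun r => ?_
  have hA : AEStronglyMeasurable
      (fun ω => |innov G θ D v j k r ω - innovD G θ μ D v j k ω|) (sampleLaw μ) :=
    (((integrable_innov h0 h1 hμ D v j k r).sub (integrable_innovD D v j k)).abs).1
  rw [← integral_comp_move hG hd hreg hμ g hA]
  simp only [innov_move g D hv]

theorem innovLim_move (h0 : 0 ≤ θ) (h1 : θ < 1) (hG : G.IsTree) (hd : 3 ≤ d)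
    (hreg : ∀ v, (G.neighborSet v).ncard = d) (hμ : IsFreeIsing G θ μ) (g : G ≃g G)
    (o v : V) (j k : ℕ) :
    (fun ω => innovLim G θ μ hG hd hreg o v j k (moveSample g ω)) =ᵐ[sampleLaw μ]
      innovLim G θ μ hG hd hreg o (g.symm v) j k := by
  have hmp := measurePreserving_moveSample hG hd hreg hμ g
  have ht := tendsto_atTop_mono (f := fun r : ℕ => r) (g := fun r => G.dist o v + r)
    (fun r => Nat.le_add_left r _) tendsto_id
  have hv : ∀ n, v ∈ ballSet hG hd hreg o (G.dist o v + n) := fun n => by simp [mem_ballSet]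
  refine ae_eq_of_l1_limits
    (X := fun n => innovD G θ μ (ballSet hG hd hreg (g.symm o) (G.dist o v + n)) (g.symm v) j k)
    (fun n => integrable_innovD _ _ j k)
    (hmp.integrable_comp_of_integrable (integrable_innovLim hG hd hreg o v j k))
    (integrable_innovLim hG hd hreg o _ j k) ?_
    ((innovLim_tendsto (μ := μ) hG hd hreg h0 h1 hμ o (g.symm o) (g.symm v) j k).comp ht)
  refine ((innovLim_tendsto_center (μ := μ) hG hd hreg h0 h1 hμ o v j k).comp ht).congr fun n => ?_
  simp only [Function.comp_apply]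
  have hA : AEStronglyMeasurable (fun ω => |innovD G θ μ
      (ballSet hG hd hreg o (G.dist o v + n)) v j k ω -
        innovLim G θ μ hG hd hreg o v j k ω|) (sampleLaw μ) :=
    (((integrable_innovD (ballSet hG hd hreg o (G.dist o v + n)) v j k).sub
      (integrable_innovLim hG hd hreg o v j k)).abs).1
  rw [← integral_comp_move hG hd hreg hμ g hA]
  refine integral_congr_ae ?_
  filter_upwards [innovD_move h0 h1 hG hd hreg hμ g
    (ballSet_connected hG hd hreg o (G.dist o v + n)) (hv n) j k] with ω hω
  rw [← ballSet_image hG hd hreg g o]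
  rw [← hω]

theorem innovPath_move (h0 : 0 ≤ θ) (h1 : θ < 1) (hG : G.IsTree) (hd : 3 ≤ d)
    (hreg : ∀ v, (G.neighborSet v).ncard = d) (hμ : IsFreeIsing G θ μ) (g : G ≃g G) (o : V) :
    ∀ᵐ ω ∂sampleLaw μ, innovPath G θ μ hG hd hreg o (moveSample g ω) =
      moveCfg g (innovPath G θ μ hG hd hreg o ω) := by
  have : ∀ᵐ ω ∂sampleLaw μ, ∀ (v : V) (p : ℕ × ℕ),
      innovLim G θ μ hG hd hreg o v p.1 p.2 (moveSample g ω) =
        innovLim G θ μ hG hd hreg o (g.symm v) p.1 p.2 ω :=
    ae_all_iff.mpr fun v => ae_all_iff.mpr fun p => innovLim_move h0 h1 hG hd hreg hμ g o v p.1 p.2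
  filter_upwards [this] with ω hω
  funext v p
  exact hω v p

end Vale.Agent.P161
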