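import Mathlib

/-!
# Factor-of-IID representation of the free Ising state: definitions

The spin `+1` is coded by `true` and the spin `-1` by `false`.
-/

namespace Vale.Agent.P161

open MeasureTheory

/-- The real value of a spin. -/
def spin (b : Bool) : ℝ := if b then 1 else -1

variable {V : Type*}

/-- The factor `(1 + θ η_u η_v)/2` of the unordered pair `{u, v}`. -/
noncomputable def pairFactor (θ : ℝ) (η : V → Bool) : Sym2 V → ℝ :=
  Sym2.lift ⟨fun u v => (1 + θ * spin (η u) * spin (η v)) / 2, fun u v => by ring⟩

open scoped Classical in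
/-- The edges of `G` with both ends in `D`. -/
noncomputable def edgesWithin (G : SimpleGraph V) (D : Finset V) : Finset (Sym2 V) :=
  D.sym2.filter (fun e => e ∈ G.edgeSet)

/-- The free zero-field ferromagnetic Ising measure with `tanh β = θ`: a probability measure
whose restriction to every finite connected subtree `D` is
`η ↦ (1/2) ∏_{uv ∈ E(D)} (1 + θ η_u η_v)/2`. -/
def IsFreeIsing (G : SimpleGraph V) (θ : ℝ) (μ : Measure (V → Bool)) : Prop :=
  IsProbabilityMeasure μ ∧
    ∀ D : Finset V, (G.induce (D : Set V)).Connected → ∀ η : V → Bool,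
      μ {s | ∀ v ∈ D, s v = η v} =
        ENNReal.ofReal ((1 / 2) * ∏ e ∈ edgesWithin G D, pairFactor θ η e)

/-- The law of i.i.d. uniform labels on `[0,1]`. -/
noncomputable def iidLabels (V : Type*) : Measure (V → unitInterval) :=
  Measure.infinitePi fun _ : V => (volume : Measure unitInterval)

/-- `ν` is a factor of IID: the image of i.i.d. uniform labels under a measurable map which
commutes almost surely with each fixed automorphism of `G`. -/
def IsFactorOfIID (G : SimpleGraph V) (ν : Measure (V → Bool)) : Prop :=
  ∃ Φ : (V → unitInterval) → (V → Bool), Measurable Φ ∧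
    (∀ g : G ≃g G, ∀ᵐ U ∂(iidLabels V),
      Φ (fun v => U (g.symm v)) = fun v => Φ U (g.symm v)) ∧
    (iidLabels V).map Φ = ν

end Vale.Agent.P161
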