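import Vale.Agent.P161.Symm
import Vale.Agent.P161.Variance

/-!
# Recovering the spins from the innovations
-/

namespace Vale.Agent.P161

open SimpleGraph MeasureTheory ProbabilityTheory Filter
open scoped Classical Topology

variable {V : Type*} {G : SimpleGraph V} {θ : ℝ} {μ : Measure (V → Bool)}

/-- The Euler recursion of the filter equation driven by the increments `b`. -/
noncomputable def euler (G : SimpleGraph V) (θ : ℝ) (D : Finset V) (h : ℝ) (b : ℕ → V → ℝ) :
    ℕ → V → ℝ
  | 0 => fun _ => 0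
  | i + 1 => fun v =>
    if v ∈ D then euler G θ D h b i v + h * magn G θ D v (euler G θ D h b i) + b i v else 0

theorem euler_innov (D : Finset V) (J : ℕ) (ω : Sample V) : ∀ i, ∀ v ∈ D,
    euler G θ D (stepLen J : ℝ) (fun i v => innov G θ D v J i 0 ω) i v = obs J i v ω
  | 0 => fun v _ => by simp [euler, obs]
  | i + 1 => fun v hv => by
    have ih := euler_innov D J ω i
    simp only [euler, if_pos hv]
    rw [ih v hv, magn_congr D v (y' := fun u => obs J i u ω) ih, innov_zero]
    simp only [mfil, obs, Finset.sum_range_succ]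
    ring

theorem euler_congr (D : Finset V) (h : ℝ) {b b' : ℕ → V → ℝ} : ∀ K,
    (∀ i < K, ∀ v ∈ D, b i v = b' i v) → ∀ v, euler G θ D h b K v = euler G θ D h b' K v
  | 0 => fun _ _ => rfl
  | K + 1 => fun hb v => by
    have ih := funext (euler_congr D h K fun i hi => hb i (Nat.lt_succ_of_lt hi))
    simp only [euler, ih]
    split_ifs with hv
    · rw [hb K (Nat.lt_succ_self K) v hv]
    · rfl

theorem euler_diff (hG : G.IsTree) (h0 : 0 ≤ θ) (h1 : θ < 1) {D : Finset V}
    (hD : IsConvexSet G D) {a c h : ℝ} (ha : 0 ≤ a) (hc : 0 ≤ c) (hh : 0 ≤ h)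
    (hs : ∀ (s : Finset V) (v z : V),
      ∑ u ∈ s, θ ^ G.dist v u * a ^ G.dist u z ≤ c * a ^ G.dist v z)
    (o : V) (b b' : ℕ → V → ℝ) : ∀ i,
    ∑ v ∈ D, a ^ G.dist o v * |euler G θ D h b i v - euler G θ D h b' i v| ≤
      (1 + h * c) ^ i * ∑ l ∈ Finset.range i, ∑ v ∈ D, a ^ G.dist o v * |b l v - b' l v|
  | 0 => by simp [euler]
  | i + 1 => by
    set Δ := fun v => |euler G θ D h b i v - euler G θ D h b' i v| with hΔ
    set B := fun l => ∑ v ∈ D, a ^ G.dist o v * |b l v - b' l v| with hB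
    have ih := euler_diff hG h0 h1 hD ha hc hh hs o b b' i
    have step : ∀ v ∈ D, |euler G θ D h b (i + 1) v - euler G θ D h b' (i + 1) v| ≤
        Δ v + h * ∑ u ∈ D, θ ^ G.dist u v * Δ u + |b i v - b' i v| := by
      intro v hv
      simp only [euler, if_pos hv]
      have hm := mul_le_mul_of_nonneg_left
        (magn_lipschitz hG h0 h1 hD hv (euler G θ D h b i) (euler G θ D h b' i)) hh
      have e : euler G θ D h b i v + h * magn G θ D v (euler G θ D h b i) + b i v -
          (euler G θ D h b' i v + h * magn G θ D v (euler G θ D h b' i) + b' i v) =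
          (euler G θ D h b i v - euler G θ D h b' i v) +
          h * (magn G θ D v (euler G θ D h b i) - magn G θ D v (euler G θ D h b' i)) +
          (b i v - b' i v) := by ring
      rw [e]
      refine (abs_add_three _ _ _).trans (add_le_add (add_le_add le_rfl ?_) le_rfl)
      rw [abs_mul, abs_of_nonneg hh]
      exact hm
    have hswap : ∑ v ∈ D, a ^ G.dist o v * ∑ u ∈ D, θ ^ G.dist u v * Δ u ≤
        c * ∑ u ∈ D, a ^ G.dist o u * Δ u := by
      simp only [Finset.mul_sum]
      rw [Finset.sum_comm]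
      refine Finset.sum_le_sum fun u _ => ?_
      have e : ∑ v ∈ D, a ^ G.dist o v * (θ ^ G.dist u v * Δ u) =
          (∑ v ∈ D, θ ^ G.dist u v * a ^ G.dist v o) * Δ u := by
        rw [Finset.sum_mul]
        exact Finset.sum_congr rfl fun v _ => by rw [dist_comm (u := v) (v := o)]; ring
      rw [e, ← mul_assoc, dist_comm (u := o) (v := u)]
      exact mul_le_mul_of_nonneg_right (hs D u o) (abs_nonneg _)
    have hB0 : ∀ l, 0 ≤ B l := fun l =>
      Finset.sum_nonneg fun v _ => mul_nonneg (pow_nonneg ha _) (abs_nonneg _)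
    have hq : 1 ≤ 1 + h * c := by nlinarith
    calc ∑ v ∈ D, a ^ G.dist o v * |euler G θ D h b (i + 1) v - euler G θ D h b' (i + 1) v|
        ≤ ∑ v ∈ D, a ^ G.dist o v *
            (Δ v + h * ∑ u ∈ D, θ ^ G.dist u v * Δ u + |b i v - b' i v|) :=
          Finset.sum_le_sum fun v hv => mul_le_mul_of_nonneg_left (step v hv) (pow_nonneg ha _)
      _ = ∑ v ∈ D, a ^ G.dist o v * Δ v +
            h * ∑ v ∈ D, a ^ G.dist o v * ∑ u ∈ D, θ ^ G.dist u v * Δ u + B i := by
          simp only [hB, mul_add, Finset.sum_add_distrib, Finset.mul_sum, mul_left_comm h]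
      _ ≤ (1 + h * c) * ∑ v ∈ D, a ^ G.dist o v * Δ v + B i := by
          nlinarith [mul_le_mul_of_nonneg_left hswap hh]
      _ ≤ (1 + h * c) * ((1 + h * c) ^ i * ∑ l ∈ Finset.range i, B l) +
            (1 + h * c) ^ (i + 1) * B i :=
          add_le_add (mul_le_mul_of_nonneg_left ih (by linarith))
            (le_mul_of_one_le_left (hB0 i) (one_le_pow₀ hq))
      _ = _ := by rw [Finset.sum_range_succ]; ring

/-- The drivers read off from a vector of increments. -/
noncomputable def drivers (D : Finset V) {K : ℕ} (x : D × Fin K → ℝ) (l : ℕ) (v : V) : ℝ :=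
  if h : v ∈ D ∧ l < K then x (⟨v, h.1⟩, ⟨l, h.2⟩) else 0

/-- The Euler value at `o` after `K` steps as a function of the increments. -/
noncomputable def eulerVal (G : SimpleGraph V) (θ : ℝ) (D : Finset V) (J K : ℕ) (o : V)
    (x : D × Fin K → ℝ) : ℝ :=
  euler G θ D (stepLen J : ℝ) (drivers D x) K o

theorem eulerVal_innov (D : Finset V) (J K : ℕ) {o : V} (ho : o ∈ D) (ω : Sample V) :
    eulerVal G θ D J K o (fun q : D × Fin K => innov G θ D q.1 J q.2 0 ω) = obs J K o ω := by
  rw [← euler_innov (G := G) (θ := θ) D J ω K o ho]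
  refine euler_congr D _ K (fun i hi v hv => ?_) o
  simp [drivers, hi, hv]

theorem eulerVal_lip (hG : G.IsTree) (h0 : 0 ≤ θ) (h1 : θ < 1) {D : Finset V}
    (hD : IsConvexSet G D) {a c : ℝ} (ha : 0 ≤ a) (hc : 0 ≤ c)
    (hs : ∀ (s : Finset V) (v z : V),
      ∑ u ∈ s, θ ^ G.dist v u * a ^ G.dist u z ≤ c * a ^ G.dist v z)
    (J K : ℕ) {o : V} (ho : o ∈ D) :
    IsCoordLip (fun q : D × Fin K => Real.exp ((K : ℝ) * stepLen J * c) * a ^ G.dist o q.1)
      (eulerVal G θ D J K o) := by
  intro x x'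
  set h := (stepLen J : ℝ) with hh
  have hh0 : 0 ≤ h := (stepLen_pos J).le
  have hd := euler_diff (b := drivers D x) (b' := drivers D x') hG h0 h1 hD ha hc hh0 hs o K
  have hone : |eulerVal G θ D J K o x - eulerVal G θ D J K o x'| ≤
      ∑ v ∈ D, a ^ G.dist o v *
        |euler G θ D h (drivers D x) K v - euler G θ D h (drivers D x') K v| := by
    refine le_trans (le_of_eq ?_) (Finset.single_le_sum
      (fun v _ => mul_nonneg (pow_nonneg ha _) (abs_nonneg _)) ho)
    simp [eulerVal, hh]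
  have hexp : (1 + h * c) ^ K ≤ Real.exp ((K : ℝ) * h * c) := by
    rw [mul_assoc, Real.exp_nat_mul]
    exact pow_le_pow_left₀ (by nlinarith) (by linarith [Real.add_one_le_exp (h * c)]) K
  refine hone.trans (hd.trans ((mul_le_mul_of_nonneg_right hexp ?_).trans (le_of_eq ?_)))
  · exact Finset.sum_nonneg fun _ _ => Finset.sum_nonneg fun _ _ =>
      mul_nonneg (pow_nonneg ha _) (abs_nonneg _)
  · conv_rhs => rw [Fintype.sum_prod_type, Finset.sum_comm]
    rw [Finset.sum_range, Finset.mul_sum]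
    refine Finset.sum_congr rfl fun k _ => ?_
    rw [Finset.mul_sum, ← Finset.sum_coe_sort D]
    refine Finset.sum_congr rfl fun v _ => ?_
    simp only [drivers, dif_pos (And.intro v.2 k.isLt)]
    ring

theorem indep_lip {ι : Type*} [Fintype ι] {L : ι → ℝ} {F : (ι → ℝ) → ℝ} (h : IsCoordLip L F)
    (t : Finset ι) (ht : ∀ i ∈ t, ∀ x y, F (Function.update x i y) = F x) (x x' : ι → ℝ) :
    |F x - F x'| ≤ ∑ i ∈ tᶜ, L i * |x i - x' i| := by
  have H : ∀ s ⊆ t, F (fun i => if i ∈ s then x i else x' i) = F x' := by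
    intro s
    induction s using Finset.induction_on with
    | empty => intro _; simp
    | @insert k s hk ih =>
      intro hs
      rw [← ih ((Finset.subset_insert k s).trans hs),
        show (fun i => if i ∈ insert k s then x i else x' i) =
          Function.update (fun i => if i ∈ s then x i else x' i) k (x k) from ?_,
        ht k (hs (Finset.mem_insert_self k s))]
      funext i
      by_cases hi : i = k
      · subst hi; simp
      · simp [hi]
  rw [← H t subset_rfl]
  refine (h _ _).trans (le_of_eq ?_)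
  rw [← Finset.sum_compl_add_sum t]
  have e1 : ∀ i ∈ tᶜ, L i * |x i - (if i ∈ t then x i else x' i)| = L i * |x i - x' i| :=
    fun i hi => by simp [Finset.mem_compl.mp hi]
  have e2 : ∀ i ∈ t, L i * |x i - (if i ∈ t then x i else x' i)| = 0 := fun i hi => by simp [hi]
  rw [Finset.sum_congr rfl e1, Finset.sum_eq_zero e2, add_zero]

theorem IsCoordLip.integrable_comp {Ω ι : Type*} [MeasurableSpace Ω] [Fintype ι] {P : Measure Ω}
    [IsFiniteMeasure P] {L : ι → ℝ} {F : (ι → ℝ) → ℝ} (h : IsCoordLip L F) {X : Ω → ι → ℝ}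
    (hX : Measurable X) (hI : ∀ i, Integrable (fun ω => X ω i) P) :
    Integrable (fun ω => F (X ω)) P := by
  refine Integrable.mono' (g := fun ω => |F 0| + ∑ i, |L i| * |X ω i|)
    ((integrable_const _).add (integrable_finsetSum _ fun i _ => (hI i).abs.const_mul _))
    (h.continuous.measurable.comp hX).aestronglyMeasurable (ae_of_all _ fun ω => ?_)
  have h1 := h (X ω) 0
  have h2 := abs_sub_abs_le_abs_sub (F (X ω)) (F 0)
  have h3 : ∑ i, L i * |X ω i - (0 : ι → ℝ) i| ≤ ∑ i, |L i| * |X ω i| :=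
    Finset.sum_le_sum fun i _ => by
      simpa using mul_le_mul_of_nonneg_right (le_abs_self (L i)) (abs_nonneg (X ω i))
  rw [Real.norm_eq_abs]
  linarith

theorem integral_abs_le_sqrt {Ω : Type*} [MeasurableSpace Ω] {P : Measure Ω}
    [IsProbabilityMeasure P] {f : Ω → ℝ} (hf : MemLp f 2 P) :
    ∫ ω, |f ω| ∂P ≤ Real.sqrt (∫ ω, f ω ^ 2 ∂P) := by
  set c := ∫ ω, |f ω| ∂P with hc
  have i0 : Integrable (fun ω => |f ω|) P := (hf.integrable one_le_two).abs
  have i2 : Integrable (fun ω => f ω ^ 2) P := hf.integrable_sq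
  have i1 : Integrable (fun ω => 2 * c * |f ω|) P := i0.const_mul _
  have i3 : Integrable (fun ω => f ω ^ 2 - 2 * c * |f ω|) P := i2.sub i1
  have key : (0 : ℝ) ≤ ∫ ω, (f ω ^ 2 - 2 * c * |f ω| + c ^ 2) ∂P := integral_nonneg fun ω => by
    simp only [Pi.zero_apply]
    nlinarith [sq_nonneg (|f ω| - c), sq_abs (f ω)]
  rw [integral_add i3 (integrable_const _), integral_sub i2 i1, integral_const_mul,
    integral_const, probReal_univ, one_smul, ← hc] at key
  exact Real.le_sqrt_of_sq_le (by nlinarith)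

theorem lip_l1_bound {Ω ι : Type*} [MeasurableSpace Ω] [Fintype ι] {P : Measure Ω}
    [IsFiniteMeasure P] {L : ι → ℝ} {F : (ι → ℝ) → ℝ} (h : IsCoordLip L F) {M : ℝ}
    (hLM : ∀ q, L q ≤ M) (t : Finset ι)
    (ht : ∀ i ∈ t, ∀ x y, F (Function.update x i y) = F x) {X Y : Ω → ι → ℝ}
    (hX : Measurable X) (hY : Measurable Y) (hXI : ∀ q, Integrable (fun ω => X ω q) P)
    (hYI : ∀ q, Integrable (fun ω => Y ω q) P) :
    ∫ ω, |F (X ω) - F (Y ω)| ∂P ≤ M * ∑ q ∈ tᶜ, ∫ ω, |X ω q - Y ω q| ∂P := by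
  have hIq : ∀ q, Integrable (fun ω => L q * |X ω q - Y ω q|) P :=
    fun q => (((hXI q).sub (hYI q)).abs).const_mul _
  calc _ ≤ ∫ ω, ∑ q ∈ tᶜ, L q * |X ω q - Y ω q| ∂P :=
        integral_mono ((h.integrable_comp hX hXI).sub (h.integrable_comp hY hYI)).abs
          (integrable_finsetSum _ fun q _ => hIq q) fun ω => indep_lip h t ht _ _
    _ = ∑ q ∈ tᶜ, L q * ∫ ω, |X ω q - Y ω q| ∂P := by
        rw [integral_finsetSum _ fun q _ => hIq q]
        simp only [integral_const_mul]
    _ ≤ _ := by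
        rw [Finset.mul_sum]
        exact Finset.sum_le_sum fun q _ =>
          mul_le_mul_of_nonneg_right (hLM q) (integral_nonneg fun _ => abs_nonneg _)

theorem sum_near (D B : Finset V) (K : ℕ) (p : V → Prop) (hBD : B ⊆ D)
    (hB : ∀ v ∈ D, v ∈ B ↔ p v) (f : V → ℕ → ℝ) :
    ∑ q ∈ (Finset.univ.filter fun q : D × Fin K => ¬ p q.1)ᶜ, f q.1 q.2 =
      ∑ v ∈ B, ∑ k ∈ Finset.range K, f v k := by
  rw [← Finset.sum_product']
  refine Finset.sum_bij (fun q _ => ((q.1 : V), (q.2 : ℕ))) ?_ ?_ ?_ ?_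
  · intro q hq
    simp only [Finset.mem_compl, Finset.mem_filter, Finset.mem_univ, true_and, not_not] at hq
    exact Finset.mem_product.mpr ⟨(hB _ q.1.2).mpr hq, Finset.mem_range.mpr q.2.isLt⟩
  · intro q _ q' _ h
    simp only [Prod.mk.injEq] at h
    exact Prod.ext (Subtype.ext h.1) (Fin.ext h.2)
  · rintro ⟨v, i⟩ hvi
    obtain ⟨hv, hi⟩ := Finset.mem_product.mp hvi
    refine ⟨(⟨v, hBD hv⟩, ⟨i, Finset.mem_range.mp hi⟩), ?_, rfl⟩
    simp [(hB v (hBD hv)).mp hv]
  · intro q _; rfl

variable [Countable V]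

/-- The joint law of the innovation increments of one level in a finite volume. -/
theorem innovD_vec_law (h0 : 0 ≤ θ) (h1 : θ < 1) (hμ : IsFreeIsing G θ μ) {D : Finset V}
    (hD : (G.induce (D : Set V)).Connected) (J K : ℕ) :
    (sampleLaw μ).map (fun ω => fun q : D × Fin K => innovD G θ μ D q.1 J q.2 ω) =
      gaussPi (D × Fin K) (stepLen J) := by
  haveI := isProb_sampleLaw hμ
  have hm : Measurable (fun ω => fun q : D × Fin K => innovD G θ μ D q.1 J q.2 ω) :=
    measurable_pi_lambda _ fun q => measurable_l1Lim _ _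
  haveI := Measure.isProbabilityMeasure_map (μ := sampleLaw μ) hm.aemeasurable
  refine Measure.ext_of_charFunDual (funext fun L => ?_)
  set c : V → ℕ → ℝ := fun v i =>
    if h : v ∈ D ∧ i < K then L (Pi.single (⟨v, h.1⟩, ⟨i, h.2⟩) 1) else 0 with hcdef
  have hL : ∀ z : D × Fin K → ℝ, L z = ∑ q : D × Fin K, c q.1 q.2 * z q := by
    intro z
    conv_lhs => rw [← Finset.univ_sum_single z]
    rw [map_sum]
    refine Finset.sum_congr rfl fun q _ => ?_
    have : (Pi.single q (z q) : D × Fin K → ℝ) = z q • Pi.single q 1 := by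
      funext i
      by_cases h : i = q
      · subst h; simp
      · simp [h]
    rw [this, map_smul, smul_eq_mul, mul_comm]
    simp [hcdef]
  have hflip : ∀ F : D × Fin K → ℝ,
      ∑ q, F q = ∑ k : Fin K, ∑ v : D, F (v, k) := fun F => by
    rw [Fintype.sum_prod_type, Finset.sum_comm]
  rw [charFunDual_apply, integral_map hm.aemeasurable (by fun_prop), gaussPi, charFunDual_pi]
  simp only [hL]
  have e1 : ∀ ω, ∑ q : D × Fin K, c q.1 q.2 * innovD G θ μ D q.1 J q.2 ω =
      ∑ k ∈ Finset.range K, ∑ v ∈ D, c v k * innovD G θ μ D v J k ω := fun ω => by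
    rw [hflip, Finset.sum_range]
    exact Finset.sum_congr rfl fun k _ =>
      Finset.sum_coe_sort D (fun v => c v k * innovD G θ μ D v J k ω)
  simp only [e1, char_innovD h0 h1 hμ hD subset_rfl J K c]
  have e5 : ∀ q : D × Fin K, charFunDual (gaussianReal 0 (stepLen J))
      (L.comp (.single ℝ (fun _ => ℝ) q)) =
      ((Real.exp (-((stepLen J : ℝ) * c q.1 q.2 ^ 2 / 2)) : ℝ) : ℂ) := by
    intro q
    rw [charFunDual_apply]
    have hc1 : ∀ z, (L.comp (.single ℝ (fun _ => ℝ) q)) z = c q.1 q.2 * z := by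
      intro z
      simp only [ContinuousLinearMap.comp_apply]
      rw [hL, Finset.sum_eq_single q]
      · simp
      · intro b _ hb; simp [hb]
      · simp
    simp only [hc1]
    have := charFun_gaussianReal (μ := 0) (v := stepLen J) (c q.1 q.2)
    rw [charFun_apply_real] at this
    push_cast
    rw [this]
    simp
  simp only [e5, ← Complex.ofReal_prod, ← Real.exp_sum]
  congr 2
  rw [Finset.sum_neg_distrib, ← Finset.sum_div, ← Finset.mul_sum, hflip, Finset.sum_range]
  congr 3
  exact Finset.sum_congr rfl fun k _ => (Finset.sum_coe_sort D (fun v => c v k ^ 2)).symm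

/-- Summed change of the innovations of one level under a change of volume. -/
theorem innovD_sum_volume (h0 : 0 ≤ θ) (h1 : θ < 1) (hμ : IsFreeIsing G θ μ)
    {D D' : Finset V} (hD : (G.induce (D : Set V)).Connected)
    (hD' : (G.induce (D' : Set V)).Connected) (hsub : D ⊆ D') {v : V} (hv : v ∈ D)
    (s e L K : ℕ) (hK : K = L * 2 ^ e) :
    ∑ k ∈ Finset.range K,
        ∫ ω, |innovD G θ μ D' v (s + e) k ω - innovD G θ μ D v (s + e) k ω| ∂sampleLaw μ ≤
      Real.sqrt (((L : ℝ) * stepLen s) * ((stepLen s : ℝ) *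
        (1 + ∑ l ∈ Finset.range L, (filMass G θ μ D' v s l - filMass G θ μ D v s l)))) := by
  have hlim := ((tendsto_finsetSum (Finset.range K) fun k _ =>
      innovD_tendsto (μ := μ) h0 h1 hμ hD' (hsub hv) (s + e) k).add
    (tendsto_finsetSum (Finset.range K) fun k _ =>
      innovD_tendsto (μ := μ) h0 h1 hμ hD hv (s + e) k)).add_const
        (Real.sqrt (((L : ℝ) * stepLen s) * ((stepLen s : ℝ) *
          (1 + ∑ l ∈ Finset.range L, (filMass G θ μ D' v s l - filMass G θ μ D v s l)))))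
  simp only [Finset.sum_const_zero, zero_add] at hlim
  refine ge_of_tendsto' hlim fun r => ?_
  have tri : ∀ k, ∫ ω, |innovD G θ μ D' v (s + e) k ω - innovD G θ μ D v (s + e) k ω| ∂sampleLaw μ ≤
      ∫ ω, |innov G θ D' v (s + e) k r ω - innovD G θ μ D' v (s + e) k ω| ∂sampleLaw μ +
      ∫ ω, |innov G θ D v (s + e) k r ω - innovD G θ μ D v (s + e) k ω| ∂sampleLaw μ +
      ∫ ω, |innov G θ D' v (s + e) k r ω - innov G θ D v (s + e) k r ω| ∂sampleLaw μ := by
    intro k
    have A := integrable_innovD (μ := μ) (G := G) (θ := θ) D' v (s + e) k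
    have B := integrable_innovD (μ := μ) (G := G) (θ := θ) D v (s + e) k
    have A' := integrable_innov (μ := μ) h0 h1 hμ D' v (s + e) k r
    have B' := integrable_innov (μ := μ) h0 h1 hμ D v (s + e) k r
    have := integral_abs_triangle A A' B
    have := integral_abs_triangle A' B' B
    rw [show (fun ω => |innovD G θ μ D' v (s + e) k ω - innov G θ D' v (s + e) k r ω|) =
      (fun ω => |innov G θ D' v (s + e) k r ω - innovD G θ μ D' v (s + e) k ω|) from
        funext fun ω => abs_sub_comm _ _] at *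
    linarith
  refine (Finset.sum_le_sum fun k _ => tri k).trans ?_
  rw [Finset.sum_add_distrib, Finset.sum_add_distrib]
  refine add_le_add le_rfl ?_
  have key := driftSum_volume_bound (μ := μ) h0 h1 hμ hD hD' hsub hv s 0 L (e + r)
  simp only [Nat.zero_mul, zero_add] at key
  refine le_trans ?_ key
  rw [show L * 2 ^ (e + r) = K * 2 ^ r by rw [hK, pow_add]; ring, sum_blocks, Finset.mul_sum]
  refine Finset.sum_le_sum fun k _ => ?_
  have hI : ∀ i, Integrable (fun ω => |mfil G θ D' v (s + (e + r)) (k * 2 ^ r + i) ω -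
      mfil G θ D v (s + (e + r)) (k * 2 ^ r + i) ω|) (sampleLaw μ) := fun i =>
    ((integrable_mfil h0 h1 hμ D' v _ _).sub (integrable_mfil h0 h1 hμ D v _ _)).abs
  rw [← integral_finsetSum _ (fun i _ => hI i), ← integral_const_mul]
  refine integral_mono_of_nonneg (ae_of_all _ fun _ => abs_nonneg _)
    ((integrable_finsetSum _ fun i _ => hI i).const_mul _) (ae_of_all _ fun ω => ?_)
  simp only [innov, driftSum]
  rw [show s + e + r = s + (e + r) by omega, sub_sub_sub_cancel_left,
    ← mul_sub, ← Finset.sum_sub_distrib, abs_mul, abs_of_pos (stepLen_pos _)]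
  refine mul_le_mul_of_nonneg_left ((Finset.abs_sum_le_sum_abs _ _).trans (le_of_eq ?_))
    (stepLen_pos _).le
  exact Finset.sum_congr rfl fun i _ => abs_sub_comm _ _

/-- The error of the Euler scheme for one vertex. -/
theorem innov_sum_time (h0 : 0 ≤ θ) (h1 : θ < 1) (hμ : IsFreeIsing G θ μ) {D : Finset V}
    (hD : (G.induce (D : Set V)).Connected) {v : V} (hv : v ∈ D) (J K : ℕ) :
    ∑ k ∈ Finset.range K,
        ∫ ω, |innov G θ D v J k 0 ω - innovD G θ μ D v J k ω| ∂sampleLaw μ ≤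
      Real.sqrt (((K : ℝ) * stepLen J) * stepLen J) := by
  have hb : ∀ k, ∫ ω, |innov G θ D v J k 0 ω - innovD G θ μ D v J k ω| ∂sampleLaw μ ≤
      (stepLen J : ℝ) * Real.sqrt (filMass G θ μ D v J (k + 1) - filMass G θ μ D v J k) := by
    intro k
    refine (innovD_time_bound h0 h1 hμ hD hv J k 0).trans (le_of_eq ?_)
    rw [add_zero, ← mul_assoc, Real.sqrt_mul (mul_self_nonneg _),
      Real.sqrt_mul_self (stepLen_pos J).le]
  refine (Finset.sum_le_sum fun k _ => hb k).trans ?_
  rw [← Finset.mul_sum]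
  refine (sum_sqrt_le K _ (stepLen_pos J).le _ fun k _ => ?_).trans (Real.sqrt_le_sqrt ?_)
  · exact sub_nonneg.mpr (filMass_mono h0 h1 hμ hD hD subset_rfl hv J (Nat.le_succ k))
  · refine mul_le_mul_of_nonneg_left ?_ (mul_nonneg (Nat.cast_nonneg _) (stepLen_pos J).le)
    rw [Finset.sum_range_sub (fun k => filMass G θ μ D v J k)]
    have := filMass_le_one (μ := μ) h0 h1 hμ D v J K
    have := filMass_nonneg (μ := μ) (G := G) (θ := θ) D v J 0
    have := stepLen_pos J
    nlinarith

theorem euler_error (h0 : 0 ≤ θ) (h1 : θ < 1) (hμ : IsFreeIsing G θ μ) {D : Finset V}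
    (hD : (G.induce (D : Set V)).Connected) (J K : ℕ) {T M ε : ℝ} (hKh : (K : ℝ) * stepLen J = T)
    (hM : 0 ≤ M) (hε : 0 ≤ ε) (hT : 0 < T)
    (hsmall : (stepLen J : ℝ) < (ε / (M * D.card + 1)) ^ 2 / T) :
    M * ∑ q ∈ (∅ : Finset (D × Fin K))ᶜ,
        ∫ ω, |innov G θ D q.1 J q.2 0 ω - innovD G θ μ D q.1 J q.2 ω| ∂sampleLaw μ ≤ ε := by
  rw [Finset.compl_empty, Fintype.sum_prod_type, Finset.mul_sum]
  calc _ ≤ ∑ _v : D, M * Real.sqrt (T * stepLen J) := by
        refine Finset.sum_le_sum fun v _ => mul_le_mul_of_nonneg_left ?_ hM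
        have hh := innov_sum_time (μ := μ) h0 h1 hμ hD v.2 J K
        rw [hKh, Finset.sum_range] at hh
        exact hh
    _ ≤ (M * D.card + 1) * Real.sqrt (T * stepLen J) := by
        rw [Finset.sum_const, Finset.card_univ, Fintype.card_coe, nsmul_eq_mul]
        nlinarith [Real.sqrt_nonneg (T * stepLen J)]
    _ ≤ ε := by
        rw [← le_div_iff₀' (by positivity), Real.sqrt_le_iff]
        refine ⟨by positivity, ?_⟩
        rw [lt_div_iff₀ hT] at hsmall
        linarith

theorem trunc_error (h0 : 0 ≤ θ) (h1 : θ < 1) (hμ : IsFreeIsing G θ μ) {D : Finset V}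
    (hD : (G.induce (D : Set V)).Connected) (J K : ℕ) {L : D × Fin K → ℝ}
    {F Gf : (D × Fin K → ℝ) → ℝ} (hF : IsCoordLip L F) (hGf : IsCoordLip L Gf)
    {X : Sample V → D × Fin K → ℝ} (hXm : Measurable X)
    (hX : X = fun ω q => innovD G θ μ D q.1 J q.2 ω) {t : Finset (D × Fin K)}
    (herr : ∫ x, (F x - Gf x) ^ 2 ∂gaussPi (D × Fin K) (stepLen J) ≤
      2 * (stepLen J : ℝ) * ∑ q ∈ t, L q ^ 2) {ε : ℝ} (hε : 0 ≤ ε)
    (hsum : 2 * (stepLen J : ℝ) * ∑ q ∈ t, L q ^ 2 ≤ ε ^ 2) :
    ∫ ω, |F (X ω) - Gf (X ω)| ∂sampleLaw μ ≤ ε := by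
  have hm2 : AEStronglyMeasurable (fun x => |F x - Gf x|) ((sampleLaw μ).map X) :=
    ((hF.continuous.sub hGf.continuous).abs).aestronglyMeasurable
  rw [show (∫ ω, |F (X ω) - Gf (X ω)| ∂sampleLaw μ) = ∫ x, |F x - Gf x| ∂((sampleLaw μ).map X)
      from (integral_map hXm.aemeasurable hm2).symm, hX, innovD_vec_law h0 h1 hμ hD J K]
  refine (integral_abs_le_sqrt ((hF.memLp _).sub (hGf.memLp _))).trans ?_
  rw [Real.sqrt_le_iff]
  exact ⟨hε, herr.trans hsum⟩

variable {d : ℕ} (hG : G.IsTree) (hd : 3 ≤ d) (hreg : ∀ v, (G.neighborSet v).ncard = d)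

/-- Summed distance of the innovations of one level to those of the infinite model. -/
theorem innovLim_sum_volume (h0 : 0 ≤ θ) (h1 : θ < 1) (hμ : IsFreeIsing G θ μ) (o0 o v : V)
    (n : ℕ) (hv : G.dist o v ≤ n) (s e L K : ℕ) (hK : K = L * 2 ^ e) :
    ∑ k ∈ Finset.range K,
        ∫ ω, |innovD G θ μ (ballSet hG hd hreg o n) v (s + e) k ω -
          innovLim G θ μ hG hd hreg o0 v (s + e) k ω| ∂sampleLaw μ ≤
      Real.sqrt (((L : ℝ) * stepLen s) * ((stepLen s : ℝ) *
        (1 + ∑ l ∈ Finset.range L, (filMassLim G θ μ hG hd hreg v s l -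
          filMass G θ μ (ballSet hG hd hreg o n) v s l)))) := by
  set D := ballSet hG hd hreg o n with hDdef
  have hvD : v ∈ D := mem_ballSet.mpr hv
  have ht := tendsto_atTop_mono (f := fun r : ℕ => r) (g := fun r => n + r)
    (fun r => Nat.le_add_left r n) tendsto_id
  have hlim := (tendsto_finsetSum (Finset.range K) fun k _ =>
      (innovLim_tendsto (μ := μ) hG hd hreg h0 h1 hμ o0 o v (s + e) k).comp ht).add_const
        (Real.sqrt (((L : ℝ) * stepLen s) * ((stepLen s : ℝ) *
          (1 + ∑ l ∈ Finset.range L, (filMassLim G θ μ hG hd hreg v s l -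
            filMass G θ μ D v s l)))))
  simp only [Finset.sum_const_zero, zero_add] at hlim
  refine ge_of_tendsto' hlim fun r => ?_
  simp only [Function.comp_apply]
  set D' := ballSet hG hd hreg o (n + r) with hD'def
  have hsub : D ⊆ D' := ballSet_subset hG hd hreg (by simp)
  have tri : ∀ k, ∫ ω, |innovD G θ μ D v (s + e) k ω -
        innovLim G θ μ hG hd hreg o0 v (s + e) k ω| ∂sampleLaw μ ≤
      ∫ ω, |innovD G θ μ D' v (s + e) k ω -
        innovLim G θ μ hG hd hreg o0 v (s + e) k ω| ∂sampleLaw μ +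
      ∫ ω, |innovD G θ μ D' v (s + e) k ω - innovD G θ μ D v (s + e) k ω| ∂sampleLaw μ := by
    intro k
    have := integral_abs_triangle (integrable_innovD (μ := μ) (G := G) (θ := θ) D v (s + e) k)
      (integrable_innovD (μ := μ) (G := G) (θ := θ) D' v (s + e) k)
      (integrable_innovLim (μ := μ) (θ := θ) hG hd hreg o0 v (s + e) k)
    rw [show (fun ω => |innovD G θ μ D v (s + e) k ω - innovD G θ μ D' v (s + e) k ω|) =
      (fun ω => |innovD G θ μ D' v (s + e) k ω - innovD G θ μ D v (s + e) k ω|) from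
        funext fun ω => abs_sub_comm _ _] at this
    linarith
  refine (Finset.sum_le_sum fun k _ => tri k).trans ?_
  rw [Finset.sum_add_distrib]
  refine add_le_add le_rfl ((innovD_sum_volume (μ := μ) h0 h1 hμ (ballSet_connected hG hd hreg o n)
    (ballSet_connected hG hd hreg o (n + r)) hsub hvD s e L K hK).trans
    (Real.sqrt_le_sqrt ?_))
  refine mul_le_mul_of_nonneg_left (mul_le_mul_of_nonneg_left
    (add_le_add le_rfl (Finset.sum_le_sum fun l _ => sub_le_sub_right ?_ _))
    (stepLen_pos s).le) (mul_nonneg (Nat.cast_nonneg _) (stepLen_pos s).le)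
  exact filMass_le_lim hG hd hreg h0 h1 hμ o v (n + r) s l (by omega)

omit [Countable V] in
include hG hd hreg in
theorem tail_sum {a ρ r' : ℝ} (hr : 0 ≤ r') (hρ0 : 0 ≤ ρ) (hρ1 : ρ ≤ 1) (ha : a ^ 2 = ρ * r')
    (hkr : ((d : ℝ) - 1) * r' < 1) (o : V) (D : Finset V) (K R : ℕ) (M : ℝ) :
    ∑ q ∈ Finset.univ.filter (fun q : D × Fin K => R < G.dist o q.1),
        (M * a ^ G.dist o q.1) ^ 2 ≤
      (K : ℝ) * (M ^ 2 * (ρ ^ R * (1 + (d : ℝ) * r' / (1 - ((d : ℝ) - 1) * r')))) := by
  refine (Finset.sum_le_sum (g := fun q => M ^ 2 * (ρ ^ R * r' ^ G.dist o q.1)) ?_).trans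
    ((Finset.sum_le_univ_sum_of_nonneg (fun q => by positivity)).trans ?_)
  · intro q hq
    have hq' : R ≤ G.dist o q.1 := (Finset.mem_filter.mp hq).2.le
    rw [mul_pow, ← pow_mul, mul_comm (G.dist o q.1) 2, pow_mul, ha, mul_pow]
    exact mul_le_mul_of_nonneg_left (mul_le_mul_of_nonneg_right
      (pow_le_pow_of_le_one hρ0 hρ1 hq') (by positivity)) (sq_nonneg M)
  · rw [Fintype.sum_prod_type]
    simp only [Finset.sum_const, Finset.card_univ, Fintype.card_fin, nsmul_eq_mul,
      ← Finset.mul_sum]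
    refine mul_le_mul_of_nonneg_left (mul_le_mul_of_nonneg_left
      (mul_le_mul_of_nonneg_left ?_ (by positivity)) (sq_nonneg M)) (Nat.cast_nonneg _)
    rw [Finset.sum_coe_sort D (fun v => r' ^ G.dist o v)]
    exact geom_sum_le hG hd hreg hr hkr o D

theorem lim_error (h0 : 0 ≤ θ) (h1 : θ < 1) (hμ : IsFreeIsing G θ μ) (o0 o : V) (R n : ℕ)
    (hn : R ≤ n) (s e T : ℕ) (hT : 0 < T) (K : ℕ) (hK : K = T * 2 ^ s * 2 ^ e) {M ε : ℝ}
    (hM : 0 ≤ M) (hε : 0 ≤ ε)
    (hev : ∀ z ∈ ballSet hG hd hreg o R, ∀ l ∈ Finset.range (T * 2 ^ s),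
      filMassLim G θ μ hG hd hreg z s l - filMass G θ μ (ballSet hG hd hreg o n) z s l ≤
        1 / ((T * 2 ^ s : ℕ) : ℝ))
    (hsmall : (stepLen s : ℝ) <
      (ε / (M * (ballSet hG hd hreg o R).card + 1)) ^ 2 / (2 * T)) :
    M * ∑ v ∈ ballSet hG hd hreg o R, ∑ k ∈ Finset.range K,
        ∫ ω, |innovD G θ μ (ballSet hG hd hreg o n) v (s + e) k ω -
          innovLim G θ μ hG hd hreg o0 v (s + e) k ω| ∂sampleLaw μ ≤ ε := by
  have hTr : (0 : ℝ) < T := by exact_mod_cast hT
  have hLh : ((T * 2 ^ s : ℕ) : ℝ) * stepLen s = T := by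
    have := stepLen_block 0 s
    rw [zero_add] at this
    rw [Nat.cast_mul, mul_assoc, this]
    simp [stepLen]
  rw [Finset.mul_sum]
  calc _ ≤ ∑ _v ∈ ballSet hG hd hreg o R, M * Real.sqrt ((T : ℝ) * ((stepLen s : ℝ) * 2)) := by
        refine Finset.sum_le_sum fun v hv => mul_le_mul_of_nonneg_left ?_ hM
        refine (innovLim_sum_volume (μ := μ) hG hd hreg h0 h1 hμ o0 o v n
          ((mem_ballSet.mp hv).trans hn) s e (T * 2 ^ s) K hK).trans (Real.sqrt_le_sqrt ?_)
        rw [hLh]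
        refine mul_le_mul_of_nonneg_left (mul_le_mul_of_nonneg_left ?_ (stepLen_pos s).le) hTr.le
        have h2 : ∑ l ∈ Finset.range (T * 2 ^ s), (filMassLim G θ μ hG hd hreg v s l -
            filMass G θ μ (ballSet hG hd hreg o n) v s l) ≤ 1 := by
          calc _ ≤ ∑ _l ∈ Finset.range (T * 2 ^ s), 1 / ((T * 2 ^ s : ℕ) : ℝ) :=
                Finset.sum_le_sum fun l hl => hev v hv l hl
            _ = 1 := by
              rw [Finset.sum_const, Finset.card_range, nsmul_eq_mul, mul_one_div_cancel]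
              exact ne_of_gt (by positivity)
        linarith
    _ ≤ (M * (ballSet hG hd hreg o R).card + 1) *
          Real.sqrt ((T : ℝ) * ((stepLen s : ℝ) * 2)) := by
        rw [Finset.sum_const, nsmul_eq_mul]
        nlinarith [Real.sqrt_nonneg ((T : ℝ) * ((stepLen s : ℝ) * 2))]
    _ ≤ ε := by
        rw [← le_div_iff₀' (by positivity), Real.sqrt_le_iff]
        refine ⟨by positivity, ?_⟩
        rw [lt_div_iff₀ (by positivity)] at hsmall
        linarith

/-- The observation at an integer time is close to a function of the innovation paths. -/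
theorem obs_approx (h0 : 0 ≤ θ) (hθ : ((d : ℝ) - 1) * θ ^ 2 < 1) (hμ : IsFreeIsing G θ μ)
    (o0 o : V) (T : ℕ) (hT : 0 < T) {ε : ℝ} (hε : 0 < ε) :
    ∃ g : (V → IncPath) → ℝ, Measurable g ∧
      Integrable (fun ω => g (innovPath G θ μ hG hd hreg o0 ω)) (sampleLaw μ) ∧
      ∫ ω, |obs 0 T o ω - g (innovPath G θ μ hG hd hreg o0 ω)| ∂sampleLaw μ ≤ ε := by
  haveI := isProb_sampleLaw hμ
  set k : ℝ := (d : ℝ) - 1 with hk
  have hk2 : 2 ≤ k := by
    have : (3 : ℝ) ≤ d := by exact_mod_cast hd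
    linarith
  have hkinv : 1 / k ≤ 1 / 2 := one_div_le_one_div_of_le (by norm_num) hk2
  have hkk : k * (1 / k) = 1 := by field_simp
  have hθk : θ ^ 2 < 1 / k := by rw [lt_div_iff₀ (by linarith)]; linarith
  have h1 : θ < 1 := by nlinarith
  set a := Real.sqrt ((θ ^ 2 + 1 / k) / 2) with ha
  have hsq : a ^ 2 = (θ ^ 2 + 1 / k) / 2 := Real.sq_sqrt (by positivity)
  have ha0 : 0 ≤ a := Real.sqrt_nonneg _
  have hθa : θ < a := by nlinarith
  have ha1 : a ≤ 1 := by nlinarith
  have hka : k * a ^ 2 < 1 := by rw [hsq]; nlinarith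
  have hka' : k * (θ * a) < 1 := by
    have : θ * a ≤ a ^ 2 := by nlinarith
    have := mul_le_mul_of_nonneg_left this (show 0 ≤ k by linarith)
    linarith
  obtain ⟨c, hc, hs⟩ := exists_schur_const hG hd hreg h0 hθa hka'
  set r' := (a ^ 2 + 1 / k) / 2 with hr'
  have har : a ^ 2 < r' := by
    have : a ^ 2 < 1 / k := by rw [lt_div_iff₀ (by linarith)]; linarith
    rw [hr']; linarith
  have hr0 : 0 < r' := lt_of_le_of_lt (sq_nonneg a) har
  have hkr : k * r' < 1 := by
    rw [hr', mul_div_assoc', mul_add, hkk]; linarith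
  set ρ := a ^ 2 / r' with hρ
  have hρ0 : 0 ≤ ρ := by positivity
  have hρ1 : ρ < 1 := (div_lt_one hr0).mpr har
  set C0 := 1 + (d : ℝ) * r' / (1 - k * r') with hC0
  have hC0' : 0 ≤ C0 := by
    have : 0 ≤ (d : ℝ) * r' / (1 - k * r') := div_nonneg (by positivity) (by linarith)
    linarith
  set M := Real.exp ((T : ℝ) * c) with hM
  have hM0 : 0 < M := Real.exp_pos _
  have hTr : (0 : ℝ) < T := by exact_mod_cast hT
  -- choice of the parameters
  obtain ⟨R, hR⟩ := exists_pow_lt_of_lt_one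
    (show 0 < (ε / 3) ^ 2 / (2 * T * M ^ 2 * C0 + 1) by positivity) hρ1
  set B := ballSet hG hd hreg o R with hB
  obtain ⟨s, hs'⟩ := exists_pow_lt_of_lt_one
    (show 0 < (ε / 3 / (M * B.card + 1)) ^ 2 / (2 * T) by positivity)
    (show (1 / 2 : ℝ) < 1 by norm_num)
  have hev : ∀ᶠ n in atTop, ∀ z ∈ B, ∀ l ∈ Finset.range (T * 2 ^ s),
      filMassLim G θ μ hG hd hreg z s l - filMass G θ μ (ballSet hG hd hreg o n) z s l ≤
        1 / ((T * 2 ^ s : ℕ) : ℝ) := by
    rw [Finset.eventually_all]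
    intro z _
    rw [Finset.eventually_all]
    intro l _
    have := (filMass_tendsto (μ := μ) hG hd hreg h0 h1 hμ o z s l).const_sub
      (filMassLim G θ μ hG hd hreg z s l)
    rw [sub_self] at this
    refine this.eventually (eventually_le_nhds ?_)
    positivity
  obtain ⟨n, hn, hnR⟩ := (hev.and (eventually_ge_atTop R)).exists
  set D := ballSet hG hd hreg o n with hD
  obtain ⟨e, he⟩ := exists_pow_lt_of_lt_one
    (show 0 < (ε / 3 / (M * D.card + 1)) ^ 2 / T by positivity)
    (show (1 / 2 : ℝ) < 1 by norm_num)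
  set J := s + e with hJ
  set K := T * 2 ^ J with hK
  have hKh : (K : ℝ) * stepLen J = T := by
    have := stepLen_block 0 J
    rw [zero_add] at this
    rw [hK, Nat.cast_mul, mul_assoc, this]
    simp [stepLen]
  have hKL : K = (T * 2 ^ s) * 2 ^ e := by rw [hK, hJ, pow_add]; ring
  have hLh : ((T * 2 ^ s : ℕ) : ℝ) * stepLen s = T := by
    have := stepLen_block 0 s
    rw [zero_add] at this
    rw [Nat.cast_mul, mul_assoc, this]
    simp [stepLen]
  have hoD : o ∈ D := mem_ballSet.mpr (by simp)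
  have hDc := ballSet_connected hG hd hreg o n
  set L : D × Fin K → ℝ := fun q => M * a ^ G.dist o q.1 with hL
  have hL0 : ∀ q, 0 ≤ L q := fun q => by positivity
  have hLM : ∀ q, L q ≤ M := fun q =>
    mul_le_of_le_one_right hM0.le (pow_le_one₀ ha0 ha1)
  have hFlip : IsCoordLip L (eulerVal G θ D J K o) := by
    have := eulerVal_lip hG h0 h1 (ballSet_convex hG hd hreg o n) ha0 hc hs J K hoD
    rwa [hKh] at this
  set t : Finset (D × Fin K) := Finset.univ.filter fun q => R < G.dist o q.1 with ht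
  obtain ⟨Gf, hGlip, hGind, -, hGerr⟩ := exists_indep_approx hL0 (stepLen J) t hFlip
  set g : (V → IncPath) → ℝ := fun z => Gf (fun q => z q.1 (J, (q.2 : ℕ))) with hg
  set X : Sample V → D × Fin K → ℝ := fun ω q => innovD G θ μ D q.1 J q.2 ω with hX
  set Y : Sample V → D × Fin K → ℝ :=
    fun ω q => innovLim G θ μ hG hd hreg o0 q.1 J q.2 ω with hY
  set Z : Sample V → D × Fin K → ℝ := fun ω q => innov G θ D q.1 J q.2 0 ω with hZ
  have hXm : Measurable X := measurable_pi_lambda _ fun q => measurable_l1Lim _ _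
  have hYm : Measurable Y := measurable_pi_lambda _ fun q => measurable_l1Lim _ _
  have hZm : Measurable Z := measurable_pi_lambda _ fun q => measurable_innov h0 h1 D _ J _ 0
  have hXI : ∀ q, Integrable (fun ω => X ω q) (sampleLaw μ) := fun q => integrable_innovD _ _ _ _
  have hYI : ∀ q, Integrable (fun ω => Y ω q) (sampleLaw μ) :=
    fun q => integrable_innovLim hG hd hreg o0 _ _ _
  have hZI : ∀ q, Integrable (fun ω => Z ω q) (sampleLaw μ) :=
    fun q => integrable_innov h0 h1 hμ D _ J _ 0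
  have iFZ := hFlip.integrable_comp hZm hZI
  have iFX := hFlip.integrable_comp hXm hXI
  have iGX := hGlip.integrable_comp hXm hXI
  have iGY := hGlip.integrable_comp hYm hYI
  refine ⟨g, hGlip.continuous.measurable.comp (by fun_prop), iGY, ?_⟩
  have hobs : ∀ ω, obs 0 T o ω = eulerVal G θ D J K o (Z ω) := fun ω => by
    rw [eulerVal_innov D J K hoD ω, ← obs_refine 0 T o ω J, zero_add]
  simp only [hobs]
  -- Euler error
  have E1 : ∫ ω, |eulerVal G θ D J K o (Z ω) - eulerVal G θ D J K o (X ω)| ∂sampleLaw μ ≤ ε / 3 :=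
    (lip_l1_bound hFlip hLM ∅ (by simp) hZm hXm hZI hXI).trans
      (euler_error h0 h1 hμ hDc J K hKh hM0.le (by positivity) hTr
        (by rw [stepLen_coe]
            exact lt_of_le_of_lt
              (pow_le_pow_of_le_one (by norm_num) (by norm_num) (by omega)) he))
  -- dropping far coordinates
  have E2 : ∫ ω, |eulerVal G θ D J K o (X ω) - Gf (X ω)| ∂sampleLaw μ ≤ ε / 3 := by
    refine trunc_error h0 h1 hμ hDc J K hFlip hGlip hXm (rfl : X = _) hGerr (by positivity)
      ((mul_le_mul_of_nonneg_left (tail_sum hG hd hreg hr0.le hρ0 hρ1.le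
        (show a ^ 2 = ρ * r' by rw [hρ]; field_simp) hkr o D K R M)
        (mul_nonneg zero_le_two (stepLen_pos J).le)).trans ?_)
    calc 2 * (stepLen J : ℝ) * ((K : ℝ) * (M ^ 2 * (ρ ^ R * C0)))
        = 2 * ((K : ℝ) * stepLen J) * M ^ 2 * C0 * ρ ^ R := by ring
      _ ≤ (ε / 3) ^ 2 := by
          rw [hKh]
          rw [lt_div_iff₀ (by positivity)] at hR
          nlinarith [pow_nonneg hρ0 R]
  -- passing to the infinite model
  have E3 : ∫ ω, |Gf (X ω) - Gf (Y ω)| ∂sampleLaw μ ≤ ε / 3 := by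
    refine (lip_l1_bound hGlip hLM t hGind hXm hYm hXI hYI).trans ?_
    have hsplit := sum_near D B K (fun v => G.dist o v ≤ R)
      (ballSet_subset hG hd hreg (by simp; omega)) (fun v _ => mem_ballSet)
      (fun v k => ∫ ω, |innovD G θ μ D v J k ω - innovLim G θ μ hG hd hreg o0 v J k ω| ∂sampleLaw μ)
    simp only [not_le] at hsplit
    refine le_trans (le_of_eq (congrArg (M * ·) (Eq.trans ?_ hsplit))) ?_
    · refine Finset.sum_congr ?_ fun _ _ => rfl
      ext q
      simp [ht]
    exact lim_error hG hd hreg h0 h1 hμ o0 o R n hnR s e T hT K hKL hM0.le (by positivity) hn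
      (by rw [stepLen_coe]; exact hs')
  have t1 := integral_abs_triangle iFZ iFX iGY
  have t2 := integral_abs_triangle iFX iGX iGY
  have : ∀ ω, g (innovPath G θ μ hG hd hreg o0 ω) = Gf (Y ω) := fun ω => rfl
  simp only [this]
  linarith

/-- The spins are close to functions of the innovation paths. -/
theorem spin_approx (h0 : 0 ≤ θ) (hθ : ((d : ℝ) - 1) * θ ^ 2 < 1) (hμ : IsFreeIsing G θ μ)
    (o0 o : V) {ε : ℝ} (hε : 0 < ε) :
    ∃ g : (V → IncPath) → ℝ, Measurable g ∧
      Integrable (fun ω => g (innovPath G θ μ hG hd hreg o0 ω)) (sampleLaw μ) ∧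
      ∫ ω, |spin (ω.1 o) - g (innovPath G θ μ hG hd hreg o0 ω)| ∂sampleLaw μ ≤ ε := by
  haveI := isProb_sampleLaw hμ
  haveI := hμ.1
  obtain ⟨T, hT⟩ := exists_nat_gt (8 / ε ^ 2)
  have hT0 : 0 < T := Nat.cast_pos.mp (lt_of_le_of_lt (by positivity) hT)
  have hTr : (0 : ℝ) < T := by exact_mod_cast hT0
  obtain ⟨g, hgm, hgI, hg⟩ := obs_approx hG hd hreg h0 hθ hμ o0 o T hT0
    (show 0 < ε / 2 * T by positivity)
  refine ⟨fun z => g z / T, hgm.div_const _, hgI.div_const _, ?_⟩
  set W : Sample V → Fin T → ℝ := fun ω i => dyadInc 0 i (ω.2 o) with hW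
  have hWm : Measurable W := measurable_pi_lambda _ fun i =>
    (measurable_dyadInc 0 i).comp ((measurable_pi_apply o).comp measurable_snd)
  have hWlaw : (sampleLaw μ).map W = gaussPi (Fin T) (stepLen 0) := by
    have e : W = (fun x : NIdx → ℝ => fun i : Fin T => dyadInc 0 i x) ∘
        (fun x : V → NIdx → ℝ => x o) ∘ Prod.snd := rfl
    have hm1 : Measurable (fun x : NIdx → ℝ => fun i : Fin T => dyadInc 0 i x) :=
      measurable_pi_lambda _ fun i => measurable_dyadInc 0 i
    rw [e, ← Measure.map_map hm1 ((measurable_pi_apply o).comp measurable_snd),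
      ← Measure.map_map (measurable_pi_apply o) measurable_snd]
    rw [show (sampleLaw μ).map Prod.snd = noiseLaw V by
        rw [sampleLaw, ← Measure.snd, Measure.snd_prod],
      noiseLaw, Measure.infinitePi_map_eval, stdNoise_map_inc]
    rfl
  set S : (Fin T → ℝ) → ℝ := fun x => ∑ i, x i with hS
  have hSlip : IsCoordLip (fun _ => (1 : ℝ)) S := fun x x' => by
    simp only [hS, one_mul, ← Finset.sum_sub_distrib]
    exact Finset.abs_sum_le_sum_abs _ _
  have hS0 : ∫ x, S x ∂gaussPi (Fin T) (stepLen 0) = 0 := by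
    rw [hS, integral_finsetSum _ fun i _ => (memLp_coord _ i).integrable one_le_two]
    refine Finset.sum_eq_zero fun i _ => ?_
    rw [gaussPi, integral_comp_eval (μ := fun _ : Fin T => gaussianReal 0 (stepLen 0))
      (f := fun z : ℝ => z) measurable_id.aestronglyMeasurable]
    exact integral_id_gaussianReal
  have hW1 : ∫ ω, |S (W ω)| ∂sampleLaw μ ≤ Real.sqrt (2 * T) := by
    rw [← integral_map hWm.aemeasurable
      (hSlip.continuous.abs.aestronglyMeasurable (μ := (sampleLaw μ).map W)), hWlaw]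
    refine (integral_abs_le_sqrt (hSlip.memLp _)).trans (Real.sqrt_le_sqrt ?_)
    refine (sq_le_of_mean_zero (fun _ => zero_le_one) _ hSlip hS0).trans (le_of_eq ?_)
    simp [stepLen]
  have hSI : Integrable (fun ω => |S (W ω)|) (sampleLaw μ) :=
    (hSlip.integrable_comp hWm fun i => integrable_dyadInc hμ 0 i o).abs
  have hobs : ∀ ω : Sample V, obs 0 T o ω = (T : ℝ) * spin (ω.1 o) + S (W ω) := by
    intro ω
    simp only [obs, obsInc, Finset.sum_add_distrib, Finset.sum_const, Finset.card_range,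
      nsmul_eq_mul, hS, hW]
    rw [Finset.sum_range (fun i => dyadInc 0 i (ω.2 o))]
    simp [stepLen]
  have hpt : ∀ ω, |spin (ω.1 o) - g (innovPath G θ μ hG hd hreg o0 ω) / T| ≤
      (|obs 0 T o ω - g (innovPath G θ μ hG hd hreg o0 ω)| + |S (W ω)|) / T := by
    intro ω
    rw [le_div_iff₀ hTr, ← abs_of_pos hTr, ← abs_mul, abs_of_pos hTr, hobs, sub_mul,
      div_mul_cancel₀ _ (ne_of_gt hTr)]
    have := abs_add_le ((T : ℝ) * spin (ω.1 o) + S (W ω) -
      g (innovPath G θ μ hG hd hreg o0 ω)) (-(S (W ω)))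
    rw [abs_neg] at this
    refine le_trans (le_of_eq (congrArg _ ?_)) this
    ring
  have hobsI : Integrable (obs 0 T o) (sampleLaw μ) :=
    integrable_finsetSum _ fun i _ => integrable_obsInc hμ 0 i o
  have hOI : Integrable (fun ω => |obs 0 T o ω - g (innovPath G θ μ hG hd hreg o0 ω)|)
      (sampleLaw μ) := (hobsI.sub hgI).abs
  refine (integral_mono_of_nonneg (ae_of_all _ fun _ => abs_nonneg _)
    ((hOI.add hSI).div_const _) (ae_of_all _ hpt)).trans ?_
  simp only [Pi.add_apply]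
  rw [integral_div, integral_add hOI hSI, div_le_iff₀ hTr]
  have h8 : Real.sqrt (2 * T) ≤ ε / 2 * T := by
    rw [Real.sqrt_le_iff]
    refine ⟨by positivity, ?_⟩
    rw [div_lt_iff₀ (by positivity)] at hT
    nlinarith
  linarith

/-- Every spin is almost surely a function of the innovation paths. -/
theorem spin_eq_ae (h0 : 0 ≤ θ) (hθ : ((d : ℝ) - 1) * θ ^ 2 < 1)
    (hμ : IsFreeIsing G θ μ) (o0 o : V) :
    ∃ g : (V → IncPath) → ℝ, Measurable g ∧
      ∀ᵐ ω ∂sampleLaw μ, spin (ω.1 o) = g (innovPath G θ μ hG hd hreg o0 ω) := by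
  haveI := isProb_sampleLaw hμ
  choose f hfm hfI hf using fun n : ℕ => spin_approx hG hd hreg h0 hθ hμ o0 o
    (show (0 : ℝ) < 1 / ((n : ℝ) + 1) by positivity)
  set π := innovPath G θ μ hG hd hreg o0 with hπ
  have hπm : Measurable π := measurable_innovPath hG hd hreg o0
  set P := (sampleLaw μ).map π with hP
  have hfP : ∀ n, Integrable (f n) P := fun n =>
    (integrable_map_measure (hfm n).aestronglyMeasurable hπm.aemeasurable).mpr (hfI n)
  have hsI : Integrable (fun ω : Sample V => spin (ω.1 o)) (sampleLaw μ) :=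
    integrable_of_bound' hμ 1 (measurable_spin.comp ((measurable_pi_apply o).comp measurable_fst))
      fun ω => (abs_spin _).le
  have hlim : Tendsto (fun n => ∫ z, |f n z - l1Lim P f z| ∂P) atTop (𝓝 0) := by
    refine l1Lim_spec hfP fun δ hδ => ?_
    obtain ⟨N, hN⟩ := exists_nat_gt (2 / δ)
    refine ⟨N, fun n hn => ?_⟩
    have hNn : (N : ℝ) ≤ n := by exact_mod_cast hn
    have hbig : 1 / ((N : ℝ) + 1) ≤ δ / 2 := by
      rw [div_le_iff₀ (by positivity)]
      rw [div_lt_iff₀ hδ] at hN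
      linarith
    have hn' : 1 / ((n : ℝ) + 1) ≤ δ / 2 :=
      le_trans (one_div_le_one_div_of_le (by positivity) (by linarith)) hbig
    have hA : AEStronglyMeasurable (fun z => |f n z - f N z|) P :=
      (((hfm n).sub (hfm N)).abs).aestronglyMeasurable
    rw [show ∫ z, |f n z - f N z| ∂P = ∫ ω, |f n (π ω) - f N (π ω)| ∂sampleLaw μ from
      integral_map hπm.aemeasurable hA]
    have := integral_abs_triangle (hfI n) hsI (hfI N)
    rw [show (fun ω => |f n (π ω) - spin (ω.1 o)|) = fun ω => |spin (ω.1 o) - f n (π ω)| from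
      funext fun ω => abs_sub_comm _ _] at this
    linarith [hf n, hf N]
  refine ⟨l1Lim P f, measurable_l1Lim _ _, ?_⟩
  refine ae_eq_of_l1_limits (X := fun n ω => f n (π ω)) hfI hsI
    ((integrable_map_measure (measurable_l1Lim _ _).aestronglyMeasurable hπm.aemeasurable).mp
      (integrable_l1Lim P f)) ?_ ?_
  · refine squeeze_zero (fun n => integral_nonneg fun _ => abs_nonneg _) (fun n => ?_)
      tendsto_one_div_add_atTop_nhds_zero_nat
    refine le_trans (le_of_eq ?_) (hf n)
    exact integral_congr_ae (ae_of_all _ fun ω => abs_sub_comm _ _)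
  · refine hlim.congr fun n => ?_
    have hA : AEStronglyMeasurable (fun z => |f n z - l1Lim P f z|) P :=
      (((hfm n).sub (measurable_l1Lim P f)).abs).aestronglyMeasurable
    exact integral_map hπm.aemeasurable hA

end Vale.Agent.P161
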