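import Vale.Agent.P161.Law

/-!
# Innovations: estimates and limits
-/

namespace Vale.Agent.P161

open SimpleGraph MeasureTheory ProbabilityTheory Filter
open scoped Classical Topology

variable {V : Type*}

/-- Riemann sum of the filter over steps `p, …, p + L - 1` at level `J`. -/
noncomputable def driftSum (G : SimpleGraph V) (θ : ℝ) (D : Finset V) (v : V) (J p L : ℕ)
    (ω : Sample V) : ℝ :=
  (stepLen J : ℝ) * ∑ i ∈ Finset.range L, mfil G θ D v J (p + i) ω

/-- Approximate innovation increment of step `k` at level `j`, computed at level `j + r`. -/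
noncomputable def innov (G : SimpleGraph V) (θ : ℝ) (D : Finset V) (v : V) (j k r : ℕ)
    (ω : Sample V) : ℝ :=
  obsInc j k v ω - driftSum G θ D v (j + r) (k * 2 ^ r) (2 ^ r) ω

theorem innov_split (G : SimpleGraph V) (θ : ℝ) (D : Finset V) (v : V) (j k r : ℕ) (ω : Sample V) :
    innov G θ D v (j + 1) (2 * k) r ω + innov G θ D v (j + 1) (2 * k + 1) r ω =
      innov G θ D v j k (r + 1) ω := by
  simp only [innov, driftSum]
  rw [← obsInc_split j k v ω, show j + (r + 1) = j + 1 + r by omega,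
    show 2 ^ (r + 1) = 2 ^ r + 2 ^ r by rw [pow_succ]; omega, Finset.sum_range_add,
    show k * (2 ^ r + 2 ^ r) = 2 * k * 2 ^ r by ring]
  have : ∀ i, 2 * k * 2 ^ r + (2 ^ r + i) = (2 * k + 1) * 2 ^ r + i := fun i => by ring
  simp only [this]
  ring

theorem innov_zero (G : SimpleGraph V) (θ : ℝ) (D : Finset V) (v : V) (j k : ℕ) (ω : Sample V) :
    innov G θ D v j k 0 ω = obsInc j k v ω - (stepLen j : ℝ) * mfil G θ D v j k ω := by
  simp [innov, driftSum]

theorem stepLen_add (J r : ℕ) : (stepLen (J + r) : ℝ) * 2 ^ r = stepLen J := by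
  rw [stepLen_coe, stepLen_coe, pow_add, mul_assoc, ← mul_pow]
  norm_num

theorem stepLen_block (J r : ℕ) : ((2 ^ r : ℕ) : ℝ) * stepLen (J + r) = stepLen J := by
  rw [← stepLen_add J r]; push_cast; ring

theorem sum_blocks (f : ℕ → ℝ) (M : ℕ) : ∀ L : ℕ,
    ∑ i ∈ Finset.range (L * M), f i =
      ∑ l ∈ Finset.range L, ∑ i ∈ Finset.range M, f (l * M + i)
  | 0 => by simp
  | L + 1 => by rw [Nat.succ_mul, Finset.sum_range_add, sum_blocks f M L, Finset.sum_range_succ]

variable [Countable V] {G : SimpleGraph V} {θ : ℝ} {μ : Measure (V → Bool)}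

theorem measurable_innov (h0 : 0 ≤ θ) (h1 : θ < 1) (D : Finset V) (v : V) (j k r : ℕ) :
    Measurable (innov G θ D v j k r) :=
  (measurable_obsInc j k v).sub
    ((Finset.measurable_sum _ fun _ _ => measurable_mfil h0 h1 D v _ _).const_mul _)

theorem integrable_of_bound' (hμ : IsFreeIsing G θ μ) {f : Sample V → ℝ} (C : ℝ)
    (hf : Measurable f) (hC : ∀ ω, |f ω| ≤ C) : Integrable f (sampleLaw μ) := by
  haveI := isProb_sampleLaw hμ
  exact Integrable.of_bound hf.aestronglyMeasurable C (ae_of_all _ fun ω => by simpa using hC ω)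

theorem integrable_mfil (h0 : 0 ≤ θ) (h1 : θ < 1) (hμ : IsFreeIsing G θ μ) (D : Finset V) (v : V)
    (j k : ℕ) : Integrable (mfil G θ D v j k) (sampleLaw μ) :=
  integrable_of_bound' hμ 1 (measurable_mfil h0 h1 D v j k) (abs_mfil_le h0 h1 D v j k)

theorem filMass_refine (D : Finset V) (v : V) (j k r : ℕ) :
    filMass G θ μ D v (j + r) (k * 2 ^ r) = filMass G θ μ D v j k := by
  simp [filMass, mfil_refine]

theorem filMass_nonneg (D : Finset V) (v : V) (j k : ℕ) : 0 ≤ filMass G θ μ D v j k :=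
  integral_nonneg fun _ => sq_nonneg _

theorem filMass_le_one (h0 : 0 ≤ θ) (h1 : θ < 1) (hμ : IsFreeIsing G θ μ) (D : Finset V) (v : V)
    (j k : ℕ) : filMass G θ μ D v j k ≤ 1 := by
  haveI := isProb_sampleLaw hμ
  calc filMass G θ μ D v j k ≤ ∫ _, (1 : ℝ) ∂sampleLaw μ := by
        refine integral_mono ?_ (integrable_const 1) fun ω => ?_
        · exact integrable_of_bound' hμ 1 ((measurable_mfil h0 h1 D v j k).pow_const 2) fun ω => by
            rw [abs_pow]; exact pow_le_one₀ (abs_nonneg _) (abs_mfil_le h0 h1 D v j k ω)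
        · exact (sq_le_one_iff_abs_le_one _).mpr (abs_mfil_le h0 h1 D v j k ω)
    _ = 1 := by simp

theorem filMass_mono (h0 : 0 ≤ θ) (h1 : θ < 1) (hμ : IsFreeIsing G θ μ) {D D' : Finset V}
    (hD : (G.induce (D : Set V)).Connected) (hD' : (G.induce (D' : Set V)).Connected)
    (hsub : D ⊆ D') {v : V} (hv : v ∈ D) (j : ℕ) {k k' : ℕ} (hk : k ≤ k') :
    filMass G θ μ D v j k ≤ filMass G θ μ D' v j k' := by
  have := filMass_diff h0 h1 hμ hD hD' hsub hv j hk
  have h2 : (0 : ℝ) ≤ ∫ ω, (mfil G θ D' v j k' ω - mfil G θ D v j k ω) ^ 2 ∂sampleLaw μ :=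
    integral_nonneg fun _ => sq_nonneg _
  linarith

theorem l1_mfil_diff (h0 : 0 ≤ θ) (h1 : θ < 1) (hμ : IsFreeIsing G θ μ) {D D' : Finset V}
    (hD : (G.induce (D : Set V)).Connected) (hD' : (G.induce (D' : Set V)).Connected)
    (hsub : D ⊆ D') {v : V} (hv : v ∈ D) (j : ℕ) {k k' : ℕ} (hk : k ≤ k') :
    ∫ ω, |mfil G θ D' v j k' ω - mfil G θ D v j k ω| ∂sampleLaw μ ≤
      Real.sqrt (filMass G θ μ D' v j k' - filMass G θ μ D v j k) := by
  haveI := isProb_sampleLaw hμ
  set f := fun ω => mfil G θ D' v j k' ω - mfil G θ D v j k ω with hf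
  have hfm : Measurable f := (measurable_mfil h0 h1 D' v j k').sub (measurable_mfil h0 h1 D v j k)
  have hfb : ∀ ω, |f ω| ≤ 2 := fun ω => by
    have := abs_sub (mfil G θ D' v j k' ω) (mfil G θ D v j k ω)
    have := abs_mfil_le (G := G) h0 h1 D' v j k' ω
    have := abs_mfil_le (G := G) h0 h1 D v j k ω
    simp only [hf]; linarith
  set c := ∫ ω, |f ω| ∂sampleLaw μ with hc
  have hI1 : Integrable (fun ω => |f ω|) (sampleLaw μ) :=
    integrable_of_bound' hμ 2 hfm.abs fun ω => by rw [abs_abs]; exact hfb ω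
  have hI2 : Integrable (fun ω => f ω ^ 2) (sampleLaw μ) :=
    integrable_of_bound' hμ 4 (hfm.pow_const 2) fun ω => by
      rw [abs_pow]; nlinarith [hfb ω, abs_nonneg (f ω)]
  have key : (0 : ℝ) ≤ ∫ ω, (f ω ^ 2 - 2 * c * |f ω| + c ^ 2) ∂sampleLaw μ :=
    integral_nonneg fun ω => by
      have : f ω ^ 2 - 2 * c * |f ω| + c ^ 2 = (|f ω| - c) ^ 2 := by
        linear_combination -(sq_abs (f ω))
      simp only [Pi.zero_apply, this]
      exact sq_nonneg _
  have i1 : Integrable (fun ω => 2 * c * |f ω|) (sampleLaw μ) := hI1.const_mul _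
  have i2 : Integrable (fun ω => f ω ^ 2 - 2 * c * |f ω|) (sampleLaw μ) := hI2.sub i1
  rw [integral_add i2 (integrable_const _), integral_sub hI2 i1, integral_const_mul,
    integral_const, probReal_univ, one_smul, ← hc] at key
  rw [← filMass_diff h0 h1 hμ hD hD' hsub hv j hk]
  refine Real.le_sqrt_of_sq_le ?_
  nlinarith

theorem sum_sqrt_le (L : ℕ) (h : ℝ) (hh : 0 ≤ h) (f : ℕ → ℝ) (hf : ∀ i < L, 0 ≤ f i) :
    h * ∑ i ∈ Finset.range L, Real.sqrt (f i) ≤
      Real.sqrt ((L * h) * (h * ∑ i ∈ Finset.range L, f i)) := by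
  refine Real.le_sqrt_of_sq_le ?_
  have hs := sq_sum_le_card_mul_sum_sq (s := Finset.range L) (f := fun i => Real.sqrt (f i))
  rw [Finset.card_range,
    Finset.sum_congr rfl (fun i hi => Real.sq_sqrt (hf i (Finset.mem_range.mp hi)))] at hs
  rw [mul_pow]
  nlinarith [sq_nonneg h]

/-- Change of level of a Riemann sum. -/
theorem driftSum_time_bound (h0 : 0 ≤ θ) (h1 : θ < 1) (hμ : IsFreeIsing G θ μ) {D : Finset V}
    (hD : (G.induce (D : Set V)).Connected) {v : V} (hv : v ∈ D) (J p L r : ℕ) :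
    ∫ ω, |driftSum G θ D v (J + r) (p * 2 ^ r) (L * 2 ^ r) ω - driftSum G θ D v J p L ω|
        ∂sampleLaw μ ≤
      Real.sqrt (((L : ℝ) * stepLen J) *
        ((stepLen J : ℝ) * (filMass G θ μ D v J (p + L) - filMass G θ μ D v J p))) := by
  have hJ : (stepLen J : ℝ) = (stepLen (J + r) : ℝ) * 2 ^ r := (stepLen_add J r).symm
  set g : ℕ → ℕ → Sample V → ℝ := fun l i ω =>
    mfil G θ D v (J + r) ((p + l) * 2 ^ r + i) ω - mfil G θ D v J (p + l) ω with hg
  have hgI : ∀ l i, Integrable (fun ω => |g l i ω|) (sampleLaw μ) := fun l i =>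
    ((integrable_mfil h0 h1 hμ D v _ _).sub (integrable_mfil h0 h1 hμ D v _ _)).abs
  have e : ∀ ω, driftSum G θ D v (J + r) (p * 2 ^ r) (L * 2 ^ r) ω - driftSum G θ D v J p L ω =
      (stepLen (J + r) : ℝ) * ∑ l ∈ Finset.range L, ∑ i ∈ Finset.range (2 ^ r), g l i ω := by
    intro ω
    simp only [driftSum, hg, Finset.sum_sub_distrib, Finset.sum_const, Finset.card_range,
      nsmul_eq_mul, ← Finset.mul_sum]
    rw [sum_blocks, hJ, mul_sub, ← mul_assoc]
    push_cast
    have : ∀ l i : ℕ, p * 2 ^ r + (l * 2 ^ r + i) = (p + l) * 2 ^ r + i := fun l i => by ring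
    simp only [this]
  have hint : Integrable (fun ω => (stepLen (J + r) : ℝ) *
      ∑ l ∈ Finset.range L, ∑ i ∈ Finset.range (2 ^ r), |g l i ω|) (sampleLaw μ) :=
    (integrable_finset_sum _ fun l _ => integrable_finset_sum _ fun i _ => hgI l i).const_mul _
  have hbound : ∀ l, ∀ i < 2 ^ r, ∫ ω, |g l i ω| ∂sampleLaw μ ≤
      Real.sqrt (filMass G θ μ D v J (p + (l + 1)) - filMass G θ μ D v J (p + l)) := by
    intro l i hi
    have hle : (p + l) * 2 ^ r ≤ (p + l) * 2 ^ r + i := Nat.le_add_right _ _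
    have := l1_mfil_diff (μ := μ) h0 h1 hμ hD hD subset_rfl hv (J + r) hle
    simp only [mfil_refine, filMass_refine] at this
    refine this.trans (Real.sqrt_le_sqrt (sub_le_sub_right ?_ _))
    rw [← filMass_refine (μ := μ) (G := G) (θ := θ) D v J (p + (l + 1)) r]
    refine filMass_mono h0 h1 hμ hD hD subset_rfl hv _ ?_
    have : (p + (l + 1)) * 2 ^ r = (p + l) * 2 ^ r + 2 ^ r := by ring
    omega
  calc _ ≤ ∫ ω, (stepLen (J + r) : ℝ) *
        ∑ l ∈ Finset.range L, ∑ i ∈ Finset.range (2 ^ r), |g l i ω| ∂sampleLaw μ := by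
        refine integral_mono_of_nonneg (ae_of_all _ fun _ => abs_nonneg _) hint
          (ae_of_all _ fun ω => ?_)
        beta_reduce
        rw [e ω, abs_mul, abs_of_pos (stepLen_pos _)]
        refine mul_le_mul_of_nonneg_left ?_ (stepLen_pos _).le
        exact (Finset.abs_sum_le_sum_abs _ _).trans
          (Finset.sum_le_sum fun l _ => Finset.abs_sum_le_sum_abs _ _)
    _ ≤ (stepLen (J + r) : ℝ) * ∑ l ∈ Finset.range L, ∑ i ∈ Finset.range (2 ^ r),
          Real.sqrt (filMass G θ μ D v J (p + (l + 1)) - filMass G θ μ D v J (p + l)) := by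
        rw [integral_const_mul,
          integral_finsetSum _ (fun l _ => integrable_finset_sum _ fun i _ => hgI l i)]
        refine mul_le_mul_of_nonneg_left (Finset.sum_le_sum fun l _ => ?_) (stepLen_pos _).le
        rw [integral_finsetSum _ (fun i _ => hgI l i)]
        exact Finset.sum_le_sum fun i hi => hbound l i (Finset.mem_range.mp hi)
    _ = (stepLen J : ℝ) * ∑ l ∈ Finset.range L,
          Real.sqrt (filMass G θ μ D v J (p + (l + 1)) - filMass G θ μ D v J (p + l)) := by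
        simp only [Finset.sum_const, Finset.card_range, nsmul_eq_mul, ← Finset.mul_sum, hJ]
        push_cast
        ring
    _ ≤ _ := by
        refine (sum_sqrt_le L _ (stepLen_pos J).le _ fun l _ => ?_).trans (le_of_eq ?_)
        · exact sub_nonneg.mpr (filMass_mono h0 h1 hμ hD hD subset_rfl hv J (by omega))
        · rw [Finset.sum_range_sub (fun l => filMass G θ μ D v J (p + l))]
          simp

theorem innov_time_bound (h0 : 0 ≤ θ) (h1 : θ < 1) (hμ : IsFreeIsing G θ μ) {D : Finset V}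
    (hD : (G.induce (D : Set V)).Connected) {v : V} (hv : v ∈ D) (j k r s : ℕ) :
    ∫ ω, |innov G θ D v j k (r + s) ω - innov G θ D v j k r ω| ∂sampleLaw μ ≤
      Real.sqrt ((stepLen j : ℝ) *
        ((stepLen (j + r) : ℝ) *
          (filMass G θ μ D v j (k + 1) - filMass G θ μ D v j k))) := by
  have := driftSum_time_bound (μ := μ) h0 h1 hμ hD hv (j + r) (k * 2 ^ r) (2 ^ r) s
  rw [show k * 2 ^ r + 2 ^ r = (k + 1) * 2 ^ r by ring, filMass_refine, filMass_refine] at this
  have e : ((2 ^ r : ℕ) : ℝ) * stepLen (j + r) = stepLen j := stepLen_block j r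
  rw [e] at this
  refine le_trans (le_of_eq (integral_congr_ae (ae_of_all _ fun ω => ?_))) this
  simp only [innov]
  rw [← add_assoc, show k * 2 ^ (r + s) = k * 2 ^ r * 2 ^ s by rw [pow_add]; ring, pow_add,
    sub_sub_sub_cancel_left, abs_sub_comm]

/-- Change of the volume in a Riemann sum, controlled on a coarser level `J`. -/
theorem driftSum_volume_bound (h0 : 0 ≤ θ) (h1 : θ < 1) (hμ : IsFreeIsing G θ μ)
    {D D' : Finset V} (hD : (G.induce (D : Set V)).Connected)
    (hD' : (G.induce (D' : Set V)).Connected) (hsub : D ⊆ D') {v : V} (hv : v ∈ D)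
    (J p L r : ℕ) :
    (stepLen (J + r) : ℝ) * ∑ i ∈ Finset.range (L * 2 ^ r),
        ∫ ω, |mfil G θ D' v (J + r) (p * 2 ^ r + i) ω -
          mfil G θ D v (J + r) (p * 2 ^ r + i) ω| ∂sampleLaw μ ≤
      Real.sqrt (((L : ℝ) * stepLen J) * ((stepLen J : ℝ) *
        (1 + ∑ l ∈ Finset.range L,
          (filMass G θ μ D' v J (p + l) - filMass G θ μ D v J (p + l))))) := by
  set J' := J + r with hJ'
  set n := L * 2 ^ r with hn
  have hJ : (stepLen J : ℝ) = (stepLen J' : ℝ) * 2 ^ r := (stepLen_add J r).symm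
  set f := fun i => filMass G θ μ D' v J' (p * 2 ^ r + i) - filMass G θ μ D v J' (p * 2 ^ r + i)
    with hf
  have hf0 : ∀ i, 0 ≤ f i := fun i =>
    sub_nonneg.mpr (filMass_mono h0 h1 hμ hD hD' hsub hv J' le_rfl)
  refine (mul_le_mul_of_nonneg_left (Finset.sum_le_sum fun i _ =>
    l1_mfil_diff (μ := μ) h0 h1 hμ hD hD' hsub hv J' (k := p * 2 ^ r + i) le_rfl)
    (stepLen_pos J').le).trans ?_
  refine (sum_sqrt_le n _ (stepLen_pos J').le f fun i _ => hf0 i).trans ?_
  refine Real.sqrt_le_sqrt ?_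
  have e1 : (n : ℝ) * stepLen J' = (L : ℝ) * stepLen J := by
    rw [hn, hJ]; push_cast; ring
  rw [e1]
  refine mul_le_mul_of_nonneg_left ?_ (mul_nonneg (Nat.cast_nonneg _) (stepLen_pos J).le)
  have hblock : ∀ l, ∀ i < 2 ^ r, f (l * 2 ^ r + i) ≤
      filMass G θ μ D' v J (p + (l + 1)) - filMass G θ μ D v J (p + l) := by
    intro l i hi
    simp only [hf]
    rw [← filMass_refine (μ := μ) (G := G) (θ := θ) D' v J (p + (l + 1)) r,
      ← filMass_refine (μ := μ) (G := G) (θ := θ) D v J (p + l) r]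
    refine sub_le_sub (filMass_mono h0 h1 hμ hD' hD' subset_rfl (hsub hv) J' ?_)
      (filMass_mono h0 h1 hμ hD hD subset_rfl hv J' ?_)
    · have : (p + (l + 1)) * 2 ^ r = p * 2 ^ r + l * 2 ^ r + 2 ^ r := by ring
      omega
    · have : (p + l) * 2 ^ r = p * 2 ^ r + l * 2 ^ r := by ring
      omega
  have e2 : ∑ i ∈ Finset.range n, f i ≤ (2 : ℝ) ^ r * ∑ l ∈ Finset.range L,
      (filMass G θ μ D' v J (p + (l + 1)) - filMass G θ μ D v J (p + l)) := by
    rw [hn, sum_blocks, Finset.mul_sum]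
    refine Finset.sum_le_sum fun l _ => ?_
    calc _ ≤ ∑ _i ∈ Finset.range (2 ^ r),
          (filMass G θ μ D' v J (p + (l + 1)) - filMass G θ μ D v J (p + l)) :=
          Finset.sum_le_sum fun i hi => hblock l i (Finset.mem_range.mp hi)
      _ = _ := by rw [Finset.sum_const, Finset.card_range, nsmul_eq_mul]; push_cast; ring
  have e3 : ∑ l ∈ Finset.range L,
      (filMass G θ μ D' v J (p + (l + 1)) - filMass G θ μ D v J (p + l)) ≤
      1 + ∑ l ∈ Finset.range L, (filMass G θ μ D' v J (p + l) - filMass G θ μ D v J (p + l)) := by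
    have t1 := Finset.sum_range_sub (fun l => filMass G θ μ D' v J (p + l)) L
    simp only [Finset.sum_sub_distrib] at t1 ⊢
    have := filMass_le_one (μ := μ) h0 h1 hμ D' v J (p + L)
    have := filMass_nonneg (μ := μ) (G := G) (θ := θ) D' v J (p + 0)
    linarith
  calc (stepLen J' : ℝ) * ∑ i ∈ Finset.range n, f i
      ≤ (stepLen J' : ℝ) * ((2 : ℝ) ^ r * _) :=
        mul_le_mul_of_nonneg_left e2 (stepLen_pos J').le
    _ = (stepLen J : ℝ) * _ := by rw [hJ]; ring
    _ ≤ _ := mul_le_mul_of_nonneg_left e3 (stepLen_pos J).le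

theorem innov_volume_bound (h0 : 0 ≤ θ) (h1 : θ < 1) (hμ : IsFreeIsing G θ μ)
    {D D' : Finset V} (hD : (G.induce (D : Set V)).Connected)
    (hD' : (G.induce (D' : Set V)).Connected) (hsub : D ⊆ D') {v : V} (hv : v ∈ D)
    (j k s r : ℕ) :
    ∫ ω, |innov G θ D' v j k (s + r) ω - innov G θ D v j k (s + r) ω| ∂sampleLaw μ ≤
      Real.sqrt ((stepLen j : ℝ) * ((stepLen (j + s) : ℝ) *
        (1 + ∑ l ∈ Finset.range (2 ^ s), (filMass G θ μ D' v (j + s) (k * 2 ^ s + l) -
          filMass G θ μ D v (j + s) (k * 2 ^ s + l))))) := by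
  have := driftSum_volume_bound (μ := μ) h0 h1 hμ hD hD' hsub hv (j + s) (k * 2 ^ s) (2 ^ s) r
  have e : ((2 ^ s : ℕ) : ℝ) * stepLen (j + s) = stepLen j := stepLen_block j s
  rw [e] at this
  refine le_trans ?_ this
  have hI : ∀ i, Integrable (fun ω => |mfil G θ D' v (j + s + r) (k * 2 ^ s * 2 ^ r + i) ω -
      mfil G θ D v (j + s + r) (k * 2 ^ s * 2 ^ r + i) ω|) (sampleLaw μ) := fun i =>
    ((integrable_mfil h0 h1 hμ D' v _ _).sub (integrable_mfil h0 h1 hμ D v _ _)).abs
  rw [← integral_finsetSum _ (fun i _ => hI i), ← integral_const_mul]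
  refine integral_mono_of_nonneg (ae_of_all _ fun _ => abs_nonneg _)
    ((integrable_finset_sum _ fun i _ => hI i).const_mul _) (ae_of_all _ fun ω => ?_)
  simp only [innov, driftSum]
  rw [show j + (s + r) = j + s + r by omega, pow_add, ← mul_assoc k, sub_sub_sub_cancel_left,
    ← mul_sub, ← Finset.sum_sub_distrib, abs_mul, abs_of_pos (stepLen_pos _)]
  refine mul_le_mul_of_nonneg_left ((Finset.abs_sum_le_sum_abs _ _).trans (le_of_eq ?_))
    (stepLen_pos _).le
  exact Finset.sum_congr rfl fun i _ => abs_sub_comm _ _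

end Vale.Agent.P161
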