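import Vale.Agent.P161.Ball

/-!
# The free Ising model on a finite subtree with external fields
-/

namespace Vale.Agent.P161

open SimpleGraph MeasureTheory
open scoped Classical

variable {V : Type*} {G : SimpleGraph V}

theorem spin_true : spin true = 1 := rfl

theorem spin_false : spin false = -1 := rfl

theorem abs_spin (b : Bool) : |spin b| = 1 := by cases b <;> simp [spin]

theorem spin_mul_self (b : Bool) : spin b * spin b = 1 := by cases b <;> simp [spin]

/-- Extension of a configuration on `D` by the spin `+1`. -/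
noncomputable def extCfg {D : Finset V} (η : D → Bool) (v : V) : Bool :=
  if h : v ∈ D then η ⟨v, h⟩ else true

theorem extCfg_of_mem {D : Finset V} (η : D → Bool) {v : V} (h : v ∈ D) :
    extCfg η v = η ⟨v, h⟩ := by simp [extCfg, h]

/-- The free weight of a configuration on `D`. -/
noncomputable def freeWeight (G : SimpleGraph V) (θ : ℝ) (D : Finset V) (η : D → Bool) : ℝ :=
  (1 / 2) * ∏ e ∈ edgesWithin G D, pairFactor θ (extCfg η) e

/-- The weight of a configuration with external fields `y`. -/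
noncomputable def fieldWeight (G : SimpleGraph V) (θ : ℝ) (D : Finset V) (y : V → ℝ)
    (η : D → Bool) : ℝ :=
  freeWeight G θ D η * ∏ x : D, Real.exp (spin (η x) * y x)

/-- The magnetisation at `v` of the finite model with external fields `y`. -/
noncomputable def magn (G : SimpleGraph V) (θ : ℝ) (D : Finset V) (v : V) (y : V → ℝ) : ℝ :=
  (∑ η : D → Bool, fieldWeight G θ D y η * spin (extCfg η v)) /
    ∑ η : D → Bool, fieldWeight G θ D y η

theorem pairFactor_mk (θ : ℝ) (η : V → Bool) (a b : V) :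
    pairFactor θ η s(a, b) = (1 + θ * spin (η a) * spin (η b)) / 2 := rfl

theorem spinFactor_pos {θ : ℝ} (h0 : 0 ≤ θ) (h1 : θ < 1) (a b : Bool) :
    0 < (1 + θ * spin a * spin b) / 2 := by
  cases a <;> cases b <;> simp [spin] <;> linarith

theorem pairFactor_pos {θ : ℝ} (h0 : 0 ≤ θ) (h1 : θ < 1) (η : V → Bool) (e : Sym2 V) :
    0 < pairFactor θ η e := by
  induction e using Sym2.ind with
  | h a b => rw [pairFactor_mk]; exact spinFactor_pos h0 h1 _ _

theorem freeWeight_pos {θ : ℝ} (h0 : 0 ≤ θ) (h1 : θ < 1) (D : Finset V) (η : D → Bool) :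
    0 < freeWeight G θ D η :=
  mul_pos (by norm_num) (Finset.prod_pos fun e _ => pairFactor_pos h0 h1 _ e)

theorem fieldWeight_pos {θ : ℝ} (h0 : 0 ≤ θ) (h1 : θ < 1) (D : Finset V) (y : V → ℝ)
    (η : D → Bool) : 0 < fieldWeight G θ D y η :=
  mul_pos (freeWeight_pos h0 h1 D η) (Finset.prod_pos fun _ _ => Real.exp_pos _)

theorem fieldSum_pos {θ : ℝ} (h0 : 0 ≤ θ) (h1 : θ < 1) (D : Finset V) (y : V → ℝ) :
    0 < ∑ η : D → Bool, fieldWeight G θ D y η :=
  Finset.sum_pos (fun η _ => fieldWeight_pos h0 h1 D y η) Finset.univ_nonempty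

theorem abs_magn_le {θ : ℝ} (h0 : 0 ≤ θ) (h1 : θ < 1) (D : Finset V) (v : V) (y : V → ℝ) :
    |magn G θ D v y| ≤ 1 := by
  rw [magn, abs_div, abs_of_pos (fieldSum_pos h0 h1 D y), div_le_one (fieldSum_pos h0 h1 D y)]
  refine (Finset.abs_sum_le_sum_abs _ _).trans (le_of_eq ?_)
  refine Finset.sum_congr rfl fun η _ => ?_
  rw [abs_mul, abs_spin, mul_one, abs_of_pos (fieldWeight_pos h0 h1 D y η)]

theorem magn_congr {θ : ℝ} (D : Finset V) (v : V) {y y' : V → ℝ}
    (h : ∀ x ∈ D, y x = y' x) : magn G θ D v y = magn G θ D v y' := by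
  have : ∀ η, fieldWeight G θ D y η = fieldWeight G θ D y' η := by
    intro η
    unfold fieldWeight
    congr 1
    exact Finset.prod_congr rfl fun x _ => by rw [h x.1 x.2]
  simp only [magn, this]

/-- Geodesic convexity of `D`. -/
def IsConvexSet (G : SimpleGraph V) (D : Finset V) : Prop :=
  ∀ u ∈ D, ∀ v ∈ D, ∀ w, G.Adj u w → G.dist w v + 1 = G.dist u v → w ∈ D

theorem ballSet_convex {d : ℕ} (hG : G.IsTree) (hd : 3 ≤ d)
    (hreg : ∀ v, (G.neighborSet v).ncard = d) (o : V) (n : ℕ) :
    IsConvexSet G (ballSet hG hd hreg o n) := by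
  intro u hu v hv w hadj hw
  rw [mem_ballSet] at hu hv ⊢
  have hv' : v ∈ edgeSide G u w := by rw [mem_edgeSide]; omega
  by_cases ho : o ∈ edgeSide G u w
  · rw [mem_edgeSide, dist_comm (u := u), dist_comm (u := w)] at ho
    omega
  · have e1 := dist_across hG hadj hv' o ho
    have e2 := dist_of_not_mem_side hG hadj ho
    rw [dist_comm (u := w) (v := o)] at e2
    omega

section Exchange

variable (θ : ℝ) (D : Finset V) (y : V → ℝ) (u w : V)

/-- Configurations with prescribed spins at `u` and `w`. -/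
noncomputable def fixedTwo (hu : u ∈ D) (hw : w ∈ D) (s t : Bool) : Finset (D → Bool) :=
  Finset.univ.filter fun η => η ⟨u, hu⟩ = s ∧ η ⟨w, hw⟩ = t

/-- Take the `w`-side of the edge from `η'` and the other side from `η`. -/
noncomputable def mixCfg (η η' : D → Bool) : D → Bool :=
  fun x => if (x : V) ∈ edgeSide G u w then η' x else η x

variable {θ D y u w}

theorem mixCfg_mix (η η' : D → Bool) :
    mixCfg (G := G) D u w (mixCfg (G := G) D u w η η') (mixCfg (G := G) D u w η' η) = η := by
  funext x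
  by_cases h : (x : V) ∈ edgeSide G u w <;> simp [mixCfg, h]

theorem weight_exchange (hG : G.IsTree) (hadj : G.Adj u w) (hu : u ∈ D) (hw : w ∈ D)
    (η η' : D → Bool) :
    (1 + θ * spin (η ⟨u, hu⟩) * spin (η' ⟨w, hw⟩)) / 2 *
        ((1 + θ * spin (η' ⟨u, hu⟩) * spin (η ⟨w, hw⟩)) / 2) *
        (fieldWeight G θ D y η * fieldWeight G θ D y η') =
      (1 + θ * spin (η ⟨u, hu⟩) * spin (η ⟨w, hw⟩)) / 2 *
        ((1 + θ * spin (η' ⟨u, hu⟩) * spin (η' ⟨w, hw⟩)) / 2) *
        (fieldWeight G θ D y (mixCfg (G := G) D u w η η') *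
          fieldWeight G θ D y (mixCfg (G := G) D u w η' η)) := by
  have hE : s(u, w) ∈ edgesWithin G D := by
    simp [edgesWithin, hu, hw, hadj]
  have hsu : u ∉ edgeSide G u w := not_mem_edgeSide_left hadj
  have hsw : w ∈ edgeSide G u w := edgeSide_self hadj
  set η1 := mixCfg (G := G) D u w η η' with hη1
  set η2 := mixCfg (G := G) D u w η' η with hη2
  have hfield : (∏ x : D, Real.exp (spin (η x) * y x)) * ∏ x : D, Real.exp (spin (η' x) * y x) =
      (∏ x : D, Real.exp (spin (η1 x) * y x)) * ∏ x : D, Real.exp (spin (η2 x) * y x) := by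
    rw [← Finset.prod_mul_distrib, ← Finset.prod_mul_distrib]
    refine Finset.prod_congr rfl fun x _ => ?_
    by_cases h : (x : V) ∈ edgeSide G u w <;> simp [hη1, hη2, mixCfg, h, mul_comm]
  have hedge : (∏ e ∈ (edgesWithin G D).erase s(u, w), pairFactor θ (extCfg η) e) *
        ∏ e ∈ (edgesWithin G D).erase s(u, w), pairFactor θ (extCfg η') e =
      (∏ e ∈ (edgesWithin G D).erase s(u, w), pairFactor θ (extCfg η1) e) *
        ∏ e ∈ (edgesWithin G D).erase s(u, w), pairFactor θ (extCfg η2) e := by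
    rw [← Finset.prod_mul_distrib, ← Finset.prod_mul_distrib]
    refine Finset.prod_congr rfl fun e he => ?_
    obtain ⟨hne, he⟩ := Finset.mem_erase.mp he
    induction e using Sym2.ind with
    | h a b =>
      simp only [edgesWithin, Finset.mem_filter, Finset.mk_mem_sym2_iff, mem_edgeSet] at he
      obtain ⟨⟨ha, hb⟩, hab⟩ := he
      simp only [pairFactor_mk, extCfg_of_mem _ ha, extCfg_of_mem _ hb, hη1, hη2, mixCfg]
      by_cases h1 : a ∈ edgeSide G u w <;> by_cases h2 : b ∈ edgeSide G u w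
      · simp [h1, h2, mul_comm]
      · exact absurd (crossing_edge hG hadj hab h1 h2) (fun ⟨h3, h4⟩ => hne (by
          subst h3 h4; exact Sym2.eq_swap))
      · exact absurd (crossing_edge hG hadj hab.symm h2 h1) (fun ⟨h3, h4⟩ => hne (by
          subst h3 h4; rfl))
      · simp [h1, h2]
  have hc : ∀ ζ : D → Bool, fieldWeight G θ D y ζ =
      (1 / 2) * ((1 + θ * spin (ζ ⟨u, hu⟩) * spin (ζ ⟨w, hw⟩)) / 2) *
        ((∏ e ∈ (edgesWithin G D).erase s(u, w), pairFactor θ (extCfg ζ) e) *
          ∏ x : D, Real.exp (spin (ζ x) * y x)) := by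
    intro ζ
    rw [fieldWeight, freeWeight, ← Finset.mul_prod_erase _ _ hE, pairFactor_mk,
      extCfg_of_mem _ hu, extCfg_of_mem _ hw]
    ring
  have v1 : η1 ⟨u, hu⟩ = η ⟨u, hu⟩ := by simp [hη1, mixCfg, hsu]
  have v2 : η1 ⟨w, hw⟩ = η' ⟨w, hw⟩ := by simp [hη1, mixCfg, hsw]
  have v3 : η2 ⟨u, hu⟩ = η' ⟨u, hu⟩ := by simp [hη2, mixCfg, hsu]
  have v4 : η2 ⟨w, hw⟩ = η ⟨w, hw⟩ := by simp [hη2, mixCfg, hsw]
  rw [hc η, hc η', hc η1, hc η2, v1, v2, v3, v4]
  set a := ∏ e ∈ (edgesWithin G D).erase s(u, w), pairFactor θ (extCfg η) e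
  set a' := ∏ e ∈ (edgesWithin G D).erase s(u, w), pairFactor θ (extCfg η') e
  set a1 := ∏ e ∈ (edgesWithin G D).erase s(u, w), pairFactor θ (extCfg η1) e
  set a2 := ∏ e ∈ (edgesWithin G D).erase s(u, w), pairFactor θ (extCfg η2) e
  set b := ∏ x : D, Real.exp (spin (η x) * y x)
  set b' := ∏ x : D, Real.exp (spin (η' x) * y x)
  set b1 := ∏ x : D, Real.exp (spin (η1 x) * y x)
  set b2 := ∏ x : D, Real.exp (spin (η2 x) * y x)
  set c1 := (1 + θ * spin (η ⟨u, hu⟩) * spin (η ⟨w, hw⟩)) / 2
  set c2 := (1 + θ * spin (η' ⟨u, hu⟩) * spin (η' ⟨w, hw⟩)) / 2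
  set c3 := (1 + θ * spin (η ⟨u, hu⟩) * spin (η' ⟨w, hw⟩)) / 2
  set c4 := (1 + θ * spin (η' ⟨u, hu⟩) * spin (η ⟨w, hw⟩)) / 2
  linear_combination (1 / 4) * c1 * c2 * c3 * c4 * b * b' * hedge
    + (1 / 4) * c1 * c2 * c3 * c4 * a1 * a2 * hfield

theorem sum_exchange (hG : G.IsTree) (hadj : G.Adj u w) (hu : u ∈ D) (hw : w ∈ D)
    (g : (D → Bool) → ℝ)
    (hg : ∀ η η' : D → Bool, (∀ x : D, (x : V) ∈ edgeSide G u w → η x = η' x) → g η = g η')
    (s t s' t' : Bool) :
    (1 + θ * spin s * spin t') / 2 * ((1 + θ * spin s' * spin t) / 2) *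
        ((∑ η ∈ fixedTwo D u w hu hw s t, fieldWeight G θ D y η * g η) *
          ∑ η ∈ fixedTwo D u w hu hw s' t', fieldWeight G θ D y η) =
      (1 + θ * spin s * spin t) / 2 * ((1 + θ * spin s' * spin t') / 2) *
        ((∑ η ∈ fixedTwo D u w hu hw s t', fieldWeight G θ D y η) *
          ∑ η ∈ fixedTwo D u w hu hw s' t, fieldWeight G θ D y η * g η) := by
  rw [Finset.sum_mul_sum, Finset.sum_mul_sum, ← Finset.sum_product', ← Finset.sum_product',
    Finset.mul_sum, Finset.mul_sum]
  have hsu : u ∉ edgeSide G u w := not_mem_edgeSide_left hadj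
  have hsw : w ∈ edgeSide G u w := edgeSide_self hadj
  refine Finset.sum_bij'
    (i := fun p _ => (mixCfg (G := G) D u w p.1 p.2, mixCfg (G := G) D u w p.2 p.1))
    (j := fun p _ => (mixCfg (G := G) D u w p.1 p.2, mixCfg (G := G) D u w p.2 p.1))
    ?_ ?_ ?_ ?_ ?_
  · intro p hp
    simp [fixedTwo, Finset.mem_product, mixCfg, hsu, hsw] at hp ⊢
    exact ⟨⟨hp.1.1, hp.2.2⟩, hp.2.1, hp.1.2⟩
  · intro p hp
    simp [fixedTwo, Finset.mem_product, mixCfg, hsu, hsw] at hp ⊢
    exact ⟨⟨hp.1.1, hp.2.2⟩, hp.2.1, hp.1.2⟩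
  · intro p _; simp [mixCfg_mix]
  · intro p _; simp [mixCfg_mix]
  · intro p hp
    simp only [fixedTwo, Finset.mem_product, Finset.mem_filter, Finset.mem_univ, true_and] at hp
    have e := weight_exchange (θ := θ) (y := y) hG hadj hu hw p.1 p.2
    rw [hp.1.1, hp.1.2, hp.2.1, hp.2.2] at e
    have hg' : g (mixCfg (G := G) D u w p.2 p.1) = g p.1 := by
      refine hg _ _ fun x hx => ?_
      simp [mixCfg, hx]
    simp only [hg']
    linear_combination g p.1 * e

end Exchange

/-- Configurations with prescribed spin at `u`. -/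
noncomputable def fixedOne {D : Finset V} {u : V} (hu : u ∈ D) (s : Bool) : Finset (D → Bool) :=
  Finset.univ.filter fun η => η ⟨u, hu⟩ = s

theorem fixedOne_pos {θ : ℝ} (h0 : 0 ≤ θ) (h1 : θ < 1) {D : Finset V} (y : V → ℝ) {u : V}
    (hu : u ∈ D) (s : Bool) : 0 < ∑ η ∈ fixedOne hu s, fieldWeight G θ D y η :=
  Finset.sum_pos (fun η _ => fieldWeight_pos h0 h1 D y η) ⟨fun _ => s, by simp [fixedOne]⟩

/-- Conditional magnetisation at `v` given the spin at `u`. -/
noncomputable def condMagn (G : SimpleGraph V) (θ : ℝ) {D : Finset V} (y : V → ℝ) {u : V}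
    (hu : u ∈ D) (v : V) (s : Bool) : ℝ :=
  (∑ η ∈ fixedOne hu s, fieldWeight G θ D y η * spin (extCfg η v)) /
    ∑ η ∈ fixedOne hu s, fieldWeight G θ D y η

theorem pi_diff_le {θ A B C E : ℝ} (h0 : 0 ≤ θ) (h1 : θ < 1) (hA : 0 < A) (hB : 0 < B)
    (hC : 0 < C) (hE : 0 < E) (h : (1 - θ) ^ 2 * (A * E) = (1 + θ) ^ 2 * (B * C)) :
    |A / (A + B) - C / (C + E)| ≤ θ := by
  rw [div_sub_div _ _ (by positivity) (by positivity), abs_div,
    abs_of_pos (show 0 < (A + B) * (C + E) by positivity), div_le_iff₀ (by positivity)]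
  have hAE : 0 < A * E := by positivity
  have hBC : 0 < B * C := by positivity
  have hge : B * C ≤ A * E := by
    have : (1 - θ) ^ 2 ≤ (1 + θ) ^ 2 := by nlinarith
    by_contra hlt
    push Not at hlt
    nlinarith [mul_lt_mul_of_pos_left hlt (show (0:ℝ) < (1 + θ) ^ 2 by positivity),
      mul_le_mul_of_nonneg_right this hAE.le]
  have hsq : ((1 - θ) * (A * E)) ^ 2 * 4 ≤ ((1 + θ) * (A * C + B * E)) ^ 2 := by
    have e : ((1 + θ) * (A * C + B * E)) ^ 2 - 4 * ((1 - θ) * (A * E)) ^ 2
        = (1 + θ) ^ 2 * (A * C - B * E) ^ 2 := by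
      linear_combination (-4 * A * E) * h
    nlinarith [mul_nonneg (sq_nonneg (1 + θ)) (sq_nonneg (A * C - B * E))]
  have hlin : 2 * ((1 - θ) * (A * E)) ≤ (1 + θ) * (A * C + B * E) := by
    have hp : 0 ≤ (1 + θ) * (A * C + B * E) := by positivity
    nlinarith
  rw [abs_of_nonneg (by nlinarith)]
  by_contra hlt
  push Not at hlt
  nlinarith [mul_lt_mul_of_pos_left hlt (show 0 < (1 + θ) ^ 2 by positivity),
    mul_le_mul_of_nonneg_left hlin (show (0:ℝ) ≤ θ * (1 + θ) by positivity)]

theorem condMagn_diff_le {θ : ℝ} (hG : G.IsTree) (h0 : 0 ≤ θ) (h1 : θ < 1) {D : Finset V}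
    (hD : IsConvexSet G D) (y : V → ℝ) {v : V} (hv : v ∈ D) :
    ∀ {u : V} (hu : u ∈ D),
      |condMagn G θ y hu v true - condMagn G θ y hu v false| ≤ 2 * θ ^ G.dist u v := by
  intro u
  induction hn : G.dist u v generalizing u with
  | zero =>
    intro hu
    obtain rfl := hG.connected.dist_eq_zero_iff.mp hn
    have e : ∀ s, condMagn G θ y hu u s = spin s := by
      intro s
      rw [condMagn, div_eq_iff (ne_of_gt (fixedOne_pos h0 h1 y hu s)), Finset.mul_sum]
      refine Finset.sum_congr rfl fun η hη => ?_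
      simp only [fixedOne, Finset.mem_filter] at hη
      rw [extCfg_of_mem _ hu, hη.2, mul_comm]
    rw [e, e]; simp [spin]; norm_num
  | succ n ih =>
    intro hu
    have hne : u ≠ v := by rintro rfl; simp at hn
    obtain ⟨w, hadj, hwd⟩ := exists_toward hG hne
    have hw : w ∈ D := hD u hu v hv w hadj hwd
    have ih' := ih (by omega) hw
    have hvs : v ∈ edgeSide G u w := by rw [mem_edgeSide]; omega
    set Z : Bool → Bool → ℝ := fun s t => ∑ η ∈ fixedTwo D u w hu hw s t, fieldWeight G θ D y η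
      with hZdef
    set N : Bool → Bool → ℝ := fun s t =>
      ∑ η ∈ fixedTwo D u w hu hw s t, fieldWeight G θ D y η * spin (extCfg η v) with hNdef
    have hZpos : ∀ s t, 0 < Z s t := by
      intro s t
      refine Finset.sum_pos (fun η _ => fieldWeight_pos h0 h1 D y η)
        ⟨fun x => if (x : V) = u then s else t, ?_⟩
      simp [fixedTwo, hadj.ne']
    have split1 : ∀ (F : (D → Bool) → ℝ) s, ∑ η ∈ fixedOne hu s, F η =
        (∑ η ∈ fixedTwo D u w hu hw s true, F η) + ∑ η ∈ fixedTwo D u w hu hw s false, F η := by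
      intro F s
      rw [← Finset.sum_filter_add_sum_filter_not (fixedOne hu s) (fun η => η ⟨w, hw⟩ = true)]
      simp only [fixedOne, fixedTwo, Finset.filter_filter, Bool.not_eq_true]
    have split2 : ∀ (F : (D → Bool) → ℝ) t, ∑ η ∈ fixedOne hw t, F η =
        (∑ η ∈ fixedTwo D u w hu hw true t, F η) + ∑ η ∈ fixedTwo D u w hu hw false t, F η := by
      intro F t
      rw [← Finset.sum_filter_add_sum_filter_not (fixedOne hw t) (fun η => η ⟨u, hu⟩ = true)]
      simp only [fixedOne, fixedTwo, Finset.filter_filter, Bool.not_eq_true, and_comm]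
    have hg : ∀ η η' : D → Bool, (∀ x : D, (x : V) ∈ edgeSide G u w → η x = η' x) →
        spin (extCfg η v) = spin (extCfg η' v) := by
      intro η η' hh
      rw [extCfg_of_mem _ hv, extCfg_of_mem _ hv, hh _ hvs]
    have key : ∀ t, N true t * Z false t = Z true t * N false t := by
      intro t
      have e := sum_exchange (θ := θ) (y := y) hG hadj hu hw (fun η => spin (extCfg η v)) hg
        true t false t
      have hc : (1 + θ * spin true * spin t) / 2 * ((1 + θ * spin false * spin t) / 2) ≠ 0 :=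
        ne_of_gt (mul_pos (spinFactor_pos h0 h1 _ _) (spinFactor_pos h0 h1 _ _))
      exact mul_left_cancel₀ hc e
    have hr : ∀ s t, N s t = condMagn G θ y hw v t * Z s t := by
      intro s t
      rw [condMagn, split2, split2]
      have hs : 0 < Z true t + Z false t := add_pos (hZpos _ _) (hZpos _ _)
      rw [div_mul_eq_mul_div, eq_div_iff (ne_of_gt hs)]
      have hk := key t
      cases s
      · simp only [hNdef, hZdef] at hk ⊢; linear_combination -hk
      · simp only [hNdef, hZdef] at hk ⊢; linear_combination hk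
    have ha : ∀ s, condMagn G θ y hu v s = condMagn G θ y hw v false +
        (condMagn G θ y hw v true - condMagn G θ y hw v false) *
          (Z s true / (Z s true + Z s false)) := by
      intro s
      have hs : Z s true + Z s false ≠ 0 := ne_of_gt (add_pos (hZpos _ _) (hZpos _ _))
      rw [condMagn, split1, split1]
      show (N s true + N s false) / (Z s true + Z s false) = _
      rw [hr, hr]
      field_simp
      ring
    have hrel : (1 - θ) ^ 2 * (Z true true * Z false false)
        = (1 + θ) ^ 2 * (Z true false * Z false true) := by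
      have e := sum_exchange (θ := θ) (y := y) hG hadj hu hw (fun _ => (1 : ℝ))
        (fun _ _ _ => rfl) true true false false
      simp only [mul_one, spin_true, spin_false] at e
      simp only [hZdef]
      linear_combination 4 * e
    rw [ha, ha, add_sub_add_left_eq_sub, ← mul_sub, abs_mul, pow_succ, ← mul_assoc]
    exact mul_le_mul ih' (pi_diff_le h0 h1 (hZpos _ _) (hZpos _ _) (hZpos _ _) (hZpos _ _) hrel)
      (abs_nonneg _) (by positivity)

theorem logistic_lipschitz {P Q : ℝ} (hP : 0 < P) (hQ : 0 < Q) (h : ℝ) :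
    |P * Real.exp h / (P * Real.exp h + Q * Real.exp (-h)) - P / (P + Q)| ≤ |h| / 2 := by
  set g : ℝ → ℝ := fun x => P * Real.exp x / (P * Real.exp x + Q * Real.exp (-x)) with hg
  have hd : ∀ x, HasDerivAt g
      (2 * (P * Real.exp x) * (Q * Real.exp (-x)) /
        (P * Real.exp x + Q * Real.exp (-x)) ^ 2) x := by
    intro x
    have h1 : HasDerivAt (fun x => P * Real.exp x) (P * Real.exp x) x :=
      (Real.hasDerivAt_exp x).const_mul P
    have h2 : HasDerivAt (fun x => Q * Real.exp (-x)) (-(Q * Real.exp (-x))) x := by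
      simpa using ((hasDerivAt_neg x).exp).const_mul Q
    have := h1.div (h1.add h2) (ne_of_gt (by simp only [Pi.add_apply]; positivity))
    refine this.congr_deriv ?_
    simp only [Pi.add_apply]
    ring
  have hb : ∀ x, ‖deriv g x‖ ≤ 1 / 2 := by
    intro x
    rw [(hd x).deriv, Real.norm_eq_abs, abs_of_nonneg (by positivity),
      div_le_iff₀ (by positivity)]
    nlinarith [sq_nonneg (P * Real.exp x - Q * Real.exp (-x))]
  have := Convex.norm_image_sub_le_of_norm_deriv_le (s := Set.univ) (f := g)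
    (fun x _ => (hd x).differentiableAt) (fun x _ => hb x) convex_univ
    (Set.mem_univ 0) (Set.mem_univ h)
  simp [hg] at this
  linarith

theorem magn_update_le {θ : ℝ} (hG : G.IsTree) (h0 : 0 ≤ θ) (h1 : θ < 1) {D : Finset V}
    (hD : IsConvexSet G D) (y : V → ℝ) {u v : V} (hv : v ∈ D) (hu : u ∈ D) (h : ℝ) :
    |magn G θ D v (Function.update y u (y u + h)) - magn G θ D v y| ≤
      θ ^ G.dist u v * |h| := by
  set P := ∑ η ∈ fixedOne hu true, fieldWeight G θ D y η with hP
  set Q := ∑ η ∈ fixedOne hu false, fieldWeight G θ D y η with hQ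
  have hPp : 0 < P := fixedOne_pos h0 h1 y hu true
  have hQp : 0 < Q := fixedOne_pos h0 h1 y hu false
  set a := condMagn G θ y hu v true with ha
  set b := condMagn G θ y hu v false with hb
  have hN : ∀ s, ∑ η ∈ fixedOne hu s, fieldWeight G θ D y η * spin (extCfg η v) =
      condMagn G θ y hu v s * ∑ η ∈ fixedOne hu s, fieldWeight G θ D y η := fun s => by
    rw [condMagn, div_mul_cancel₀ _ (ne_of_gt (fixedOne_pos h0 h1 y hu s))]
  have hsplit : ∀ F : (D → Bool) → ℝ, ∑ η, F η =
      (∑ η ∈ fixedOne hu true, F η) + ∑ η ∈ fixedOne hu false, F η := by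
    intro F
    rw [← Finset.sum_filter_add_sum_filter_not Finset.univ (fun η => η ⟨u, hu⟩ = true)]
    simp only [fixedOne, Bool.not_eq_true]
  have hupd : ∀ η : D → Bool, fieldWeight G θ D (Function.update y u (y u + h)) η =
      fieldWeight G θ D y η * Real.exp (spin (η ⟨u, hu⟩) * h) := by
    intro η
    unfold fieldWeight
    rw [mul_assoc, ← Finset.mul_prod_erase Finset.univ _ (Finset.mem_univ (⟨u, hu⟩ : D)),
      ← Finset.mul_prod_erase Finset.univ (fun x : D => Real.exp (spin (η x) * y x))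
        (Finset.mem_univ (⟨u, hu⟩ : D)), Function.update_self, mul_add, Real.exp_add]
    have : ∏ x ∈ Finset.univ.erase (⟨u, hu⟩ : D),
        Real.exp (spin (η x) * Function.update y u (y u + h) x) =
        ∏ x ∈ Finset.univ.erase (⟨u, hu⟩ : D), Real.exp (spin (η x) * y x) := by
      refine Finset.prod_congr rfl fun x hx => ?_
      have hxu : (x : V) ≠ u := fun e => (Finset.mem_erase.mp hx).1 (Subtype.ext e)
      rw [Function.update_of_ne hxu]
    rw [this]; ring
  have hsum : ∀ (F : (D → Bool) → ℝ) s,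
      ∑ η ∈ fixedOne hu s, fieldWeight G θ D y η * Real.exp (spin (η ⟨u, hu⟩) * h) * F η =
        Real.exp (spin s * h) * ∑ η ∈ fixedOne hu s, fieldWeight G θ D y η * F η := by
    intro F s
    rw [Finset.mul_sum]
    refine Finset.sum_congr rfl fun η hη => ?_
    simp only [fixedOne, Finset.mem_filter] at hη
    rw [hη.2]; ring
  have hsum1 := hsum (fun _ => (1 : ℝ))
  simp only [mul_one] at hsum1
  have e1 : magn G θ D v (Function.update y u (y u + h)) =
      b + (a - b) * (P * Real.exp h / (P * Real.exp h + Q * Real.exp (-h))) := by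
    have hne : P * Real.exp h + Q * Real.exp (-h) ≠ 0 := ne_of_gt (by positivity)
    simp only [magn, hupd]
    rw [hsplit, hsplit, hsum, hsum, hsum1, hsum1, hN, hN, spin_true, spin_false,
      one_mul, neg_one_mul, ← hP, ← hQ, ← ha, ← hb]
    field_simp
    ring
  have e2 : magn G θ D v y = b + (a - b) * (P / (P + Q)) := by
    have hne : P + Q ≠ 0 := ne_of_gt (by positivity)
    simp only [magn]
    rw [hsplit, hsplit, hN, hN, ← hP, ← hQ, ← ha, ← hb]
    field_simp
    ring
  rw [e1, e2, add_sub_add_left_eq_sub, ← mul_sub, abs_mul]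
  calc _ ≤ (2 * θ ^ G.dist u v) * (|h| / 2) :=
        mul_le_mul (condMagn_diff_le hG h0 h1 hD y hv hu) (logistic_lipschitz hPp hQp h)
          (abs_nonneg _) (by positivity)
    _ = _ := by ring

theorem magn_lipschitz {θ : ℝ} (hG : G.IsTree) (h0 : 0 ≤ θ) (h1 : θ < 1) {D : Finset V}
    (hD : IsConvexSet G D) {v : V} (hv : v ∈ D) (y y' : V → ℝ) :
    |magn G θ D v y - magn G θ D v y'| ≤ ∑ u ∈ D, θ ^ G.dist u v * |y u - y' u| := by
  classical
  suffices H : ∀ S : Finset V, S ⊆ D →
      |magn G θ D v (fun x => if x ∈ S then y x else y' x) - magn G θ D v y'| ≤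
        ∑ u ∈ S, θ ^ G.dist u v * |y u - y' u| by
    have := H D subset_rfl
    rwa [magn_congr D v (y' := y) (fun x hx => by simp [hx])] at this
  intro S
  induction S using Finset.induction_on with
  | empty => intro _; simp
  | @insert u S hu ih =>
    intro hS
    rw [Finset.sum_insert hu]
    set z := fun x => if x ∈ S then y x else y' x with hz
    have e : (fun x => if x ∈ insert u S then y x else y' x) =
        Function.update z u (z u + (y u - y' u)) := by
      funext x
      by_cases hx : x = u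
      · subst hx; simp [hz, hu]
      · simp [hz, hx, Function.update_of_ne hx]
    rw [e]
    refine le_trans (abs_sub_le _ (magn G θ D v z) _) (add_le_add ?_ ?_)
    · exact magn_update_le hG h0 h1 hD z hv (hS (Finset.mem_insert_self u S)) _
    · exact ih ((Finset.subset_insert u S).trans hS)

/-- The law of the restriction of the free Ising measure to a finite connected subtree. -/
theorem integral_restrict {θ : ℝ} (h0 : 0 ≤ θ) (h1 : θ < 1) {μ : Measure (V → Bool)}
    (hμ : IsFreeIsing G θ μ) {D : Finset V} (hD : (G.induce (D : Set V)).Connected)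
    {E : Type*} [NormedAddCommGroup E] [NormedSpace ℝ E] [CompleteSpace E]
    (F : (D → Bool) → E) :
    ∫ s, F (fun x => s x) ∂μ = ∑ η : D → Bool, freeWeight G θ D η • F η := by
  haveI := hμ.1
  have hm : Measurable (fun s : V → Bool => fun x : D => s x) := by fun_prop
  rw [← integral_map hm.aemeasurable (StronglyMeasurable.of_discrete).aestronglyMeasurable,
    integral_fintype (Integrable.of_finite)]
  refine Finset.sum_congr rfl fun η _ => ?_
  congr 1
  rw [measureReal_def, Measure.map_apply hm (measurableSet_singleton η)]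
  have e : (fun s : V → Bool => fun x : D => s x) ⁻¹' {η} =
      {s | ∀ v ∈ D, s v = extCfg η v} := by
    ext s
    simp only [Set.mem_preimage, Set.mem_singleton_iff, Set.mem_setOf_eq, funext_iff]
    constructor
    · intro hs v hv; rw [extCfg_of_mem _ hv]; exact hs ⟨v, hv⟩
    · rintro hs ⟨v, hv⟩; rw [← extCfg_of_mem η hv]; exact hs v hv
  rw [e, hμ.2 D hD, ENNReal.toReal_ofReal]
  · rfl
  · exact le_of_lt (freeWeight_pos h0 h1 D η)

end Vale.Agent.P161
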