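import Vale.Agent.P161.Ising
import Vale.Agent.P161.Noise

/-!
# The observation process and the orthogonality of the finite filters
-/

namespace Vale.Agent.P161

open SimpleGraph MeasureTheory ProbabilityTheory
open scoped Classical

variable {V : Type*}

/-- The sample space: a spin configuration and the driving normal coordinates. -/
abbrev Sample (V : Type*) := (V → Bool) × (V → NIdx → ℝ)

/-- The law of the driving coordinates. -/
noncomputable def noiseLaw (V : Type*) : Measure (V → NIdx → ℝ) :=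
  Measure.infinitePi fun _ => stdNoise

instance : IsProbabilityMeasure (noiseLaw V) := by unfold noiseLaw; infer_instance

/-- The law on the sample space. -/
noncomputable def sampleLaw (μ : Measure (V → Bool)) : Measure (Sample V) := μ.prod (noiseLaw V)

/-- The increment at level `j` of the observation `t σ_v + W_v(t)`. -/
noncomputable def obsInc (j k : ℕ) (v : V) (ω : Sample V) : ℝ :=
  (stepLen j : ℝ) * spin (ω.1 v) + dyadInc j k (ω.2 v)

/-- The observation at time `k 2^{-j}`. -/
noncomputable def obs (j k : ℕ) (v : V) (ω : Sample V) : ℝ :=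
  ∑ i ∈ Finset.range k, obsInc j i v ω

theorem obsInc_split (j k : ℕ) (v : V) (ω : Sample V) :
    obsInc (j + 1) (2 * k) v ω + obsInc (j + 1) (2 * k + 1) v ω = obsInc j k v ω := by
  simp only [obsInc]
  rw [← dyadInc_split j k, stepLen_succ]
  ring

theorem obs_refine (j k : ℕ) (v : V) (ω : Sample V) : ∀ r : ℕ,
    obs (j + r) (k * 2 ^ r) v ω = obs j k v ω
  | 0 => by simp
  | r + 1 => by
    rw [← obs_refine j k v ω r, show k * 2 ^ (r + 1) = 2 * (k * 2 ^ r) by ring, ← add_assoc]
    simp only [obs]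
    rw [sum_pairs]
    exact Finset.sum_congr rfl fun i _ => obsInc_split _ _ _ _

theorem measurable_spin : Measurable spin := measurable_of_countable _

@[fun_prop]
theorem measurable_obsInc (j k : ℕ) (v : V) : Measurable (obsInc j k v) := by
  have h1 := measurable_spin
  have h2 := measurable_dyadInc j k
  unfold obsInc
  fun_prop

@[fun_prop]
theorem measurable_obs (j k : ℕ) (v : V) : Measurable (obs j k v) := by
  unfold obs
  fun_prop

theorem continuous_magn {G : SimpleGraph V} {θ : ℝ} (h0 : 0 ≤ θ) (h1 : θ < 1) (D : Finset V)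
    (v : V) : Continuous (magn G θ D v) := by
  unfold magn fieldWeight
  refine Continuous.div ?_ ?_ (fun y => ne_of_gt (fieldSum_pos h0 h1 D y))
  all_goals fun_prop

theorem measurable_magn [Countable V] {G : SimpleGraph V} {θ : ℝ} (h0 : 0 ≤ θ) (h1 : θ < 1)
    (D : Finset V) (v : V) : Measurable (magn G θ D v) := by
  exact (continuous_magn h0 h1 D v).measurable

/-- The finite-volume filter: magnetisation at `v` given the observations in `D` up to time
`k 2^{-j}`. -/
noncomputable def mfil (G : SimpleGraph V) (θ : ℝ) (D : Finset V) (v : V) (j k : ℕ)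
    (ω : Sample V) : ℝ :=
  magn G θ D v (fun u => obs j k u ω)

theorem mfil_refine (G : SimpleGraph V) (θ : ℝ) (D : Finset V) (v : V) (j k r : ℕ)
    (ω : Sample V) : mfil G θ D v (j + r) (k * 2 ^ r) ω = mfil G θ D v j k ω := by
  simp [mfil, obs_refine]

/-- The increments of the noise on `D` at level `j` below step `K`. -/
noncomputable def noiseVec (D : Finset V) (j K : ℕ) (x : V → NIdx → ℝ) : D × Fin K → ℝ :=
  fun p => dyadInc j p.2 (x p.1)

/-- The increments of the observations on `D` at level `j` below step `K`. -/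
noncomputable def obsVec (D : Finset V) (j K : ℕ) (ω : Sample V) : D × Fin K → ℝ :=
  fun p => obsInc j p.2 (p.1 : V) ω

theorem measurable_noiseVec (D : Finset V) (j K : ℕ) : Measurable (noiseVec D j K) :=
  measurable_pi_lambda _ fun p => (measurable_dyadInc j p.2).comp (measurable_pi_apply _)

theorem measurable_obsVec (D : Finset V) (j K : ℕ) : Measurable (obsVec D j K) :=
  measurable_pi_lambda _ fun p => measurable_obsInc j p.2 (p.1 : V)

theorem noiseLaw_map_noiseVec (D : Finset V) (j K : ℕ) :
    (noiseLaw V).map (noiseVec D j K) =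
      Measure.pi fun _ : D × Fin K => gaussianReal 0 (stepLen j) := by
  refine (Measure.pi_eq fun s hs => ?_).symm
  rw [Measure.map_apply (measurable_noiseVec D j K) (.univ_pi hs)]
  set t : V → Set (NIdx → ℝ) := fun v =>
    if h : v ∈ D then (fun x => fun k : Fin K => dyadInc j k x) ⁻¹'
      (Set.univ.pi fun k => s (⟨v, h⟩, k)) else Set.univ with ht
  have hm : Measurable (fun x : NIdx → ℝ => fun k : Fin K => dyadInc j k x) :=
    measurable_pi_lambda _ fun k => measurable_dyadInc j k
  have e : noiseVec D j K ⁻¹' Set.univ.pi s = Set.pi (D : Set V) t := by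
    ext x
    simp only [Set.mem_preimage, Set.mem_pi, Set.mem_univ, true_implies, noiseVec, Finset.mem_coe]
    constructor
    · intro h v hv
      simp only [ht, dif_pos hv, Set.mem_preimage, Set.mem_pi, Set.mem_univ, true_implies]
      exact fun k => h (⟨v, hv⟩, k)
    · rintro h ⟨⟨v, hv⟩, k⟩
      have := h v hv
      simp only [ht, dif_pos hv, Set.mem_preimage, Set.mem_pi, Set.mem_univ, true_implies] at this
      exact this k
  rw [e, noiseLaw, Measure.infinitePi_pi]
  · rw [Fintype.prod_prod_type, ← Finset.prod_attach D, ← Finset.univ_eq_attach]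
    refine Finset.prod_congr rfl fun v _ => ?_
    simp only [ht, dif_pos v.2]
    rw [← Measure.map_apply hm (.univ_pi fun k => hs _), stdNoise_map_inc, Measure.pi_pi]
  · intro v hv
    simp only [ht, dif_pos (Finset.mem_coe.mp hv)]
    exact hm (.univ_pi fun k => hs _)

variable [Countable V] {G : SimpleGraph V} {θ : ℝ} {μ : Measure (V → Bool)}

/-- Expectations of bounded functions of finitely many spins and observation increments. -/
theorem integral_obs_eq (h0 : 0 ≤ θ) (h1 : θ < 1) (hμ : IsFreeIsing G θ μ) {D : Finset V}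
    (hD : (G.induce (D : Set V)).Connected) (j K : ℕ)
    (F : (D → Bool) → (D × Fin K → ℝ) → ℂ) (hF : ∀ η, Measurable (F η)) {M : ℝ}
    (hM : ∀ η x, ‖F η x‖ ≤ M) :
    ∫ ω, F (fun x : D => ω.1 x) (obsVec D j K ω) ∂sampleLaw μ =
      ∫ x, ∑ η : D → Bool, (freeWeight G θ D η : ℂ) *
        ((Real.exp (∑ p : D × Fin K, ((stepLen j : ℝ) * spin (η p.1) * x p -
          ((stepLen j : ℝ) * spin (η p.1)) ^ 2 / 2) / (stepLen j : ℝ)) : ℂ) * F η x)
        ∂(Measure.pi fun _ : D × Fin K => gaussianReal 0 (stepLen j)) := by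
  haveI := hμ.1
  set π := Measure.pi fun _ : D × Fin K => gaussianReal 0 (stepLen j) with hπ
  have hFu : Measurable (Function.uncurry F) := measurable_from_prod_countable_right hF
  have hmeas : Measurable (fun ω : Sample V => F (fun x : D => ω.1 x) (obsVec D j K ω)) :=
    hFu.comp ((measurable_pi_lambda _ fun x => (measurable_pi_apply _).comp measurable_fst).prodMk
      (measurable_obsVec D j K))
  have hint : Integrable (fun ω : Sample V => F (fun x : D => ω.1 x) (obsVec D j K ω))
      (sampleLaw μ) := by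
    unfold sampleLaw
    exact Integrable.of_bound hmeas.aestronglyMeasurable M (ae_of_all _ fun ω => hM _ _)
  rw [sampleLaw, integral_prod _ hint]
  have hshift : ∀ σ : V → Bool,
      ∫ x, F (fun u : D => σ u) (obsVec D j K (σ, x)) ∂noiseLaw V =
        ∫ x, F (fun u : D => σ u) (fun p => (stepLen j : ℝ) * spin (σ p.1) + x p) ∂π := by
    intro σ
    have hm2 : Measurable (fun z : D × Fin K → ℝ =>
        F (fun u : D => σ u) (fun p => (stepLen j : ℝ) * spin (σ p.1) + z p)) :=
      (hF _).comp (by fun_prop)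
    rw [hπ, ← noiseLaw_map_noiseVec, integral_map (measurable_noiseVec D j K).aemeasurable
      hm2.aestronglyMeasurable]
    rfl
  simp only [hshift]
  rw [integral_restrict h0 h1 hμ hD (fun η : D → Bool =>
    ∫ x, F η (fun p => (stepLen j : ℝ) * spin (η p.1) + x p) ∂π)]
  have hI : ∀ η : D → Bool, Integrable (fun x : D × Fin K → ℝ => (freeWeight G θ D η : ℂ) *
      ((Real.exp (∑ p : D × Fin K, ((stepLen j : ℝ) * spin (η p.1) * x p -
        ((stepLen j : ℝ) * spin (η p.1)) ^ 2 / 2) / (stepLen j : ℝ)) : ℂ) * F η x)) π := by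
    intro η
    refine Integrable.const_mul (Integrable.mul_bdd (c := M) ?_ (hF η).aestronglyMeasurable
      (ae_of_all _ fun x => hM η x)) _
    suffices h : Integrable (fun x : D × Fin K → ℝ => Real.exp (∑ p : D × Fin K,
        ((stepLen j : ℝ) * spin (η p.1) * x p - ((stepLen j : ℝ) * spin (η p.1)) ^ 2 / 2) /
          (stepLen j : ℝ))) π from Integrable.ofReal (𝕜 := ℂ) h
    simp only [Real.exp_sum]
    refine Integrable.fintype_prod (f := fun (p : D × Fin K) (z : ℝ) => Real.exp
      (((stepLen j : ℝ) * spin (η p.1) * z - ((stepLen j : ℝ) * spin (η p.1)) ^ 2 / 2) /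
        (stepLen j : ℝ))) fun p => ?_
    set c := (stepLen j : ℝ) * spin (η p.1)
    have h := (integrable_exp_mul_gaussianReal (μ := 0) (v := stepLen j)
      (c / (stepLen j : ℝ))).const_mul (Real.exp (-(c ^ 2 / 2) / (stepLen j : ℝ)))
    refine h.congr (ae_of_all _ fun x => ?_)
    simp only [← Real.exp_add]
    ring_nf
  rw [integral_finsetSum _ (fun η _ => hI η)]
  refine Finset.sum_congr rfl fun η _ => ?_
  rw [integral_const_mul, Complex.real_smul]
  congr 1
  exact pi_gaussian_shift (fun p : D × Fin K => (stepLen j : ℝ) * spin (η p.1))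
    (stepLen_ne_zero j) (F η) (hF η)

/-- The filter is orthogonal to every bounded function of the observations. -/
theorem orth_filter (h0 : 0 ≤ θ) (h1 : θ < 1) (hμ : IsFreeIsing G θ μ) {D : Finset V}
    (hD : (G.induce (D : Set V)).Connected) {v : V} (hv : v ∈ D) (j K : ℕ)
    (g : (D × Fin K → ℝ) → ℂ) (hg : Measurable g) {M : ℝ} (hM : ∀ x, ‖g x‖ ≤ M) :
    ∫ ω, ((spin (ω.1 v) - mfil G θ D v j K ω : ℝ) : ℂ) * g (obsVec D j K ω) ∂sampleLaw μ = 0 := by
  set Y : (D × Fin K → ℝ) → V → ℝ := fun x u =>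
    if h : u ∈ D then ∑ i : Fin K, x (⟨u, h⟩, i) else 0 with hY
  have hYm : Measurable Y := by
    refine measurable_pi_lambda _ fun u => ?_
    by_cases h : u ∈ D
    · simp only [hY, dif_pos h]; fun_prop
    · simp only [hY, dif_neg h]; fun_prop
  have hmf : ∀ ω, mfil G θ D v j K ω = magn G θ D v (Y (obsVec D j K ω)) := by
    intro ω
    refine magn_congr D v fun u hu => ?_
    simp only [hY, dif_pos hu, obsVec, obs]
    exact Finset.sum_range (fun i => obsInc j i u ω)
  set F : (D → Bool) → (D × Fin K → ℝ) → ℂ := fun η x =>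
    ((spin (η ⟨v, hv⟩) - magn G θ D v (Y x) : ℝ) : ℂ) * g x with hFdef
  have hFm : ∀ η, Measurable (F η) := fun η =>
    (Complex.measurable_ofReal.comp
      (measurable_const.sub ((measurable_magn h0 h1 D v).comp hYm))).mul hg
  have hFb : ∀ η x, ‖F η x‖ ≤ 2 * M := by
    intro η x
    rw [hFdef, norm_mul, Complex.norm_real, Real.norm_eq_abs]
    refine mul_le_mul ?_ (hM x) (norm_nonneg _) (by norm_num)
    refine (abs_sub _ _).trans ?_
    rw [abs_spin]
    linarith [abs_magn_le (G := G) h0 h1 D v (Y x)]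
  have e := integral_obs_eq h0 h1 hμ hD j K F hFm hFb
  simp only [hFdef] at e
  simp only [hmf]
  rw [e]
  refine integral_eq_zero_of_ae (ae_of_all _ fun x => ?_)
  simp only [Pi.zero_apply]
  have hh : (stepLen j : ℝ) ≠ 0 := ne_of_gt (stepLen_pos j)
  have hw : ∀ η : D → Bool, freeWeight G θ D η * Real.exp (∑ p : D × Fin K,
      ((stepLen j : ℝ) * spin (η p.1) * x p - ((stepLen j : ℝ) * spin (η p.1)) ^ 2 / 2) /
        (stepLen j : ℝ)) =
      Real.exp (-((Fintype.card (D × Fin K) : ℝ) * (stepLen j : ℝ) / 2)) *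
        fieldWeight G θ D (Y x) η := by
    intro η
    rw [fieldWeight, ← Real.exp_sum]
    have : ∑ p : D × Fin K, ((stepLen j : ℝ) * spin (η p.1) * x p -
        ((stepLen j : ℝ) * spin (η p.1)) ^ 2 / 2) / (stepLen j : ℝ) =
        (∑ u : D, spin (η u) * Y x u) -
          (Fintype.card (D × Fin K) : ℝ) * (stepLen j : ℝ) / 2 := by
      have e1 : ∀ p : D × Fin K, ((stepLen j : ℝ) * spin (η p.1) * x p -
          ((stepLen j : ℝ) * spin (η p.1)) ^ 2 / 2) / (stepLen j : ℝ) =
          spin (η p.1) * x p - (stepLen j : ℝ) / 2 := by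
        intro p
        rw [mul_pow, sq (spin _), spin_mul_self, div_eq_iff hh]
        ring
      simp only [e1, Finset.sum_sub_distrib, Finset.sum_const, Finset.card_univ, nsmul_eq_mul]
      rw [Fintype.sum_prod_type]
      congr 1
      · refine Finset.sum_congr rfl fun u _ => ?_
        simp only [hY, dif_pos u.2, Finset.mul_sum, Subtype.coe_eta]
      · ring
    rw [this, sub_eq_add_neg, Real.exp_add]
    ring
  have hfin : ∑ η : D → Bool, fieldWeight G θ D (Y x) η *
      (spin (η ⟨v, hv⟩) - magn G θ D v (Y x)) = 0 := by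
    have e2 : ∀ η : D → Bool, spin (η ⟨v, hv⟩) = spin (extCfg η v) := fun η => by
      rw [extCfg_of_mem _ hv]
    simp only [e2, mul_sub, Finset.sum_sub_distrib, ← Finset.sum_mul, magn]
    rw [mul_div_cancel₀ _ (ne_of_gt (fieldSum_pos h0 h1 D (Y x))), sub_self]
  calc _ = ((Real.exp (-((Fintype.card (D × Fin K) : ℝ) * (stepLen j : ℝ) / 2)) *
        ∑ η : D → Bool, fieldWeight G θ D (Y x) η *
          (spin (η ⟨v, hv⟩) - magn G θ D v (Y x)) : ℝ) : ℂ) * g x := by
        rw [Finset.mul_sum]
        push_cast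
        rw [Finset.sum_mul]
        refine Finset.sum_congr rfl fun η _ => ?_
        have := hw η
        have h2 : ((freeWeight G θ D η : ℂ) * ((Real.exp (∑ p : D × Fin K,
            ((stepLen j : ℝ) * spin (η p.1) * x p -
              ((stepLen j : ℝ) * spin (η p.1)) ^ 2 / 2) / (stepLen j : ℝ)) : ℝ) : ℂ)) =
            ((Real.exp (-((Fintype.card (D × Fin K) : ℝ) * (stepLen j : ℝ) / 2)) *
              fieldWeight G θ D (Y x) η : ℝ) : ℂ) := by
          rw [← Complex.ofReal_mul, this]
        push_cast at h2 ⊢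
        linear_combination ((spin (η ⟨v, hv⟩) : ℂ) - (magn G θ D v (Y x) : ℂ)) * g x * h2
    _ = 0 := by rw [hfin]; simp

variable (G θ μ) in
/-- The second moment of the filter. -/
noncomputable def filMass (D : Finset V) (v : V) (j k : ℕ) : ℝ :=
  ∫ ω, mfil G θ D v j k ω ^ 2 ∂sampleLaw μ

theorem measurable_mfil (h0 : 0 ≤ θ) (h1 : θ < 1) (D : Finset V) (v : V) (j k : ℕ) :
    Measurable (mfil G θ D v j k) :=
  (measurable_magn h0 h1 D v).comp (measurable_pi_lambda _ fun u => measurable_obs j k u)

theorem abs_mfil_le (h0 : 0 ≤ θ) (h1 : θ < 1) (D : Finset V) (v : V) (j k : ℕ) (ω : Sample V) :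
    |mfil G θ D v j k ω| ≤ 1 := abs_magn_le h0 h1 D v _

theorem isProb_sampleLaw (hμ : IsFreeIsing G θ μ) : IsProbabilityMeasure (sampleLaw μ) := by
  haveI := hμ.1
  unfold sampleLaw
  infer_instance

/-- Orthogonality of increments of the filter as the volume and the time grow. -/
theorem filMass_diff (h0 : 0 ≤ θ) (h1 : θ < 1) (hμ : IsFreeIsing G θ μ) {D D' : Finset V}
    (hD : (G.induce (D : Set V)).Connected) (hD' : (G.induce (D' : Set V)).Connected)
    (hsub : D ⊆ D') {v : V} (hv : v ∈ D) (j : ℕ) {k k' : ℕ} (hk : k ≤ k') :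
    ∫ ω, (mfil G θ D' v j k' ω - mfil G θ D v j k ω) ^ 2 ∂sampleLaw μ =
      filMass G θ μ D' v j k' - filMass G θ μ D v j k := by
  haveI := isProb_sampleLaw hμ
  set Y : (D' × Fin k' → ℝ) → V → ℝ := fun x u =>
    if h : u ∈ D' then ∑ i : Fin k, x (⟨u, h⟩, ⟨i, lt_of_lt_of_le i.2 hk⟩) else 0 with hY
  have hYm : Measurable Y := by
    refine measurable_pi_lambda _ fun u => ?_
    by_cases h : u ∈ D'
    · simp only [hY, dif_pos h]; fun_prop
    · simp only [hY, dif_neg h]; fun_prop
  have hmf : ∀ ω, mfil G θ D v j k ω = magn G θ D v (Y (obsVec D' j k' ω)) := by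
    intro ω
    refine magn_congr D v fun u hu => ?_
    simp only [hY, dif_pos (hsub hu), obsVec, obs]
    exact Finset.sum_range (fun i => obsInc j i u ω)
  have cross : ∀ (E : Finset V) (kk : ℕ) (hE : (G.induce (E : Set V)).Connected) (hvE : v ∈ E)
      (g : (E × Fin kk → ℝ) → ℝ) (hgm : Measurable g) (hgb : ∀ x, |g x| ≤ 1),
      ∫ ω, (spin (ω.1 v) - mfil G θ E v j kk ω) * g (obsVec E j kk ω) ∂sampleLaw μ = 0 := by
    intro E kk hE hvE g hgm hgb
    have e := orth_filter h0 h1 hμ hE hvE j kk (fun x => (g x : ℂ))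
      (Complex.measurable_ofReal.comp hgm) (M := 1) (fun x => by simpa using hgb x)
    simp only [← Complex.ofReal_mul, integral_ofReal] at e
    exact_mod_cast e
  have c1 := cross D' k' hD' (hsub hv) (fun x => magn G θ D v (Y x))
    ((measurable_magn h0 h1 D v).comp hYm) (fun x => abs_magn_le h0 h1 D v _)
  simp only [← hmf] at c1
  set Y2 : (D × Fin k → ℝ) → V → ℝ := fun x u =>
    if h : u ∈ D then ∑ i : Fin k, x (⟨u, h⟩, i) else 0 with hY2
  have hY2m : Measurable Y2 := by
    refine measurable_pi_lambda _ fun u => ?_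
    by_cases h : u ∈ D
    · simp only [hY2, dif_pos h]; fun_prop
    · simp only [hY2, dif_neg h]; fun_prop
  have hmf2 : ∀ ω, mfil G θ D v j k ω = magn G θ D v (Y2 (obsVec D j k ω)) := by
    intro ω
    refine magn_congr D v fun u hu => ?_
    simp only [hY2, dif_pos hu, obsVec, obs]
    exact Finset.sum_range (fun i => obsInc j i u ω)
  have c2 := cross D k hD hv (fun x => magn G θ D v (Y2 x))
    ((measurable_magn h0 h1 D v).comp hY2m) (fun x => abs_magn_le h0 h1 D v _)
  simp only [← hmf2] at c2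
  have bI : ∀ {f : Sample V → ℝ} (C : ℝ), Measurable f → (∀ ω, |f ω| ≤ C) →
      Integrable f (sampleLaw μ) := fun C hf hC =>
    Integrable.of_bound hf.aestronglyMeasurable C (ae_of_all _ fun ω => by simpa using hC ω)
  have mM := measurable_mfil (G := G) h0 h1 D' v j k'
  have mm := measurable_mfil (G := G) h0 h1 D v j k
  have bM := fun ω => abs_mfil_le (G := G) h0 h1 D' v j k' ω
  have bm := fun ω => abs_mfil_le (G := G) h0 h1 D v j k ω
  have ms : Measurable (fun ω : Sample V => spin (ω.1 v)) :=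
    measurable_spin.comp ((measurable_pi_apply v).comp measurable_fst)
  have b2 : ∀ a b : ℝ, |a| ≤ 1 → |b| ≤ 1 → |a * b| ≤ 1 := fun a b ha hb => by
    rw [abs_mul]; nlinarith [abs_nonneg a, abs_nonneg b]
  have i1 : Integrable (fun ω => spin (ω.1 v) * mfil G θ D v j k ω) (sampleLaw μ) :=
    bI 1 (ms.mul mm) fun ω => b2 _ _ (le_of_eq (abs_spin _)) (bm ω)
  have i2 : Integrable (fun ω => mfil G θ D' v j k' ω * mfil G θ D v j k ω) (sampleLaw μ) :=
    bI 1 (mM.mul mm) fun ω => b2 _ _ (bM ω) (bm ω)
  have i3 : Integrable (fun ω => mfil G θ D v j k ω ^ 2) (sampleLaw μ) :=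
    bI 1 (mm.pow_const 2) fun ω => by rw [sq]; exact b2 _ _ (bm ω) (bm ω)
  have i4 : Integrable (fun ω => mfil G θ D' v j k' ω ^ 2) (sampleLaw μ) :=
    bI 1 (mM.pow_const 2) fun ω => by rw [sq]; exact b2 _ _ (bM ω) (bM ω)
  simp only [sub_mul, ← sq] at c1 c2
  rw [integral_sub i1 i2] at c1
  rw [integral_sub i1 i3] at c2
  have expand : ∀ ω, (mfil G θ D' v j k' ω - mfil G θ D v j k ω) ^ 2 =
      (mfil G θ D' v j k' ω ^ 2 + mfil G θ D v j k ω ^ 2) -
        2 * (mfil G θ D' v j k' ω * mfil G θ D v j k ω) := fun ω => by ring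
  simp only [expand]
  have i5 : Integrable (fun ω => mfil G θ D' v j k' ω ^ 2 + mfil G θ D v j k ω ^ 2)
      (sampleLaw μ) := i4.add i3
  have i6 : Integrable (fun ω => 2 * (mfil G θ D' v j k' ω * mfil G θ D v j k ω))
      (sampleLaw μ) := i2.const_mul 2
  rw [integral_sub i5 i6, integral_add i4 i3, integral_const_mul]
  simp only [filMass]
  linarith

end Vale.Agent.P161
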