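import Vale.Agent.P161.Innov

/-!
# The innovation increments as limits in `L¹`
-/

namespace Vale.Agent.P161

open SimpleGraph MeasureTheory ProbabilityTheory Filter
open scoped Classical Topology

/-- A limit in `L¹` of a sequence, when there is one, and `0` otherwise. -/
noncomputable def l1Lim {Ω : Type*} [MeasurableSpace Ω] (P : Measure Ω) (f : ℕ → Ω → ℝ) :
    Ω → ℝ :=
  if h : ∃ g, Measurable g ∧ Integrable g P ∧
      Tendsto (fun n => ∫ ω, |f n ω - g ω| ∂P) atTop (𝓝 0)
  then h.choose else fun _ => 0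

theorem measurable_l1Lim {Ω : Type*} [MeasurableSpace Ω] (P : Measure Ω) (f : ℕ → Ω → ℝ) :
    Measurable (l1Lim P f) := by
  unfold l1Lim
  split_ifs with h
  · exact h.choose_spec.1
  · exact measurable_const

theorem integrable_l1Lim {Ω : Type*} [MeasurableSpace Ω] (P : Measure Ω) (f : ℕ → Ω → ℝ) :
    Integrable (l1Lim P f) P := by
  unfold l1Lim
  split_ifs with h
  · exact h.choose_spec.2.1
  · exact integrable_zero _ _ _

/-- `L¹` is complete. -/
theorem l1Lim_spec {Ω : Type*} [MeasurableSpace Ω] {P : Measure Ω} {f : ℕ → Ω → ℝ}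
    (hf : ∀ n, Integrable (f n) P)
    (hc : ∀ ε > (0 : ℝ), ∃ N, ∀ n, N ≤ n → ∫ ω, |f n ω - f N ω| ∂P ≤ ε) :
    Tendsto (fun n => ∫ ω, |f n ω - l1Lim P f ω| ∂P) atTop (𝓝 0) := by
  have h : ∃ g, Measurable g ∧ Integrable g P ∧
      Tendsto (fun n => ∫ ω, |f n ω - g ω| ∂P) atTop (𝓝 0) := by
    set F : ℕ → Lp ℝ 1 P := fun n => (hf n).toL1 (f n) with hF
    have hd : ∀ n m, dist (F n) (F m) = ∫ ω, |f n ω - f m ω| ∂P := by
      intro n m
      rw [dist_eq_norm, hF, ← Integrable.toL1_sub _ _ (hf n) (hf m), L1.norm_eq_integral_norm]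
      refine integral_congr_ae ?_
      filter_upwards [Integrable.coeFn_toL1 ((hf n).sub (hf m))] with ω hω
      rw [hω]; simp [Real.norm_eq_abs]
    have hC : CauchySeq F := Metric.cauchySeq_iff'.mpr fun ε hε => by
      obtain ⟨N, hN⟩ := hc (ε / 2) (by linarith)
      exact ⟨N, fun n hn => by rw [hd]; linarith [hN n hn]⟩
    obtain ⟨G, hG⟩ := cauchySeq_tendsto_of_complete hC
    have hGm := (Lp.aestronglyMeasurable G).aemeasurable
    have hGI : Integrable (⇑G) P := L1.integrable_coeFn G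
    refine ⟨hGm.mk _, hGm.measurable_mk, hGI.congr hGm.ae_eq_mk, ?_⟩
    have := tendsto_iff_norm_sub_tendsto_zero.mp hG
    refine this.congr fun n => ?_
    rw [L1.norm_eq_integral_norm]
    refine integral_congr_ae ?_
    filter_upwards [Lp.coeFn_sub (F n) G, Integrable.coeFn_toL1 (hf n), hGm.ae_eq_mk]
      with ω h1 h2 h3
    rw [h1, Pi.sub_apply, h2, h3, Real.norm_eq_abs]
  unfold l1Lim
  rw [dif_pos h]
  exact h.choose_spec.2.2

variable {V : Type*} [Countable V] {G : SimpleGraph V} {θ : ℝ} {μ : Measure (V → Bool)}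

theorem integrable_dyadInc (hμ : IsFreeIsing G θ μ) (j k : ℕ) (v : V) :
    Integrable (fun ω : Sample V => dyadInc j k (ω.2 v)) (sampleLaw μ) := by
  haveI := hμ.1
  have h1 : Integrable (dyadInc j k) stdNoise := by
    have hm : Measurable (fun x : NIdx → ℝ => fun i : Fin (k + 1) => dyadInc j i x) :=
      measurable_pi_lambda _ fun i => measurable_dyadInc j i
    have h2 : Integrable (fun z : Fin (k + 1) → ℝ => z ⟨k, Nat.lt_succ_self k⟩)
        (stdNoise.map (fun x => fun i : Fin (k + 1) => dyadInc j i x)) := by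
      rw [stdNoise_map_inc]
      exact integrable_comp_eval (μ := fun _ : Fin (k + 1) => gaussianReal 0 (stepLen j))
        (f := fun z => z) ((memLp_id_gaussianReal 1).integrable le_rfl)
    exact h2.comp_measurable hm
  have h3 : Integrable (fun x : V → NIdx → ℝ => dyadInc j k (x v)) (noiseLaw V) :=
    (measurePreserving_eval_infinitePi (fun _ : V => stdNoise) v).integrable_comp_of_integrable h1
  exact h3.comp_snd μ

theorem integrable_obsInc (hμ : IsFreeIsing G θ μ) (j k : ℕ) (v : V) :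
    Integrable (obsInc j k v) (sampleLaw μ) := by
  haveI := hμ.1
  refine Integrable.add ?_ (integrable_dyadInc hμ j k v)
  refine integrable_of_bound' hμ (stepLen j : ℝ) ?_ fun ω => ?_
  · exact measurable_const.mul (measurable_spin.comp ((measurable_pi_apply v).comp measurable_fst))
  · rw [abs_mul, abs_spin, mul_one, abs_of_pos (stepLen_pos j)]

theorem integrable_innov (h0 : 0 ≤ θ) (h1 : θ < 1) (hμ : IsFreeIsing G θ μ) (D : Finset V) (v : V)
    (j k r : ℕ) : Integrable (innov G θ D v j k r) (sampleLaw μ) :=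
  (integrable_obsInc hμ j k v).sub
    ((integrable_finsetSum _ fun _ _ => integrable_mfil h0 h1 hμ D v _ _).const_mul _)

theorem integral_abs_triangle {Ω : Type*} [MeasurableSpace Ω] {P : Measure Ω} {f g h : Ω → ℝ}
    (hf : Integrable f P) (hg : Integrable g P) (hh : Integrable h P) :
    ∫ ω, |f ω - h ω| ∂P ≤ ∫ ω, |f ω - g ω| ∂P + ∫ ω, |g ω - h ω| ∂P := by
  have i1 : Integrable (fun ω => |f ω - g ω|) P := (hf.sub hg).abs
  have i2 : Integrable (fun ω => |g ω - h ω|) P := (hg.sub hh).abs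
  rw [← integral_add i1 i2]
  exact integral_mono (hf.sub hh).abs (i1.add i2) fun ω => abs_sub_le _ _ _

variable (G θ μ) in
/-- The innovation increment of the model on `D`. -/
noncomputable def innovD (D : Finset V) (v : V) (j k : ℕ) : Sample V → ℝ :=
  l1Lim (sampleLaw μ) (fun r => innov G θ D v j k r)

theorem integrable_innovD (D : Finset V) (v : V) (j k : ℕ) :
    Integrable (innovD G θ μ D v j k) (sampleLaw μ) := integrable_l1Lim _ _

theorem innovD_tendsto (h0 : 0 ≤ θ) (h1 : θ < 1) (hμ : IsFreeIsing G θ μ) {D : Finset V}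
    (hD : (G.induce (D : Set V)).Connected) {v : V} (hv : v ∈ D) (j k : ℕ) :
    Tendsto (fun r => ∫ ω, |innov G θ D v j k r ω - innovD G θ μ D v j k ω| ∂sampleLaw μ)
      atTop (𝓝 0) := by
  refine l1Lim_spec (integrable_innov h0 h1 hμ D v j k) fun ε hε => ?_
  obtain ⟨N, hN⟩ := exists_pow_lt_of_lt_one (show 0 < ε ^ 2 by positivity)
    (show (1 / 2 : ℝ) < 1 by norm_num)
  refine ⟨N, fun n hn => ?_⟩
  obtain ⟨s, rfl⟩ := Nat.exists_eq_add_of_le hn
  refine (innov_time_bound h0 h1 hμ hD hv j k N s).trans ?_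
  rw [Real.sqrt_le_iff]
  refine ⟨hε.le, ?_⟩
  have a1 : filMass G θ μ D v j (k + 1) - filMass G θ μ D v j k ≤ 1 := by
    have := filMass_le_one (μ := μ) h0 h1 hμ D v j (k + 1)
    have := filMass_nonneg (μ := μ) (G := G) (θ := θ) D v j k
    linarith
  have a0 : 0 ≤ filMass G θ μ D v j (k + 1) - filMass G θ μ D v j k :=
    sub_nonneg.mpr (filMass_mono h0 h1 hμ hD hD subset_rfl hv j (Nat.le_succ k))
  have hj : (stepLen j : ℝ) ≤ 1 := by rw [stepLen_coe]; exact pow_le_one₀ (by norm_num) (by norm_num)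
  have hjN : (stepLen (j + N) : ℝ) ≤ (1 / 2) ^ N := by
    rw [stepLen_coe]; exact pow_le_pow_of_le_one (by norm_num) (by norm_num) (by omega)
  calc (stepLen j : ℝ) * ((stepLen (j + N) : ℝ) *
        (filMass G θ μ D v j (k + 1) - filMass G θ μ D v j k)) ≤ 1 * ((1 / 2) ^ N * 1) :=
        mul_le_mul hj (mul_le_mul hjN a1 a0 (by positivity))
          (mul_nonneg (stepLen_pos _).le a0) zero_le_one
    _ ≤ ε ^ 2 := by linarith

theorem innovD_time_bound (h0 : 0 ≤ θ) (h1 : θ < 1) (hμ : IsFreeIsing G θ μ) {D : Finset V}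
    (hD : (G.induce (D : Set V)).Connected) {v : V} (hv : v ∈ D) (j k r : ℕ) :
    ∫ ω, |innov G θ D v j k r ω - innovD G θ μ D v j k ω| ∂sampleLaw μ ≤
      Real.sqrt ((stepLen j : ℝ) *
        ((stepLen (j + r) : ℝ) *
          (filMass G θ μ D v j (k + 1) - filMass G θ μ D v j k))) := by
  have hlim := ((innovD_tendsto (μ := μ) h0 h1 hμ hD hv j k).comp
    (tendsto_atTop_mono (fun s => Nat.le_add_left s r) tendsto_id)).add_const
      (Real.sqrt ((stepLen j : ℝ) * ((stepLen (j + r) : ℝ) *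
        (filMass G θ μ D v j (k + 1) - filMass G θ μ D v j k))))
  rw [zero_add] at hlim
  refine ge_of_tendsto' hlim fun s => ?_
  have := integral_abs_triangle (integrable_innov (μ := μ) h0 h1 hμ D v j k r)
    (integrable_innov h0 h1 hμ D v j k (r + s))
    (integrable_innovD (G := G) (θ := θ) D v j k)
  have t := innov_time_bound (μ := μ) h0 h1 hμ hD hv j k r s
  simp only [Function.comp_apply, id] at this ⊢
  rw [show (fun ω => |innov G θ D v j k (r + s) ω - innov G θ D v j k r ω|) =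
    (fun ω => |innov G θ D v j k r ω - innov G θ D v j k (r + s) ω|) from
      funext fun ω => abs_sub_comm _ _] at t
  linarith

theorem innovD_volume_bound (h0 : 0 ≤ θ) (h1 : θ < 1) (hμ : IsFreeIsing G θ μ)
    {D D' : Finset V} (hD : (G.induce (D : Set V)).Connected)
    (hD' : (G.induce (D' : Set V)).Connected) (hsub : D ⊆ D') {v : V} (hv : v ∈ D) (j k s : ℕ) :
    ∫ ω, |innovD G θ μ D' v j k ω - innovD G θ μ D v j k ω| ∂sampleLaw μ ≤
      Real.sqrt ((stepLen j : ℝ) * ((stepLen (j + s) : ℝ) *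
        (1 + ∑ l ∈ Finset.range (2 ^ s), (filMass G θ μ D' v (j + s) (k * 2 ^ s + l) -
          filMass G θ μ D v (j + s) (k * 2 ^ s + l))))) := by
  have ht := tendsto_atTop_mono (f := fun r : ℕ => r) (g := fun r => s + r)
    (fun r => Nat.le_add_left r s) tendsto_id
  have l1 := (innovD_tendsto (μ := μ) h0 h1 hμ hD hv j k).comp ht
  have l2 := (innovD_tendsto (μ := μ) h0 h1 hμ hD' (hsub hv) j k).comp ht
  have hlim := (l2.add l1).add_const (Real.sqrt ((stepLen j : ℝ) * ((stepLen (j + s) : ℝ) *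
        (1 + ∑ l ∈ Finset.range (2 ^ s), (filMass G θ μ D' v (j + s) (k * 2 ^ s + l) -
          filMass G θ μ D v (j + s) (k * 2 ^ s + l))))))
  rw [add_zero, zero_add] at hlim
  refine ge_of_tendsto' hlim fun r => ?_
  simp only [Function.comp_apply]
  have A := integrable_innovD (μ := μ) (G := G) (θ := θ) D' v j k
  have B := integrable_innovD (μ := μ) (G := G) (θ := θ) D v j k
  have A' := integrable_innov (μ := μ) h0 h1 hμ D' v j k (s + r)
  have B' := integrable_innov (μ := μ) h0 h1 hμ D v j k (s + r)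
  have := integral_abs_triangle A A' B
  have := integral_abs_triangle A' B' B
  have := innov_volume_bound (μ := μ) h0 h1 hμ hD hD' hsub hv j k s r
  rw [show (fun ω => |innovD G θ μ D' v j k ω - innov G θ D' v j k (s + r) ω|) =
    (fun ω => |innov G θ D' v j k (s + r) ω - innovD G θ μ D' v j k ω|) from
      funext fun ω => abs_sub_comm _ _] at *
  linarith

section Tree

variable {d : ℕ} (hG : G.IsTree) (hd : 3 ≤ d) (hreg : ∀ v, (G.neighborSet v).ncard = d)

theorem ballSet_subset {o o' : V} {n m : ℕ} (h : G.dist o o' + n ≤ m) :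
    ballSet hG hd hreg o' n ⊆ ballSet hG hd hreg o m := by
  intro x hx
  rw [mem_ballSet] at hx ⊢
  have := hG.connected.dist_triangle (u := o) (v := o') (w := x)
  omega

/-- The limit of the second moments of the filters as the ball grows. -/
noncomputable def filMassLim (G : SimpleGraph V) (θ : ℝ) (μ : Measure (V → Bool))
    (hG : G.IsTree) (hd : 3 ≤ d) (hreg : ∀ v, (G.neighborSet v).ncard = d) (v : V) (j k : ℕ) :
    ℝ :=
  ⨆ n : ℕ, filMass G θ μ (ballSet hG hd hreg v n) v j k

theorem filMass_le_lim (h0 : 0 ≤ θ) (h1 : θ < 1) (hμ : IsFreeIsing G θ μ) (o v : V) (n j k : ℕ)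
    (hv : G.dist o v ≤ n) :
    filMass G θ μ (ballSet hG hd hreg o n) v j k ≤ filMassLim G θ μ hG hd hreg v j k := by
  have hb : BddAbove (Set.range fun m : ℕ => filMass G θ μ (ballSet hG hd hreg v m) v j k) :=
    ⟨1, by rintro _ ⟨m, rfl⟩; exact filMass_le_one h0 h1 hμ _ _ _ _⟩
  refine le_trans ?_ (le_ciSup hb (n + n))
  exact filMass_mono h0 h1 hμ (ballSet_connected hG hd hreg o n) (ballSet_connected hG hd hreg v _)
    (ballSet_subset hG hd hreg (by rw [dist_comm]; omega)) (mem_ballSet.mpr hv) j le_rfl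

theorem filMass_tendsto (h0 : 0 ≤ θ) (h1 : θ < 1) (hμ : IsFreeIsing G θ μ) (o v : V) (j k : ℕ) :
    Tendsto (fun n => filMass G θ μ (ballSet hG hd hreg o n) v j k) atTop
      (𝓝 (filMassLim G θ μ hG hd hreg v j k)) := by
  rw [Metric.tendsto_atTop]
  intro ε hε
  obtain ⟨m, hm⟩ := exists_lt_of_lt_ciSup
    (show filMassLim G θ μ hG hd hreg v j k - ε < filMassLim G θ μ hG hd hreg v j k by linarith)
  refine ⟨G.dist o v + m, fun n hn => ?_⟩
  have h2 : filMass G θ μ (ballSet hG hd hreg v m) v j k ≤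
      filMass G θ μ (ballSet hG hd hreg o n) v j k :=
    filMass_mono h0 h1 hμ (ballSet_connected hG hd hreg v m) (ballSet_connected hG hd hreg o n)
      (ballSet_subset hG hd hreg hn) (mem_ballSet.mpr (by simp)) j le_rfl
  have h3 := filMass_le_lim (μ := μ) hG hd hreg h0 h1 hμ o v n j k (by omega)
  rw [Real.dist_eq, abs_of_nonpos (by linarith)]
  linarith

/-- For large balls around `o` the innovations are uniformly close to those of any larger
volume contained in a ball. -/
theorem innovD_cauchy (h0 : 0 ≤ θ) (h1 : θ < 1) (hμ : IsFreeIsing G θ μ) (o v : V) (j k : ℕ)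
    {ε : ℝ} (hε : 0 < ε) :
    ∃ N, G.dist o v ≤ N ∧ ∀ (o' : V) (n : ℕ),
      ballSet hG hd hreg o N ⊆ ballSet hG hd hreg o' n →
      ∫ ω, |innovD G θ μ (ballSet hG hd hreg o' n) v j k ω -
        innovD G θ μ (ballSet hG hd hreg o N) v j k ω| ∂sampleLaw μ ≤ ε := by
  obtain ⟨s, hs⟩ := exists_pow_lt_of_lt_one (show 0 < ε ^ 2 / 2 by positivity)
    (show (1 / 2 : ℝ) < 1 by norm_num)
  have hev : ∀ᶠ n in atTop, ∀ l ∈ Finset.range (2 ^ s),
      filMassLim G θ μ hG hd hreg v (j + s) (k * 2 ^ s + l) -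
        filMass G θ μ (ballSet hG hd hreg o n) v (j + s) (k * 2 ^ s + l) ≤ 1 / 2 ^ s := by
    rw [Finset.eventually_all]
    intro l _
    have := (filMass_tendsto (μ := μ) hG hd hreg h0 h1 hμ o v (j + s) (k * 2 ^ s + l)).const_sub
      (filMassLim G θ μ hG hd hreg v (j + s) (k * 2 ^ s + l))
    rw [sub_self] at this
    exact this.eventually (eventually_le_nhds (by positivity))
  obtain ⟨N, hN⟩ := eventually_atTop.mp hev
  refine ⟨max N (G.dist o v), le_max_right _ _, fun o' n hsub => ?_⟩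
  have hv : v ∈ ballSet hG hd hreg o (max N (G.dist o v)) :=
    mem_ballSet.mpr (le_max_right _ _)
  refine (innovD_volume_bound h0 h1 hμ (ballSet_connected hG hd hreg _ _)
    (ballSet_connected hG hd hreg _ _) hsub hv j k s).trans ?_
  rw [Real.sqrt_le_iff]
  refine ⟨hε.le, ?_⟩
  have hS : ∑ l ∈ Finset.range (2 ^ s),
      (filMass G θ μ (ballSet hG hd hreg o' n) v (j + s) (k * 2 ^ s + l) -
        filMass G θ μ (ballSet hG hd hreg o (max N (G.dist o v))) v (j + s) (k * 2 ^ s + l)) ≤
      1 := by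
    calc _ ≤ ∑ _l ∈ Finset.range (2 ^ s), (1 / 2 ^ s : ℝ) := by
          refine Finset.sum_le_sum fun l hl => ?_
          have := filMass_le_lim (μ := μ) hG hd hreg h0 h1 hμ o' v n (j + s) (k * 2 ^ s + l)
            (mem_ballSet.mp (hsub hv))
          have := hN (max N (G.dist o v)) (le_max_left _ _) l hl
          linarith
      _ = 1 := by simp
  have hS0 : 0 ≤ ∑ l ∈ Finset.range (2 ^ s),
      (filMass G θ μ (ballSet hG hd hreg o' n) v (j + s) (k * 2 ^ s + l) -
        filMass G θ μ (ballSet hG hd hreg o (max N (G.dist o v))) v (j + s) (k * 2 ^ s + l)) :=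
    Finset.sum_nonneg fun l _ => sub_nonneg.mpr (filMass_mono h0 h1 hμ
      (ballSet_connected hG hd hreg _ _) (ballSet_connected hG hd hreg _ _) hsub hv _ le_rfl)
  have hj : (stepLen j : ℝ) ≤ 1 := by rw [stepLen_coe]; exact pow_le_one₀ (by norm_num) (by norm_num)
  have hjs : (stepLen (j + s) : ℝ) ≤ (1 / 2) ^ s := by
    rw [stepLen_coe]; exact pow_le_pow_of_le_one (by norm_num) (by norm_num) (by omega)
  calc _ ≤ (1 : ℝ) * ((1 / 2) ^ s * 2) :=
        mul_le_mul hj (mul_le_mul hjs (by linarith) (by linarith) (by positivity))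
          (mul_nonneg (stepLen_pos _).le (by linarith)) zero_le_one
    _ ≤ _ := by linarith

variable (G θ μ) in
/-- The innovation increment of the infinite model. -/
noncomputable def innovLim (o v : V) (j k : ℕ) : Sample V → ℝ :=
  l1Lim (sampleLaw μ) (fun n => innovD G θ μ (ballSet hG hd hreg o n) v j k)

theorem innovLim_tendsto_center (h0 : 0 ≤ θ) (h1 : θ < 1) (hμ : IsFreeIsing G θ μ) (o v : V)
    (j k : ℕ) :
    Tendsto (fun n => ∫ ω, |innovD G θ μ (ballSet hG hd hreg o n) v j k ω -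
      innovLim G θ μ hG hd hreg o v j k ω| ∂sampleLaw μ) atTop (𝓝 0) := by
  refine l1Lim_spec (fun n => integrable_innovD _ _ _ _) fun ε hε => ?_
  obtain ⟨N, -, hN⟩ := innovD_cauchy (μ := μ) hG hd hreg h0 h1 hμ o v j k hε
  exact ⟨N, fun n hn => hN o n (ballSet_subset hG hd hreg (by simpa using hn))⟩

theorem innovLim_tendsto (h0 : 0 ≤ θ) (h1 : θ < 1) (hμ : IsFreeIsing G θ μ) (o o' v : V)
    (j k : ℕ) :
    Tendsto (fun n => ∫ ω, |innovD G θ μ (ballSet hG hd hreg o' n) v j k ω -
      innovLim G θ μ hG hd hreg o v j k ω| ∂sampleLaw μ) atTop (𝓝 0) := by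
  rw [Metric.tendsto_atTop]
  intro ε hε
  obtain ⟨N, -, hN⟩ := innovD_cauchy (μ := μ) hG hd hreg h0 h1 hμ o v j k
    (show 0 < ε / 4 by linarith)
  obtain ⟨M, hM⟩ := (Metric.tendsto_atTop.mp
    (innovLim_tendsto_center (μ := μ) hG hd hreg h0 h1 hμ o v j k)) (ε / 4) (by linarith)
  refine ⟨G.dist o' o + N, fun n hn => ?_⟩
  have h2 := hN o' n (ballSet_subset hG hd hreg hn)
  have h3 := hN o (max N M) (ballSet_subset hG hd hreg (by simp))
  have h4 := hM (max N M) (le_max_right _ _)
  rw [Real.dist_eq, sub_zero, abs_of_nonneg (integral_nonneg fun _ => abs_nonneg _)] at h4 ⊢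
  have A := integrable_innovD (μ := μ) (G := G) (θ := θ) (ballSet hG hd hreg o' n) v j k
  have B := integrable_innovD (μ := μ) (G := G) (θ := θ) (ballSet hG hd hreg o N) v j k
  have C := integrable_innovD (μ := μ) (G := G) (θ := θ) (ballSet hG hd hreg o (max N M)) v j k
  have D' : Integrable (innovLim G θ μ hG hd hreg o v j k) (sampleLaw μ) := integrable_l1Lim _ _
  have := integral_abs_triangle A B D'
  have := integral_abs_triangle B C D'
  rw [show (fun ω => |innovD G θ μ (ballSet hG hd hreg o N) v j k ω -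
      innovD G θ μ (ballSet hG hd hreg o (max N M)) v j k ω|) =
    (fun ω => |innovD G θ μ (ballSet hG hd hreg o (max N M)) v j k ω -
      innovD G θ μ (ballSet hG hd hreg o N) v j k ω|) from funext fun ω => abs_sub_comm _ _] at *
  linarith

end Tree

end Vale.Agent.P161
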