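import Vale.Agent.P161.Defs

/-!
# Metric facts about regular trees
-/

namespace Vale.Agent.P161

open SimpleGraph Finset

variable {V : Type*} {G : SimpleGraph V}

/-- Along an edge of a tree the distance to any vertex changes by exactly one. -/
theorem dist_succ_or (hG : G.IsTree) {u w : V} (h : G.Adj u w) (x : V) :
    G.dist u x = G.dist w x + 1 ∨ G.dist w x = G.dist u x + 1 := by
  classical
  obtain ⟨p, hp, hpl⟩ := hG.connected.exists_path_of_dist u x
  obtain ⟨q, hq, hql⟩ := hG.connected.exists_path_of_dist w x
  by_cases hu : u ∈ q.support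
  · right
    have hu' := hG.isAcyclic.eq_snd_of_adj_start hq h.symm hu
    have hnil : ¬ q.Nil := by
      intro hn
      have := Walk.nil_iff_support_eq.mp hn
      rw [this, List.mem_singleton] at hu
      exact h.ne hu
    have h2 : G.dist q.snd x ≤ q.tail.length := dist_le _
    have h3 := Walk.length_tail_add_one hnil
    have h4 := hG.connected.dist_triangle (u := w) (v := u) (w := x)
    rw [dist_eq_one_iff_adj.mpr h.symm] at h4
    have h5 : G.dist u x = G.dist q.snd x := congrArg (fun z => G.dist z x) hu'
    omega
  · left
    have hc : (Walk.cons h q).IsPath := hq.cons hu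
    have e := (hG.isAcyclic.subsingleton_path u x).elim ⟨p, hp⟩ ⟨_, hc⟩
    have e' : p = Walk.cons h q := Subtype.mk.inj e
    rw [← hpl, ← hql, e', Walk.length_cons]

/-- Two neighbours of `u` which are closer to `x` coincide. -/
theorem toward_unique (hG : G.IsTree) {u w w' x : V} (h : G.Adj u w) (h' : G.Adj u w')
    (hw : G.dist w x + 1 = G.dist u x) (hw' : G.dist w' x + 1 = G.dist u x) : w = w' := by
  classical
  have key : ∀ z, G.Adj u z → G.dist z x + 1 = G.dist u x →
      ∀ (p : G.Walk u x), p.IsPath → z = p.snd := by
    intro z hz hzd p hp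
    obtain ⟨q, hq, hql⟩ := hG.connected.exists_path_of_dist z x
    have hlen : (Walk.cons hz q).length = G.dist u x := by
      rw [Walk.length_cons, hql, hzd]
    have hc := Walk.isPath_of_length_eq_dist _ hlen
    have e := (hG.isAcyclic.subsingleton_path u x).elim ⟨p, hp⟩ ⟨_, hc⟩
    have e' : p = Walk.cons hz q := Subtype.mk.inj e
    rw [e', Walk.snd_cons]
  obtain ⟨p, hp, -⟩ := hG.connected.exists_path_of_dist u x
  rw [key w h hw p hp, key w' h' hw' p hp]

/-- There is a neighbour closer to `x`. -/
theorem exists_toward (hG : G.IsTree) {u x : V} (h : u ≠ x) :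
    ∃ w, G.Adj u w ∧ G.dist w x + 1 = G.dist u x := by
  obtain ⟨p, hp, hpl⟩ := hG.connected.exists_path_of_dist u x
  have hnil : ¬ p.Nil := fun hn => h hn.eq
  refine ⟨p.snd, p.adj_snd hnil, ?_⟩
  have h2 : G.dist p.snd x ≤ p.tail.length := dist_le _
  have h3 := Walk.length_tail_add_one hnil
  rcases dist_succ_or hG (p.adj_snd hnil) x with h4 | h4 <;> omega

/-- The side of the edge `(u, w)` which contains `w`. -/
def edgeSide (G : SimpleGraph V) (u w : V) : Set V := {x | G.dist w x < G.dist u x}

theorem mem_edgeSide {u w x : V} : x ∈ edgeSide G u w ↔ G.dist w x < G.dist u x := Iff.rfl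

theorem edgeSide_self {u w : V} (h : G.Adj u w) : w ∈ edgeSide G u w := by
  simp [mem_edgeSide, dist_eq_one_iff_adj.mpr h]

theorem not_mem_edgeSide_left {u w : V} (h : G.Adj u w) : u ∉ edgeSide G u w := by
  simp [mem_edgeSide]

theorem dist_of_mem_side (hG : G.IsTree) {u w x : V} (h : G.Adj u w) (hx : x ∈ edgeSide G u w) :
    G.dist u x = G.dist w x + 1 := by
  rcases dist_succ_or hG h x with h' | h'
  · exact h'
  · rw [mem_edgeSide] at hx; omega

theorem dist_of_not_mem_side (hG : G.IsTree) {u w x : V} (h : G.Adj u w)
    (hx : x ∉ edgeSide G u w) : G.dist w x = G.dist u x + 1 := by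
  rcases dist_succ_or hG h x with h' | h'
  · rw [mem_edgeSide] at hx; omega
  · exact h'

/-- Only the edge `(u, w)` crosses between its two sides. -/
theorem crossing_edge (hG : G.IsTree) {u w x y : V} (h : G.Adj u w) (hxy : G.Adj x y)
    (hx : x ∈ edgeSide G u w) (hy : y ∉ edgeSide G u w) : x = w ∧ y = u := by
  have h1 := dist_of_mem_side hG h hx
  have h2 := dist_of_not_mem_side hG h hy
  have a1 := hG.connected.dist_triangle (u := w) (v := x) (w := y)
  have a2 := hG.connected.dist_triangle (u := u) (v := y) (w := x)
  rw [dist_eq_one_iff_adj.mpr hxy] at a1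
  rw [dist_eq_one_iff_adj.mpr hxy.symm] at a2
  rcases dist_succ_or hG hxy w with h3 | h3
  · rw [dist_comm (u := x) (v := w), dist_comm (u := y) (v := w)] at h3; omega
  · rw [dist_comm (u := y) (v := w), dist_comm (u := x) (v := w)] at h3
    by_cases hxw : x = w
    · refine ⟨hxw, ?_⟩
      subst hxw
      have : G.dist u y = 0 := by
        have := dist_eq_one_iff_adj.mpr hxy
        omega
      exact ((hG.connected.dist_eq_zero_iff).mp this).symm
    · exfalso
      obtain ⟨z, hz, hzd⟩ := exists_toward hG hxw
      have hzw : G.dist z w + 1 = G.dist x w := hzd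
      have hzu : G.dist z u + 1 = G.dist x u := by
        have := hG.connected.dist_triangle (u := u) (v := w) (w := z)
        rw [dist_eq_one_iff_adj.mpr h, dist_comm (u := w) (v := z)] at this
        have := hG.connected.dist_triangle (u := x) (v := z) (w := u)
        rw [dist_eq_one_iff_adj.mpr hz] at this
        rw [dist_comm (u := z) (v := u)] at this ⊢
        rw [dist_comm (u := x) (v := u)] at this ⊢
        rw [dist_comm (u := w) (v := x)] at h1
        omega
      have hyu : G.dist y u + 1 = G.dist x u := by
        rw [dist_comm (u := y) (v := u), dist_comm (u := x) (v := u)]; omega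
      have hzy := toward_unique hG hz hxy hzu hyu
      subst hzy
      rw [dist_comm (u := z) (v := w), dist_comm (u := x) (v := w)] at hzw
      omega

/-- Distances add up across an edge. -/
theorem dist_across (hG : G.IsTree) {u w : V} (h : G.Adj u w) {x : V} (hx : x ∈ edgeSide G u w) :
    ∀ z, z ∉ edgeSide G u w → G.dist z x = G.dist u z + 1 + G.dist w x := by
  intro z
  induction hn : G.dist u z generalizing z with
  | zero =>
    intro _
    obtain rfl := hG.connected.dist_eq_zero_iff.mp hn
    rw [dist_of_mem_side hG h hx]; omega
  | succ n ih =>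
    intro hz
    have hne : z ≠ u := by rintro rfl; simp at hn
    obtain ⟨p, hp, hpd⟩ := exists_toward hG hne
    rw [dist_comm (u := z) (v := u)] at hpd
    rw [dist_comm (u := p) (v := u)] at hpd
    have hpn : p ∉ edgeSide G u w := by
      intro hps
      obtain ⟨-, rfl⟩ := crossing_edge hG h hp.symm hps hz
      exact hne rfl
    have hpu : G.dist u p = n := by omega
    have e := ih p hpu hpn
    rcases dist_succ_or hG hp x with h' | h'
    · omega
    · exfalso
      -- otherwise `z` is the neighbour of `p` towards `x`, on the far side of `p` from `u`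
      have hzp : G.dist z x + 1 = G.dist p x := by omega
      by_cases hpu' : p = u
      · subst hpu'
        have hwx : G.dist w x + 1 = G.dist p x := by rw [dist_of_mem_side hG h hx]
        have := toward_unique hG hp.symm h hzp hwx
        subst this
        exact hz (edgeSide_self h)
      · obtain ⟨r, hr, hrd⟩ := exists_toward hG hpu'
        rw [dist_comm (u := r) (v := u), dist_comm (u := p) (v := u), hpu] at hrd
        have hrn : r ∉ edgeSide G u w := by
          intro hrs
          obtain ⟨-, rfl⟩ := crossing_edge hG h hr.symm hrs hpn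
          exact hpu' rfl
        have hrx : G.dist r x + 1 = G.dist p x := by
          rcases dist_succ_or hG hr x with h'' | h''
          · omega
          · have := hG.connected.dist_triangle (u := r) (v := u) (w := x)
            rw [dist_of_mem_side hG h hx, dist_comm (u := r) (v := u)] at this
            omega
        have := toward_unique hG hp.symm hr hzp hrx
        subst this
        omega

end Vale.Agent.P161
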