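import Vale.Agent.P161.Bits

/-!
# Walsh functions of i.i.d. fair bits
-/

namespace Vale.Agent.P161

open MeasureTheory
open scoped symmDiff

theorem measurable_spin : Measurable spin := .of_discrete

theorem spin_bounded (b : Bool) : |spin b| ≤ 1 := by cases b <;> simp [spin]

variable {J : Type*}

/-- The law of i.i.d. fair bits indexed by `J`. -/
noncomputable def bitsPi (J : Type*) : Measure (J → Bool) := Measure.infinitePi fun _ : J => fair

instance : IsProbabilityMeasure (bitsPi J) := by unfold bitsPi; infer_instance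

/-- A Walsh function. -/
def walsh (A : Finset J) (b : J → Bool) : ℝ := ∏ j ∈ A, spin (b j)

theorem measurable_walsh (A : Finset J) : Measurable (walsh A : (J → Bool) → ℝ) :=
  Finset.measurable_prod A fun j _ => measurable_spin.comp (measurable_pi_apply j)

theorem abs_walsh (A : Finset J) (b : J → Bool) : |walsh A b| = 1 := by
  rw [walsh, Finset.abs_prod]
  exact Finset.prod_eq_one fun j _ => by cases b j <;> simp [spin]

theorem integrable_bounded {α : Type*} [MeasurableSpace α] (μ : Measure α) [IsFiniteMeasure μ]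
    {f : α → ℝ} (hf : Measurable f) (C : ℝ) (hC : ∀ a, |f a| ≤ C) : Integrable f μ :=
  Integrable.of_bound hf.aestronglyMeasurable C (Filter.Eventually.of_forall hC)

theorem integral_walsh [DecidableEq J] (A : Finset J) :
    ∫ b, walsh A b ∂bitsPi J = if A = ∅ then 1 else 0 := by
  split_ifs with hA
  · simp [hA, walsh]
  obtain ⟨j, hj⟩ := Finset.nonempty_iff_ne_empty.mpr hA
  let u : J → Bool → Bool := fun i => if i = j then (fun x => !x) else id
  have hu : ∀ i, Measurable (u i) := fun i => Measurable.of_discrete
  have hmap : (bitsPi J).map (fun b i => u i (b i)) = bitsPi J := by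
    rw [bitsPi, Measure.infinitePi_map_pi (μ := fun _ : J => fair) hu]
    congr 1
    funext i
    by_cases h : i = j
    · simp only [u, if_pos h, fair_map_not]
    · simp only [u, if_neg h, Measure.map_id]
  have hflip : ∀ b, walsh A (fun i => u i (b i)) = -walsh A b := by
    intro b
    simp only [walsh]
    rw [← Finset.mul_prod_erase A _ hj, ← Finset.mul_prod_erase A (fun i => spin (b i)) hj,
      ← neg_mul]
    congr 1
    · simp only [u, if_pos]
      cases b j <;> simp [spin]
    · refine Finset.prod_congr rfl fun i hi => ?_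
      simp [u, (Finset.mem_erase.mp hi).1]
  have hm : Measurable (fun b : J → Bool => fun i => u i (b i)) :=
    measurable_pi_lambda _ fun i => (hu i).comp (measurable_pi_apply i)
  have h : ∫ b, walsh A b ∂bitsPi J = -∫ b, walsh A b ∂bitsPi J := by
    conv_lhs => rw [← hmap, integral_map hm.aemeasurable (measurable_walsh A).aestronglyMeasurable]
    simp only [hflip, integral_neg]
  linarith

theorem walsh_mul [DecidableEq J] (A B : Finset J) (b : J → Bool) :
    walsh A b * walsh B b = walsh (A ∆ B) b := by
  have hAB : walsh A b = walsh (A \ B) b * walsh (A ∩ B) b := by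
    simp only [walsh]
    rw [← Finset.prod_union (Finset.disjoint_sdiff_inter A B), Finset.sdiff_union_inter]
  have hBA : walsh B b = walsh (B \ A) b * walsh (A ∩ B) b := by
    simp only [walsh]
    rw [← Finset.prod_union (Finset.inter_comm A B ▸ Finset.disjoint_sdiff_inter B A),
      Finset.inter_comm, Finset.sdiff_union_inter]
  have hD : walsh (A ∆ B) b = walsh (A \ B) b * walsh (B \ A) b := by
    simp only [walsh, symmDiff_def, Finset.sup_eq_union]
    rw [Finset.prod_union disjoint_sdiff_sdiff]
  have h1 : walsh (A ∩ B) b * walsh (A ∩ B) b = 1 := by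
    rw [← abs_mul_abs_self (walsh (A ∩ B) b), abs_walsh, one_mul]
  rw [hAB, hBA, hD]
  linear_combination walsh (A \ B) b * walsh (B \ A) b * h1

theorem integral_walsh_mul [DecidableEq J] (A B : Finset J) :
    ∫ b, walsh A b * walsh B b ∂bitsPi J = if A = B then 1 else 0 := by
  simp only [walsh_mul, integral_walsh]
  congr 1
  simp

/-- The Walsh coefficient. -/
noncomputable def coeff (f : (J → Bool) → ℝ) (A : Finset J) : ℝ :=
  ∫ b, f b * walsh A b ∂bitsPi J

/-- Bessel's inequality. -/
theorem bessel [DecidableEq J] {f : (J → Bool) → ℝ} (hf : Measurable f) {C : ℝ}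
    (hC : ∀ b, |f b| ≤ C) (s : Finset (Finset J)) :
    ∑ A ∈ s, coeff f A ^ 2 ≤ ∫ b, f b ^ 2 ∂bitsPi J := by
  set w : (J → Bool) → ℝ := fun b => ∑ A ∈ s, coeff f A * walsh A b with hw
  have hwm : Measurable w := Finset.measurable_sum s fun A _ => (measurable_walsh A).const_mul _
  have hwC : ∀ b, |w b| ≤ ∑ A ∈ s, |coeff f A| := fun b => by
    refine (Finset.abs_sum_le_sum_abs _ _).trans (le_of_eq (Finset.sum_congr rfl fun A _ => ?_))
    rw [abs_mul, abs_walsh, mul_one]
  have hfA : ∀ A, Integrable (fun b => f b * walsh A b) (bitsPi J) := fun A =>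
    integrable_bounded _ (hf.mul (measurable_walsh A)) C fun b => by
      rw [abs_mul, abs_walsh, mul_one]; exact hC b
  have hfw : ∫ b, f b * w b ∂bitsPi J = ∑ A ∈ s, coeff f A ^ 2 := by
    simp only [hw, Finset.mul_sum]
    rw [integral_finsetSum]
    · refine Finset.sum_congr rfl fun A _ => ?_
      simp only [mul_left_comm (f _), integral_const_mul]
      rw [coeff, sq]
    · intro A _
      simp only [mul_left_comm (f _)]
      exact (hfA A).const_mul _
  have hww : ∫ b, w b * w b ∂bitsPi J = ∑ A ∈ s, coeff f A ^ 2 := by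
    have e : ∀ b, w b * w b =
        ∑ A ∈ s, ∑ B ∈ s, coeff f A * coeff f B * (walsh A b * walsh B b) := by
      intro b
      simp only [hw, Finset.sum_mul_sum]
      exact Finset.sum_congr rfl fun A _ => Finset.sum_congr rfl fun B _ => by ring
    have hint : ∀ A B, Integrable (fun b => coeff f A * coeff f B * (walsh A b * walsh B b))
        (bitsPi J) := fun A B =>
      (integrable_bounded _ ((measurable_walsh A).mul (measurable_walsh B)) 1 fun b => by
        rw [Pi.mul_apply, abs_mul, abs_walsh, abs_walsh, one_mul]).const_mul _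
    simp only [e]
    rw [integral_finsetSum _ fun A _ => integrable_finsetSum _ fun B _ => hint A B]
    refine Finset.sum_congr rfl fun A hA => ?_
    rw [integral_finsetSum _ fun B _ => hint A B]
    simp only [integral_const_mul, integral_walsh_mul, mul_ite, mul_one, mul_zero,
      Finset.sum_ite_eq, if_pos hA]
    ring
  have hff : Integrable (fun b => f b * f b) (bitsPi J) :=
    integrable_bounded _ (hf.mul hf) (C * C) fun b => by
      rw [abs_mul]; exact mul_le_mul (hC b) (hC b) (abs_nonneg _) ((abs_nonneg _).trans (hC b))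
  have hfwI : Integrable (fun b => f b * w b) (bitsPi J) :=
    integrable_bounded _ (hf.mul hwm) (C * ∑ A ∈ s, |coeff f A|) fun b => by
      rw [abs_mul]
      exact mul_le_mul (hC b) (hwC b) (abs_nonneg _) ((abs_nonneg _).trans (hC b))
  have hwwI : Integrable (fun b => w b * w b) (bitsPi J) :=
    integrable_bounded _ (hwm.mul hwm) ((∑ A ∈ s, |coeff f A|) * ∑ A ∈ s, |coeff f A|) fun b => by
      rw [abs_mul]
      exact mul_le_mul (hwC b) (hwC b) (abs_nonneg _) ((abs_nonneg _).trans (hwC b))
  have h0 : 0 ≤ ∫ b, (f b - w b) ^ 2 ∂bitsPi J := integral_nonneg fun b => sq_nonneg _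
  have e : ∀ b, (f b - w b) ^ 2 = f b * f b - 2 * (f b * w b) + w b * w b := fun b => by ring
  simp only [e] at h0
  rw [integral_add (hff.sub' (hfwI.const_mul 2)) hwwI, integral_sub hff (hfwI.const_mul 2),
    integral_const_mul, hfw, hww] at h0
  calc ∑ A ∈ s, coeff f A ^ 2 ≤ ∫ b, f b * f b ∂bitsPi J := by linarith
    _ = _ := by simp only [sq]

/-- A function of finitely many bits is a combination of Walsh functions. -/
theorem exists_expansion [DecidableEq J] (S : Finset J) (h : (S → Bool) → ℝ) :
    ∃ c : Finset J → ℝ, ∀ b : J → Bool,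
      h (fun j => b j) = ∑ A ∈ S.powerset, c A * walsh A b := by
  classical
  let ext : (S → Bool) → J → Bool := fun η j => if hj : j ∈ S then η ⟨j, hj⟩ else true
  refine ⟨fun A => (2 : ℝ)⁻¹ ^ S.card * ∑ η : S → Bool, h η * walsh A (ext η), fun b => ?_⟩
  have key : ∀ η : S → Bool, ∑ A ∈ S.powerset, walsh A (ext η) * walsh A b =
      if η = (fun j : S => b j) then (2 : ℝ) ^ S.card else 0 := by
    intro η
    simp only [walsh, ← Finset.prod_mul_distrib]
    rw [← Finset.prod_one_add]
    split_ifs with hη
    · rw [← Finset.prod_const]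
      refine Finset.prod_congr rfl fun j hj => ?_
      simp only [ext, dif_pos hj, hη]
      cases b j <;> simp [spin] <;> norm_num
    · obtain ⟨⟨j, hj⟩, hne⟩ := Function.ne_iff.mp hη
      refine Finset.prod_eq_zero hj ?_
      simp only [ext, dif_pos hj]
      revert hne
      cases η ⟨j, hj⟩ <;> cases b j <;> simp [spin]
  symm
  calc ∑ A ∈ S.powerset, ((2 : ℝ)⁻¹ ^ S.card * ∑ η : S → Bool, h η * walsh A (ext η)) * walsh A b
      = (2 : ℝ)⁻¹ ^ S.card * ∑ η : S → Bool, h η *
          ∑ A ∈ S.powerset, walsh A (ext η) * walsh A b := by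
        simp only [Finset.mul_sum, Finset.sum_mul]
        rw [Finset.sum_comm]
        exact Finset.sum_congr rfl fun η _ => Finset.sum_congr rfl fun A _ => by ring
    _ = _ := by
        simp only [key, mul_ite, mul_zero, Finset.sum_ite_eq', Finset.mem_univ, if_true]
        rw [inv_pow]
        field_simp

/-- The correlation of two functions is bounded by their Walsh coefficients. -/
theorem corr_le [DecidableEq J] {φ : (J → Bool) → Bool} (hφ : Measurable φ)
    {f' : (J → Bool) → ℝ} (hf' : Measurable f') (hf'1 : ∀ b, |f' b| ≤ 1) {ε : ℝ} (hε : 0 < ε) :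
    ∃ s : Finset (Finset J), ∫ b, spin (φ b) * f' b ∂bitsPi J ≤
      ∑ A ∈ s, |coeff (fun b => spin (φ b)) A| * |coeff f' A| + ε := by
  classical
  set δ := ε / 2 with hδ
  set E := {b : J → Bool | φ b = true} with hE
  have hEm : MeasurableSet E := hφ (measurableSet_singleton true)
  have halg : IsSetAlgebra (measurableCylinders fun _ : J => Bool) :=
    ⟨empty_mem_measurableCylinders _, fun _ h => compl_mem_measurableCylinders h,
      fun _ _ h h' => union_mem_measurableCylinders h h'⟩
  obtain ⟨t, ht, htE⟩ := (Measure.MeasureDense.of_generateFrom_isSetAlgebra_finite (bitsPi J) halg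
    generateFrom_measurableCylinders.symm).approx E hEm (measure_ne_top _ _) (δ ^ 2 / 4)
    (by positivity)
  obtain ⟨S, T, hT, rfl⟩ := (mem_measurableCylinders t).mp ht
  obtain ⟨c, hc⟩ := exists_expansion S fun η => spin (decide (η ∈ T))
  set g : (J → Bool) → ℝ := fun b => spin (decide ((fun j : S => b j) ∈ T)) with hg
  have hgm : Measurable g := by
    have h : Measurable fun η : S → Bool => spin (decide (η ∈ T)) := Measurable.of_discrete
    exact h.comp (Finset.measurable_restrict S)
  set f : (J → Bool) → ℝ := fun b => spin (φ b) with hf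
  have hfm : Measurable f := measurable_spin.comp hφ
  have hf1 : ∀ b, |f b| ≤ 1 := fun b => spin_bounded _
  have hg1 : ∀ b, |g b| ≤ 1 := fun b => spin_bounded _
  have hd2 : ∀ b, |f b - g b| ≤ 2 := fun b => (abs_sub _ _).trans (by linarith [hf1 b, hg1 b])
  have hL : ∫ b, (f b - g b) ^ 2 ∂(bitsPi J) ≤ δ ^ 2 := by
    set Q : Set (J → Bool) := E ∆ MeasureTheory.cylinder S T with hQ
    have hQm : MeasurableSet Q := hEm.symmDiff (hT.cylinder)
    calc ∫ b, (f b - g b) ^ 2 ∂(bitsPi J) ≤ ∫ b, Q.indicator (fun _ => (4 : ℝ)) b ∂(bitsPi J) := by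
          refine integral_mono_of_nonneg (Filter.Eventually.of_forall fun b => sq_nonneg _)
            ((integrable_const (4 : ℝ)).indicator hQm) (Filter.Eventually.of_forall fun b => ?_)
          by_cases hb : b ∈ Q
          · simp only [Set.indicator_of_mem hb]
            have := hd2 b
            rw [abs_le] at this
            nlinarith
          · simp only [Set.indicator_of_notMem hb]
            have : f b = g b := by
              simp only [hQ, Set.mem_symmDiff, not_or, not_and_not_right] at hb
              have h : φ b = true ↔ (fun j : S => b j) ∈ T := ⟨hb.1, hb.2⟩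
              simp only [hf, hg]
              congr 1
              rw [Bool.eq_iff_iff, decide_eq_true_iff]
              exact h
            simp [this]
      _ = (bitsPi J).real Q * 4 := by rw [integral_indicator_const _ hQm, smul_eq_mul]
      _ ≤ δ ^ 2 := by
          have h := ENNReal.toReal_mono ENNReal.ofReal_ne_top htE.le
          rw [ENNReal.toReal_ofReal (by positivity), ← measureReal_def] at h
          linarith
  -- the split `f f' = (f - g) f' + g f'`
  have hi1 : Integrable (fun b => (f b - g b) * f' b) (bitsPi J) :=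
    integrable_bounded _ ((hfm.sub hgm).mul hf') 2 fun b => by
      rw [abs_mul]
      calc |f b - g b| * |f' b| ≤ 2 * 1 :=
            mul_le_mul (hd2 b) (hf'1 b) (abs_nonneg _) (by norm_num)
        _ = 2 := by norm_num
  have hi2 : Integrable (fun b => g b * f' b) (bitsPi J) :=
    integrable_bounded _ (hgm.mul hf') 1 fun b => by
      rw [abs_mul]; exact mul_le_one₀ (hg1 b) (abs_nonneg _) (hf'1 b)
  have hsplit : ∫ b, f b * f' b ∂(bitsPi J) = ∫ b, (f b - g b) * f' b ∂(bitsPi J) + ∫ b, g b * f' b ∂(bitsPi J) := by
    rw [← integral_add hi1 hi2]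
    congr 1
    funext b
    ring
  have hsq : Integrable (fun b => (f b - g b) ^ 2) (bitsPi J) :=
    integrable_bounded _ ((hfm.sub hgm).pow_const 2) 4 fun b => by
      rw [abs_pow]
      calc |f b - g b| ^ 2 ≤ 2 ^ 2 := pow_le_pow_left₀ (abs_nonneg _) (hd2 b) 2
        _ = 4 := by norm_num
  have hone : ∀ u, |u| ≤ (1 : ℝ) → u ^ 2 ≤ 1 := fun u hu => (sq_le_one_iff_abs_le_one u).mpr hu
  have hδ0 : 0 < δ := by positivity
  have hprod : ∀ x y : ℝ, x * y ≤ x ^ 2 / (2 * δ) + δ * y ^ 2 / 2 := fun x y => by
    rw [div_add_div _ _ (by positivity) two_ne_zero, le_div_iff₀ (by positivity)]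
    nlinarith [sq_nonneg (x - δ * y)]
  have hfirst : ∫ b, (f b - g b) * f' b ∂(bitsPi J) ≤ δ := by
    calc ∫ b, (f b - g b) * f' b ∂(bitsPi J) ≤ ∫ b, ((f b - g b) ^ 2 / (2 * δ) + δ / 2) ∂(bitsPi J) := by
          refine integral_mono hi1 ((hsq.div_const _).add (integrable_const _)) fun b => ?_
          refine (hprod _ _).trans ?_
          have := mul_le_mul_of_nonneg_left (hone _ (hf'1 b)) hδ0.le
          linarith
      _ = (∫ b, (f b - g b) ^ 2 ∂(bitsPi J)) / (2 * δ) + δ / 2 := by
          rw [integral_add (hsq.div_const _) (integrable_const _), integral_div]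
          simp
      _ ≤ δ ^ 2 / (2 * δ) + δ / 2 := by gcongr
      _ = δ := by field_simp; ring
  -- the finite expansion of `g`
  have hgexp : ∀ b, g b = ∑ A ∈ S.powerset, c A * walsh A b := hc
  have hwI : ∀ A B, Integrable (fun b => c A * (walsh A b * walsh B b)) (bitsPi J) := fun A B =>
    (integrable_bounded _ ((measurable_walsh A).mul (measurable_walsh B)) 1 fun b => by
      rw [Pi.mul_apply, abs_mul, abs_walsh, abs_walsh, one_mul]).const_mul _
  have hGc : ∀ B ∈ S.powerset, coeff g B = c B := by
    intro B hB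
    simp only [coeff, hgexp, Finset.sum_mul, mul_assoc]
    rw [integral_finsetSum _ fun A _ => hwI A B]
    simp only [integral_const_mul, integral_walsh_mul, mul_ite, mul_one, mul_zero,
      Finset.sum_ite_eq', if_pos hB]
  have hsecond : ∫ b, g b * f' b ∂(bitsPi J) = ∑ A ∈ S.powerset, c A * coeff f' A := by
    simp only [hgexp, Finset.sum_mul, mul_assoc]
    rw [integral_finsetSum]
    · refine Finset.sum_congr rfl fun A _ => ?_
      rw [integral_const_mul, coeff]
      simp only [mul_comm (walsh A _)]
    · intro A _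
      refine (integrable_bounded _ ((measurable_walsh A).mul hf') 1 fun b => ?_).const_mul _
      rw [Pi.mul_apply, abs_mul, abs_walsh, one_mul]
      exact hf'1 b
  have hdiff : ∀ A, coeff (fun b => g b - f b) A = coeff g A - coeff f A := by
    intro A
    simp only [coeff, sub_mul]
    exact integral_sub
      (integrable_bounded _ (hgm.mul (measurable_walsh A)) 1 fun b => by
        rw [abs_mul, abs_walsh, mul_one]; exact hg1 b)
      (integrable_bounded _ (hfm.mul (measurable_walsh A)) 1 fun b => by
        rw [abs_mul, abs_walsh, mul_one]; exact hf1 b)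
  have hb1 := bessel (f := fun b => g b - f b) (hgm.sub hfm) (C := 2) (fun b => by rw [abs_sub_comm]; exact hd2 b) S.powerset
  have hb2 := bessel hf' hf'1 S.powerset
  have hb2' : ∫ b, f' b ^ 2 ∂(bitsPi J) ≤ 1 := by
    refine (integral_mono_of_nonneg (Filter.Eventually.of_forall fun b => sq_nonneg _)
      (integrable_const (1 : ℝ)) (Filter.Eventually.of_forall fun b => hone _ (hf'1 b))).trans
      (le_of_eq ?_)
    simp
  have hb1' : ∫ b, (g b - f b) ^ 2 ∂(bitsPi J) ≤ δ ^ 2 := by
    refine le_trans (le_of_eq ?_) hL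
    congr 1
    funext b
    ring
  refine ⟨S.powerset, ?_⟩
  rw [hsplit, hsecond]
  have hterm : ∀ A ∈ S.powerset, c A * coeff f' A ≤ |coeff f A| * |coeff f' A| +
      (coeff (fun b => g b - f b) A ^ 2 / (2 * δ) + δ * coeff f' A ^ 2 / 2) := by
    intro A hA
    have h1 : coeff f A * coeff f' A ≤ |coeff f A| * |coeff f' A| := by
      rw [← abs_mul]; exact le_abs_self _
    have h2 := hprod (coeff (fun b => g b - f b) A) (coeff f' A)
    rw [hdiff A, hGc A hA] at h2 ⊢
    linarith
  have hsum := Finset.sum_le_sum hterm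
  rw [Finset.sum_add_distrib, Finset.sum_add_distrib, ← Finset.sum_div, ← Finset.sum_div,
    ← Finset.mul_sum] at hsum
  have e1 : (∑ A ∈ S.powerset, coeff (fun b => g b - f b) A ^ 2) / (2 * δ) ≤ δ ^ 2 / (2 * δ) :=
    div_le_div_of_nonneg_right (hb1.trans hb1') (by positivity)
  have e1' : δ ^ 2 / (2 * δ) = δ / 2 := by field_simp
  have e2 : δ * (∑ A ∈ S.powerset, coeff f' A ^ 2) ≤ δ * 1 :=
    mul_le_mul_of_nonneg_left (hb2.trans hb2') hδ0.le
  have : δ + δ = ε := by rw [hδ]; ring
  linarith

end Vale.Agent.P161
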